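import Vale.Agent.P233.MetGamma

open MeasureTheory Filter Topology Set
open scoped ENNReal NNReal

namespace Vale.Agent.P233.Met

variable {M : Type*} [MetricSpace M] [MeasurableSpace M] {m : Measure M}

set_option linter.unusedSectionVars false

theorem sq_integral_eq {f : M → ℝ} (hf : MemLp f 2 m) :
    ∫ x, f x ^ 2 ∂m = (eLpNorm f 2 m).toReal ^ 2 := by
  rw [← Lp.norm_toLp f hf, ← real_inner_self_eq_norm_sq, L2.inner_def]
  refine integral_congr_ae ?_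
  filter_upwards [hf.coeFn_toLp] with x hx
  rw [hx]
  simp [sq]

theorem eLpNorm_le_of_sq {f : M → ℝ} (hf : MemLp f 2 m) {c : ℝ≥0}
    (h : ∫ x, f x ^ 2 ∂m ≤ (c : ℝ) ^ 2) : eLpNorm f 2 m ≤ c := by
  rw [sq_integral_eq hf] at h
  have h1 : (eLpNorm f 2 m).toReal ≤ c := (sq_le_sq₀ ENNReal.toReal_nonneg c.coe_nonneg).1 h
  rw [← ENNReal.ofReal_toReal hf.eLpNorm_lt_top.ne, ← ENNReal.ofReal_coe_nnreal]
  exact ENNReal.ofReal_le_ofReal h1

theorem sq_le_of_eLpNorm {f : M → ℝ} (hf : MemLp f 2 m) {c : ℝ≥0}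
    (h : eLpNorm f 2 m ≤ c) : ∫ x, f x ^ 2 ∂m ≤ (c : ℝ) ^ 2 := by
  rw [sq_integral_eq hf]
  have h1 : (eLpNorm f 2 m).toReal ≤ c := by
    have := ENNReal.toReal_mono (by simp) h
    simpa using this
  have h0 := ENNReal.toReal_nonneg (a := eLpNorm f 2 m)
  gcongr

theorem tendsto_sq_of_eLpNorm {u : ℕ → M → ℝ} {f : M → ℝ} (hu : ∀ n, MemLp (u n) 2 m)
    (hf : MemLp f 2 m) (h : Tendsto (fun n => eLpNorm (u n - f) 2 m) atTop (𝓝 0)) :
    Tendsto (fun n => ∫ x, (u n x - f x) ^ 2 ∂m) atTop (𝓝 0) := by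
  have h1 : ∀ n, ∫ x, (u n x - f x) ^ 2 ∂m = (eLpNorm (u n - f) 2 m).toReal ^ 2 := fun n =>
    sq_integral_eq ((hu n).sub hf)
  simp_rw [h1]
  have h2 := ((ENNReal.tendsto_toReal (by simp)).comp h).pow 2
  simpa [Function.comp_def] using h2

theorem tendsto_norm_sq_of_eLpNorm {u : ℕ → M → ℝ} {f : M → ℝ} (hu : ∀ n, MemLp (u n) 2 m)
    (hf : MemLp f 2 m) (h : Tendsto (fun n => eLpNorm (u n - f) 2 m) atTop (𝓝 0)) :
    Tendsto (fun n => ∫ x, (u n x) ^ 2 ∂m) atTop (𝓝 (∫ x, (f x) ^ 2 ∂m)) := by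
  have h1 : ∀ n, ∫ x, (u n x) ^ 2 ∂m = ‖(hu n).toLp‖ ^ 2 := fun n => by
    rw [sq_integral_eq (hu n), Lp.norm_toLp]
  have h2 : ∫ x, (f x) ^ 2 ∂m = ‖hf.toLp‖ ^ 2 := by
    rw [sq_integral_eq hf, Lp.norm_toLp]
  simp_rw [h1]
  rw [h2]
  have h3 : Tendsto (fun n => (hu n).toLp) atTop (𝓝 hf.toLp) := by
    rw [Lp.tendsto_Lp_iff_tendsto_eLpNorm']
    refine h.congr fun n => eLpNorm_congr_ae ?_
    filter_upwards [(hu n).coeFn_toLp, hf.coeFn_toLp] with x hx hy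
    simp [hx, hy]
  exact (h3.norm).pow 2

variable [BorelSpace M]

/-- lower semicontinuity of the energy -/
theorem Q_le_of_approx {f : M → ℝ} (hf : MemLp f 2 m) {c : ℝ} (hc : 0 ≤ c)
    (h : ∀ ε : ℝ≥0∞, ε ≠ 0 → ∃ f' : M → ℝ, W12 m f' ∧ eLpNorm (f' - f) 2 m ≤ ε ∧ Q m f' ≤ c) :
    W12 m f ∧ Q m f ≤ c := by
  have h1 : ∃ G, RSlope m f G ∧ eLpNorm G 2 m ≤ (Real.toNNReal (Real.sqrt c)) := by
    refine exists_rSlope_of_bounded hf fun ε hε => ?_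
    obtain ⟨f', h1, h2, h3⟩ := h ε hε
    refine ⟨f', mslope m f', h1.rSlope, h2, eLpNorm_le_of_sq h1.memLp_mslope ?_⟩
    rw [Real.coe_toNNReal _ (Real.sqrt_nonneg _), Real.sq_sqrt hc]
    exact h3
  obtain ⟨G, hG, hGc⟩ := h1
  have hW : W12 m f := ⟨G, hG⟩
  refine ⟨hW, ?_⟩
  have h2 := sq_le_of_eLpNorm hG.2.1 hGc
  rw [Real.coe_toNNReal _ (Real.sqrt_nonneg _), Real.sq_sqrt hc] at h2
  refine le_trans ?_ h2
  unfold Q
  refine integral_mono_ae (sq_integrable hW) hG.2.1.integrable_sq ?_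
  filter_upwards [hG.mslope_le, hW.mslope_nonneg] with x hx hy
  gcongr

/-- completeness of `W^{1,2}` -/
theorem W12_complete (u : ℕ → M → ℝ) (hu : ∀ n, W12 m (u n))
    (hc : ∀ ε > 0, ∃ N, ∀ n ≥ N, ∀ k ≥ N,
      ∫ x, (u n x - u k x) ^ 2 ∂m + Q m (u n - u k) < ε) :
    ∃ f : M → ℝ, W12 m f ∧
      Tendsto (fun n => ∫ x, (u n x - f x) ^ 2 ∂m + Q m (u n - f)) atTop (𝓝 0) := by
  set U : ℕ → Lp ℝ 2 m := fun n => (hu n).memLp.toLp with hU
  have hUd : ∀ n k, ‖U n - U k‖ ^ 2 = ∫ x, (u n x - u k x) ^ 2 ∂m := by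
    intro n k
    rw [hU]
    simp only
    rw [← MemLp.toLp_sub, Lp.norm_toLp]
    exact (sq_integral_eq ((hu n).memLp.sub (hu k).memLp)).symm
  have hcau : CauchySeq U := by
    rw [Metric.cauchySeq_iff]
    intro ε hε
    obtain ⟨N, hN⟩ := hc (ε ^ 2) (by positivity)
    refine ⟨N, fun n hn k hk => ?_⟩
    rw [dist_eq_norm]
    have h1 := hN n hn k hk
    have h2 : ‖U n - U k‖ ^ 2 < ε ^ 2 := by
      rw [hUd]
      have := Q_nonneg (m := m) (u n - u k)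
      linarith
    exact lt_of_pow_lt_pow_left₀ 2 hε.le h2
  obtain ⟨F, hF⟩ := cauchySeq_tendsto_of_complete hcau
  have hFm : MemLp F 2 m := Lp.memLp F
  have hlim : Tendsto (fun n => eLpNorm (u n - ⇑F) 2 m) atTop (𝓝 0) := by
    rw [Lp.tendsto_Lp_iff_tendsto_eLpNorm'] at hF
    refine hF.congr fun n => eLpNorm_congr_ae ?_
    filter_upwards [(hu n).memLp.coeFn_toLp] with x hx
    simp only [Pi.sub_apply, hU]
    rw [hx]
  -- the key estimate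
  have key : ∀ ε > 0, ∃ N, ∀ n ≥ N, W12 m (u n - ⇑F) ∧ Q m (u n - ⇑F) ≤ ε := by
    intro ε hε
    obtain ⟨N, hN⟩ := hc ε hε
    refine ⟨N, fun n hn => ?_⟩
    refine Q_le_of_approx ((hu n).memLp.sub hFm) hε.le fun δ hδ => ?_
    have e1 := (hlim.eventually (ge_mem_nhds (pos_iff_ne_zero.2 hδ)))
    obtain ⟨k, hk1, hk2⟩ := (e1.and (eventually_ge_atTop N)).exists
    refine ⟨u n - u k, (hu n).sub (hu k), ?_, ?_⟩
    · have e : u n - u k - (u n - ⇑F) = -(u k - ⇑F) := by abel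
      rw [e, eLpNorm_neg]
      exact hk1
    · have h1 := hN n hn k hk2
      have h2 : 0 ≤ ∫ x, (u n x - u k x) ^ 2 ∂m := integral_nonneg fun x => sq_nonneg _
      linarith
  obtain ⟨N, hN⟩ := key 1 one_pos
  have hFW : W12 m ⇑F := by
    have h1 := (hu N).sub (hN N le_rfl).1
    have e : u N - (u N - ⇑F) = ⇑F := by abel
    rwa [e] at h1
  refine ⟨F, hFW, ?_⟩
  have h1 := tendsto_sq_of_eLpNorm (fun n => (hu n).memLp) hFm hlim
  have h2 : Tendsto (fun n => Q m (u n - ⇑F)) atTop (𝓝 0) := by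
    rw [Metric.tendsto_atTop]
    intro ε hε
    obtain ⟨N, hN⟩ := key (ε / 2) (by positivity)
    refine ⟨N, fun n hn => ?_⟩
    rw [Real.dist_eq, sub_zero, abs_of_nonneg (Q_nonneg _)]
    linarith [(hN n hn).2]
  simpa using h1.add h2

/-- density of bounded Lipschitz functions in energy -/
theorem dense_lip (hQ : Quad m) {f : M → ℝ} (hf : W12 m f) {ε : ℝ} (hε : 0 < ε) :
    ∃ u g : M → ℝ, Good m u g ∧ (∃ C, ∀ x, |u x| ≤ C) ∧
      ∫ x, (f x - u x) ^ 2 ∂m + Q m (f - u) < ε := by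
  -- approximating sequence
  have hex : ∀ k : ℕ, ∃ p : (M → ℝ) × (M → ℝ), Good m p.1 p.2 ∧ (∃ C, ∀ x, |p.1 x| ≤ C) ∧
      eLpNorm (p.1 - f) 2 m ≤ ((k : ℝ≥0∞) + 1)⁻¹ ∧
      eLpNorm (p.2 - mslope m f) 2 m ≤ ((k : ℝ≥0∞) + 1)⁻¹ := by
    intro k
    obtain ⟨u, g, h1, h2, h3, h4⟩ := hf.rSlope.exists_bdd (ε := ((k : ℝ≥0∞) + 1)⁻¹)
      (by simp [ENNReal.inv_eq_zero])
    exact ⟨(u, g), h1, h2, h3, h4⟩
  choose p hp1 hp2 hp3 hp4 using hex
  have hlim0 : Tendsto (fun k : ℕ => ((k : ℝ≥0∞) + 1)⁻¹) atTop (𝓝 0) := by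
    have := ENNReal.tendsto_inv_nat_nhds_zero
    have h2 := this.comp (tendsto_add_atTop_nat 1)
    simpa [Function.comp_def] using h2
  have l1 : Tendsto (fun k => eLpNorm ((p k).1 - f) 2 m) atTop (𝓝 0) :=
    tendsto_of_tendsto_of_tendsto_of_le_of_le tendsto_const_nhds hlim0 (fun _ => zero_le) hp3
  have l2 : Tendsto (fun k => eLpNorm ((p k).2 - mslope m f) 2 m) atTop (𝓝 0) :=
    tendsto_of_tendsto_of_tendsto_of_le_of_le tendsto_const_nhds hlim0 (fun _ => zero_le) hp4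
  have hW : ∀ k, W12 m (p k).1 := fun k => ⟨_, (hp1 k).rSlope⟩
  have n1 := tendsto_sq_of_eLpNorm (fun k => (hp1 k).2.1) hf.memLp l1
  have n2 := tendsto_norm_sq_of_eLpNorm (fun k => (hp1 k).2.2.1) hf.memLp_mslope l2
  have hQle : ∀ k, Q m (p k).1 ≤ ∫ x, ((p k).2 x) ^ 2 ∂m := by
    intro k
    unfold Q
    refine integral_mono_ae (sq_integrable (hW k)) (hp1 k).2.2.1.integrable_sq ?_
    filter_upwards [(hp1 k).rSlope.mslope_le, (hW k).mslope_nonneg] with x hx hy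
    gcongr
  -- choose k with small L² error, small gradient excess, and small energy of the difference
  by_contra hcon
  push Not at hcon
  have h1 : ∀ᶠ k in atTop, ∫ x, ((p k).1 x - f x) ^ 2 ∂m < ε / 2 :=
    n1.eventually (gt_mem_nhds (by positivity))
  have h2 : ∀ᶠ k in atTop, ∫ x, ((p k).2 x) ^ 2 ∂m < Q m f + ε / 8 :=
    n2.eventually (gt_mem_nhds (by unfold Q; linarith))
  have h3 : ∀ᶠ k in atTop, Q m ((p k).1 + f) ≤ 4 * Q m f - ε / 4 := by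
    filter_upwards [h1, h2] with k hk1 hk2
    have h4 := hcon (p k).1 (p k).2 (hp1 k) (hp2 k)
    have h5 := hQ (p k).1 f (hW k) hf
    have h6 : Q m (f - (p k).1) = Q m ((p k).1 - f) := Q_sub_comm hf (hW k)
    have h7 : ∫ x, (f x - (p k).1 x) ^ 2 ∂m = ∫ x, ((p k).1 x - f x) ^ 2 ∂m := by
      congr 1; ext x; ring
    rw [h6, h7] at h4
    have h8 := hQle k
    linarith
  have e : (fun x => 2 * f x) = f + f := by ext x; simp; ring
  have hc0 : 0 ≤ 4 * Q m f - ε / 4 := by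
    obtain ⟨k, hk⟩ := h3.exists
    exact (Q_nonneg _).trans hk
  have h4 := Q_le_of_approx (m := m) (hf.memLp.add hf.memLp) hc0 fun δ hδ => by
    have e1 := (l1.eventually (ge_mem_nhds (pos_iff_ne_zero.2 hδ)))
    obtain ⟨k, hk1, hk2⟩ := (e1.and h3).exists
    refine ⟨(p k).1 + f, (hW k).add hf, ?_, hk2⟩
    have e2 : (p k).1 + f - (f + f) = (p k).1 - f := by abel
    rw [e2]
    exact hk1
  have h5 := Q_const_mul 2 hf
  rw [e] at h5
  rw [h5] at h4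
  linarith [h4.2]

end Vale.Agent.P233.Met
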