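import Vale.Agent.P233.Metric
import Vale.Agent.P233.MetComplete

open MeasureTheory Filter Topology
open scoped ENNReal NNReal

namespace Vale.Agent.P233

section
variable {M : Type*} [MetricSpace M] [MeasurableSpace M] [BorelSpace M] {m : Measure M}

theorem sob_add_mem {f g : M →ₘ[m] ℝ} (hf : f ∈ (sob m).W) (hg : g ∈ (sob m).W) :
    f + g ∈ (sob m).W :=
  mem_sob_iff.2 (((mem_sob_iff.1 hf).add (mem_sob_iff.1 hg)).congr (AEEqFun.coeFn_add f g).symm)

theorem sob_smul_mem (c : ℝ) {f : M →ₘ[m] ℝ} (hf : f ∈ (sob m).W) : c • f ∈ (sob m).W :=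
  mem_sob_iff.2 (((mem_sob_iff.1 hf).const_mul c).congr (AEEqFun.coeFn_smul c f).symm)

theorem sob_sub_mem {f g : M →ₘ[m] ℝ} (hf : f ∈ (sob m).W) (hg : g ∈ (sob m).W) :
    f - g ∈ (sob m).W :=
  mem_sob_iff.2 (((mem_sob_iff.1 hf).sub (mem_sob_iff.1 hg)).congr (AEEqFun.coeFn_sub f g).symm)

/-- the carre du champ in terms of functions -/
theorem sob_Γ_ae {f g : M →ₘ[m] ℝ} (hf : f ∈ (sob m).W) (hg : g ∈ (sob m).W) :
    ⇑((sob m).Γ f g) =ᵐ[m] Met.gam m f g := by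
  have e : (sob m).Γ f g = (4 : ℝ)⁻¹ • (slope (f + g) ^ 2 - slope (f - g) ^ 2) := rfl
  rw [e]
  filter_upwards [smul_ae (slope (f + g) ^ 2 - slope (f - g) ^ 2) (4 : ℝ)⁻¹,
    sub_ae (slope (f + g) ^ 2) (slope (f - g) ^ 2), sq_ae (slope (f + g)), sq_ae (slope (f - g)),
    slope_ae (sob_add_mem hf hg), slope_ae (sob_sub_mem hf hg),
    Met.mslope_congr (AEEqFun.coeFn_add f g) (mem_sob_iff.1 (sob_add_mem hf hg)),
    Met.mslope_congr (AEEqFun.coeFn_sub f g) (mem_sob_iff.1 (sob_sub_mem hf hg))]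
    with x h1 h2 h3 h4 h5 h6 h7 h8
  rw [h1, h2, h3, h4, h5, h6, h7, h8]
  unfold Met.gam
  ring

theorem sob_Γ_self_ae {f : M →ₘ[m] ℝ} (hf : f ∈ (sob m).W) :
    ∀ᵐ x ∂m, (sob m).Γ f f x = Met.mslope m f x ^ 2 := by
  filter_upwards [sob_Γ_ae hf hf, Met.gam_self (mem_sob_iff.1 hf)] with x h1 h2
  rw [h1, h2]

theorem sob_Γ_self {f : M →ₘ[m] ℝ} (hf : f ∈ (sob m).W) :
    (sob m).Γ f f = slope f ^ 2 := by
  rw [eq_iff_ae]
  filter_upwards [sob_Γ_self_ae hf, slope_ae hf, sq_ae (slope f)] with x h1 h2 h3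
  rw [h1, h3, h2]

theorem sob_nrm2 {f : M →ₘ[m] ℝ} (hf : f ∈ (sob m).W) :
    (sob m).nrm2 f = ∫ x, f x ^ 2 ∂m + Met.Q m f := by
  unfold Calc.nrm2 I Met.Q
  congr 1
  · exact integral_congr_ae (sq_ae f)
  · exact integral_congr_ae (sob_Γ_self_ae hf)

theorem sob_nrm2_sub {f : M →ₘ[m] ℝ} (hf : f ∈ (sob m).W) {u : M → ℝ} {v : M →ₘ[m] ℝ}
    (hv : v ∈ (sob m).W) (huv : ⇑v =ᵐ[m] u) :
    (sob m).nrm2 (f - v) = ∫ x, (f x - u x) ^ 2 ∂m + Met.Q m (f - u) := by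
  have h1 := sob_sub_mem hf hv
  rw [sob_nrm2 h1]
  have h2 : ⇑(f - v) =ᵐ[m] ⇑f - u := by
    filter_upwards [AEEqFun.coeFn_sub f v, huv] with x hx hy
    rw [hx]; simp [hy]
  congr 1
  · refine integral_congr_ae ?_
    filter_upwards [h2] with x hx
    rw [hx, Pi.sub_apply]
  · unfold Met.Q
    refine integral_congr_ae ?_
    filter_upwards [Met.mslope_congr h2 (mem_sob_iff.1 h1)] with x hx
    rw [hx]

/-- class of a Sobolev function -/
theorem exists_class {u : M → ℝ} (hu : Met.W12 m u) :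
    ∃ v ∈ (sob m).W, (⇑(v : M →ₘ[m] ℝ) : M → ℝ) =ᵐ[m] u := by
  have hae := AEEqFun.coeFn_mk u hu.memLp.1
  exact ⟨AEEqFun.mk u hu.memLp.1, mem_sob_iff.2 (hu.congr hae.symm), hae⟩

theorem slope_sq_integral {f : M →ₘ[m] ℝ} (hf : f ∈ (sob m).W) {u : M → ℝ} (hu : ⇑f =ᵐ[m] u) :
    ∫ x, (slope f ^ 2) x ∂m = Met.Q m u := by
  unfold Met.Q
  refine integral_congr_ae ?_
  filter_upwards [sq_ae (slope f), slope_ae hf, Met.mslope_congr hu (mem_sob_iff.1 hf)]
    with x h1 h2 h3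
  rw [h1, h2, h3]

theorem quad_of (hq : ∀ f ∈ (sob m).W, ∀ g ∈ (sob m).W,
      ∫ x, (slope (f + g) ^ 2) x ∂m + ∫ x, (slope (f - g) ^ 2) x ∂m
        = 2 * ∫ x, (slope f ^ 2) x ∂m + 2 * ∫ x, (slope g ^ 2) x ∂m) : Met.Quad m := by
  intro f g hf hg
  obtain ⟨F, hF, hFf⟩ := exists_class hf
  obtain ⟨G, hG, hGg⟩ := exists_class hg
  have h1 := hq F hF G hG
  have e1 : ⇑(F + G) =ᵐ[m] f + g := by
    filter_upwards [AEEqFun.coeFn_add F G, hFf, hGg] with x h1 h2 h3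
    rw [h1]; simp [h2, h3]
  have e2 : ⇑(F - G) =ᵐ[m] f - g := by
    filter_upwards [AEEqFun.coeFn_sub F G, hFf, hGg] with x h1 h2 h3
    rw [h1]; simp [h2, h3]
  rw [slope_sq_integral (sob_add_mem hF hG) e1, slope_sq_integral (sob_sub_mem hF hG) e2,
    slope_sq_integral hF hFf, slope_sq_integral hG hGg] at h1
  exact h1

end

variable {M : Type*} [MetricSpace M] [MeasurableSpace M] [BorelSpace M]
  [SecondCountableTopology M] {m : Measure M}

/-- the Sobolev calculus satisfies the axioms -/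
theorem isDir_sob (hfin : ∀ (x : M) (r : ℝ), m (Metric.ball x r) < ∞)
    (hq : ∀ f ∈ (sob m).W, ∀ g ∈ (sob m).W,
      ∫ x, (slope (f + g) ^ 2) x ∂m + ∫ x, (slope (f - g) ^ 2) x ∂m
        = 2 * ∫ x, (slope f ^ 2) x ∂m + 2 * ∫ x, (slope g ^ 2) x ∂m) :
    IsDir (sob m) where
  zero_mem := mem_sob_iff.2 (Met.W12.zero.congr AEEqFun.coeFn_zero.symm)
  add_mem f hf g hg := sob_add_mem hf hg
  smul_mem c f hf := sob_smul_mem c hf
  memLp f hf := (mem_sob_iff.1 hf).memLp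
  symm f hf g hg := by
    rw [eq_iff_ae]
    filter_upwards [sob_Γ_ae hf hg, sob_Γ_ae hg hf,
      Met.gam_symm (mem_sob_iff.1 hf) (mem_sob_iff.1 hg)] with x h1 h2 h3
    rw [h1, h2, h3]
  add_left f hf g hg h hh := by
    have hf' := mem_sob_iff.1 hf
    have hg' := mem_sob_iff.1 hg
    have hh' := mem_sob_iff.1 hh
    rw [eq_iff_ae]
    filter_upwards [sob_Γ_ae (sob_add_mem hf hg) hh, sob_Γ_ae hf hh, sob_Γ_ae hg hh,
      add_ae ((sob m).Γ f h) ((sob m).Γ g h),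
      Met.gam_congr (mem_sob_iff.1 (sob_add_mem hf hg)) hh' (AEEqFun.coeFn_add f g)
        Filter.EventuallyEq.rfl,
      Met.gam_add_left hfin (quad_of hq) hf' hg' hh'] with x h1 h2 h3 h4 h5 h6
    rw [h1, h4, h2, h3, h5, h6]
  smul_left c f hf g hg := by
    have hf' := mem_sob_iff.1 hf
    have hg' := mem_sob_iff.1 hg
    rw [eq_iff_ae]
    filter_upwards [sob_Γ_ae (sob_smul_mem c hf) hg, sob_Γ_ae hf hg,
      smul_ae ((sob m).Γ f g) c,
      Met.gam_congr (mem_sob_iff.1 (sob_smul_mem c hf)) hg' (AEEqFun.coeFn_smul c f)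
        Filter.EventuallyEq.rfl,
      Met.gam_const_mul hfin (quad_of hq) hf' hg' c] with x h1 h2 h3 h5 h6
    rw [h1, h3, h2, h5]
    exact h6
  nonneg f hf := by
    rw [nonneg_iff_ae]
    filter_upwards [sob_Γ_self_ae hf] with x h1
    rw [h1]; positivity
  mem1 f hf := by
    refine (memLp_congr_ae (sob_Γ_self_ae hf)).2 ?_
    rw [memLp_one_iff_integrable]
    exact Met.sq_integrable (mem_sob_iff.1 hf)
  complete u hu hc := by
    obtain ⟨f, hf, hlim⟩ := Met.W12_complete (m := m) (fun n => ⇑(u n))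
      (fun n => mem_sob_iff.1 (hu n)) (by
        intro ε hε
        obtain ⟨N, hN⟩ := hc ε hε
        refine ⟨N, fun n hn k hk => ?_⟩
        have h1 := hN n hn k hk
        rwa [sob_nrm2_sub (hu n) (hu k) Filter.EventuallyEq.rfl] at h1)
    obtain ⟨F, hF, hFf⟩ := exists_class hf
    refine ⟨F, hF, hlim.congr fun n => ?_⟩
    exact (sob_nrm2_sub (hu n) hF hFf).symm
  chain f hf φ φ' hφ hφ' hd h0 hK := by
    have hf' := mem_sob_iff.1 hf
    obtain ⟨K, hK⟩ := hK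
    have hder : deriv φ = φ' := funext fun t => (hd t).deriv
    have hC1 : ContDiff ℝ 1 φ := by
      rw [contDiff_one_iff_deriv]
      exact ⟨fun t => (hd t).differentiableAt, by rw [hder]; exact hφ'⟩
    have hL : ∀ t, |deriv φ t| ≤ (Real.toNNReal K : ℝ) := by
      intro t
      rw [hder]
      exact (hK t).trans (Real.le_coe_toNNReal K)
    have hW := hf'.comp hC1 h0 hL
    have hae : (fun x => φ (f x)) =ᵐ[m] ⇑(AEEqFun.comp φ hφ f) :=
      (AEEqFun.coeFn_comp φ hφ f).symm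
    have hmem : AEEqFun.comp φ hφ f ∈ (sob m).W := mem_sob_iff.2 (hW.congr hae)
    refine ⟨hmem, fun g hg => ?_⟩
    have hg' := mem_sob_iff.1 hg
    rw [eq_iff_ae]
    filter_upwards [sob_Γ_ae hmem hg, sob_Γ_ae hf hg,
      mul_ae (AEEqFun.comp φ' hφ' f) ((sob m).Γ f g), AEEqFun.coeFn_comp φ' hφ' f,
      Met.gam_congr hW hg' hae Filter.EventuallyEq.rfl,
      Met.gam_comp hfin (quad_of hq) hf' hg' hC1 h0 hL] with x h1 h2 h3 h4 h5 h6
    rw [h1, h3, h4, h2, ← h5, h6, hder]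
    rfl
  dense_L2 f hf ε hε := dense_L2_sob hfin f hf ε hε

/-- cut-off functions -/
theorem sob_cutoff (hfin : ∀ (x : M) (r : ℝ), m (Metric.ball x r) < ∞) :
    ∃ η : ℕ → M →ₘ[m] ℝ, (∀ k, η k ∈ (sob m).W ∧ 0 ≤ η k ∧ η k ≤ 1 ∧
      (sob m).Γ (η k) (η k) ≤ ((k : ℝ) + 1)⁻¹ • 1) ∧ (∀ k, η k ≤ η (k + 1)) ∧
      ∀ᵐ x ∂m, Tendsto (fun k => η k x) atTop (𝓝 1) := by
  rcases isEmpty_or_nonempty M with hM | ⟨⟨x₀⟩⟩
  · have h0 : (0 : M →ₘ[m] ℝ) ∈ (sob m).W :=
      mem_sob_iff.2 (Met.W12.zero.congr AEEqFun.coeFn_zero.symm)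
    refine ⟨fun _ => 0, fun k => ⟨h0, le_rfl, ?_, ?_⟩, fun k => le_rfl, ?_⟩
    · rw [le_iff_ae]; filter_upwards with x; exact (hM.false x).elim
    · rw [le_iff_ae]; filter_upwards with x; exact (hM.false x).elim
    · filter_upwards with x; exact (hM.false x).elim
  set w : ℕ → M → ℝ := fun k x => max 0 (min 1 (2 - dist x x₀ / ((k : ℝ) + 1))) with hw
  have hk0 : ∀ k : ℕ, (0 : ℝ) < (k : ℝ) + 1 := fun k => by positivity
  have hlip : ∀ k : ℕ, LipschitzWith (Real.toNNReal ((k : ℝ) + 1)⁻¹) (w k) := by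
    intro k
    have h1 : LipschitzWith (Real.toNNReal ((k : ℝ) + 1)⁻¹)
        (fun x : M => 2 - dist x x₀ / ((k : ℝ) + 1)) := by
      refine LipschitzWith.of_dist_le_mul fun x y => ?_
      rw [Real.dist_eq, Real.coe_toNNReal _ (inv_nonneg.2 (hk0 k).le)]
      have e : 2 - dist x x₀ / ((k : ℝ) + 1) - (2 - dist y x₀ / ((k : ℝ) + 1)) =
          ((k : ℝ) + 1)⁻¹ * (dist y x₀ - dist x x₀) := by ring
      rw [e, abs_mul, abs_of_nonneg (inv_nonneg.2 (hk0 k).le)]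
      refine mul_le_mul_of_nonneg_left ?_ (inv_nonneg.2 (hk0 k).le)
      rw [dist_comm x y]
      exact abs_dist_sub_le y x x₀
    exact (h1.const_min 1).const_max 0
  have hw0 : ∀ k x, 0 ≤ w k x := fun k x => le_max_left _ _
  have hw1 : ∀ k x, w k x ≤ 1 := fun k x => max_le zero_le_one (min_le_left _ _)
  have hsupp : ∀ (k : ℕ) (x : M), x ∉ Metric.ball x₀ (2 * ((k : ℝ) + 1)) → w k x = 0 := by
    intro k x hx
    rw [Metric.mem_ball, not_lt] at hx
    have h1 : 2 ≤ dist x x₀ / ((k : ℝ) + 1) := by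
      rw [le_div_iff₀ (hk0 k)]; exact hx
    exact max_eq_left ((min_le_right _ _).trans (by linarith))
  have hgood : ∀ k, Met.Good m (w k) _ := fun k =>
    Met.good_of_bounded_support hfin (hlip k) (hsupp k)
  have hW : ∀ k, Met.W12 m (w k) := fun k => ⟨_, (hgood k).rSlope⟩
  choose η hη1 hη2 using fun k => exists_class (hW k)
  refine ⟨η, fun k => ⟨hη1 k, ?_, ?_, ?_⟩, fun k => ?_, ?_⟩
  · rw [nonneg_iff_ae]
    filter_upwards [hη2 k] with x hx
    rw [hx]; exact hw0 k x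
  · rw [le_iff_ae]
    filter_upwards [hη2 k, one_ae (M := M) (m := m)] with x hx hy
    rw [hx, hy]; exact hw1 k x
  · have h1 := slope_le_of_lipschitz hfin (hη1 k) (hη2 k) (hlip k)
    rw [Real.coe_toNNReal _ (inv_nonneg.2 (hk0 k).le)] at h1
    rw [le_iff_ae] at h1 ⊢
    filter_upwards [h1, sob_Γ_self_ae (hη1 k), slope_ae (hη1 k),
      smul_ae (1 : M →ₘ[m] ℝ) ((k : ℝ) + 1)⁻¹, one_ae (M := M) (m := m),
      (mem_sob_iff.1 (hη1 k)).mslope_nonneg] with x a1 a2 a3 a4 a5 a6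
    rw [a3, a4, a5, mul_one] at a1
    rw [a2, a4, a5, mul_one]
    have h2 : ((k : ℝ) + 1)⁻¹ ≤ 1 := inv_le_one_of_one_le₀ (by linarith [Nat.cast_nonneg (α := ℝ) k])
    have h3 : (0 : ℝ) ≤ ((k : ℝ) + 1)⁻¹ := inv_nonneg.2 (hk0 k).le
    nlinarith
  · rw [le_iff_ae]
    filter_upwards [hη2 k, hη2 (k + 1)] with x hx hy
    rw [hx, hy]
    simp only [hw]
    refine max_le_max le_rfl (min_le_min le_rfl ?_)
    push_cast
    have h1 : dist x x₀ / ((k : ℝ) + 1 + 1) ≤ dist x x₀ / ((k : ℝ) + 1) :=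
      div_le_div_of_nonneg_left dist_nonneg (hk0 k) (by linarith)
    linarith
  · filter_upwards [ae_all_iff.2 hη2] with x hx
    obtain ⟨N, hN⟩ := exists_nat_ge (dist x x₀)
    refine tendsto_const_nhds.congr' ?_
    filter_upwards [eventually_ge_atTop N] with k hk
    rw [hx k]
    simp only [hw]
    have h1 : dist x x₀ / ((k : ℝ) + 1) ≤ 1 := by
      rw [div_le_one (hk0 k)]
      have h2 : (N : ℝ) ≤ k := by exact_mod_cast hk
      linarith
    rw [min_eq_left (by linarith), max_eq_right zero_le_one]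

theorem isGamma_sob (hfin : ∀ (x : M) (r : ℝ), m (Metric.ball x r) < ∞)
    (hq : ∀ f ∈ (sob m).W, ∀ g ∈ (sob m).W,
      ∫ x, (slope (f + g) ^ 2) x ∂m + ∫ x, (slope (f - g) ^ 2) x ∂m
        = 2 * ∫ x, (slope f ^ 2) x ∂m + 2 * ∫ x, (slope g ^ 2) x ∂m)
    (hs : ∀ f ∈ (sob m).W, slope f ≤ 1 → ∃ u : M → ℝ, LipschitzWith 1 u ∧ f =ᵐ[m] u) :
    IsGamma (sob m) where
  toIsDir := isDir_sob hfin hq
  dense_lip f hf ε hε := by
    obtain ⟨u, g, h1, ⟨C, hC⟩, h3⟩ := Met.dense_lip (quad_of hq) (mem_sob_iff.1 hf) hε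
    obtain ⟨v, hv, hvu⟩ := exists_class (⟨_, h1.rSlope⟩ : Met.W12 m u)
    obtain ⟨K, hK⟩ := h1.1
    refine ⟨v, hv, ?_, ?_, ?_⟩
    · rw [mem_top_iff]
      refine ⟨C, ?_⟩
      filter_upwards [hvu] with x hx
      rw [hx]; exact hC x
    · rw [mem_top_iff]
      refine ⟨(K : ℝ) ^ 2, ?_⟩
      have h4 := slope_le_of_lipschitz hfin hv hvu hK
      rw [le_iff_ae] at h4
      filter_upwards [h4, sob_Γ_self_ae hv, slope_ae hv,
        smul_ae (1 : M →ₘ[m] ℝ) (K : ℝ), one_ae (M := M) (m := m),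
        (mem_sob_iff.1 hv).mslope_nonneg] with x a1 a2 a3 a4 a5 a6
      rw [a3, a4, a5, mul_one] at a1
      rw [a2, abs_of_nonneg (sq_nonneg _)]
      gcongr
    · rw [sob_nrm2_sub hf hv hvu]
      exact h3
  cutoff := sob_cutoff hfin
  lip_iff f hf := by
    constructor
    · rintro ⟨u, ⟨K, hK⟩, ⟨C, hC⟩, hfu⟩
      refine ⟨?_, ?_⟩
      · rw [mem_top_iff]
        refine ⟨C, ?_⟩
        filter_upwards [hfu] with x hx
        rw [hx]; exact hC x
      · rw [mem_top_iff]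
        refine ⟨(K : ℝ) ^ 2, ?_⟩
        have h4 := slope_le_of_lipschitz hfin hf hfu hK
        rw [le_iff_ae] at h4
        filter_upwards [h4, sob_Γ_self_ae hf, slope_ae hf,
          smul_ae (1 : M →ₘ[m] ℝ) (K : ℝ), one_ae (M := M) (m := m),
          (mem_sob_iff.1 hf).mslope_nonneg] with x a1 a2 a3 a4 a5 a6
        rw [a3, a4, a5, mul_one] at a1
        rw [a2, abs_of_nonneg (sq_nonneg _)]
        gcongr
    · rintro ⟨h1, h2⟩
      obtain ⟨C, hC⟩ := mem_top_iff.1 h1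
      obtain ⟨L, hL⟩ := mem_top_iff.1 h2
      -- scale so that the slope is at most one
      set c : ℝ := 1 + |L| with hc
      have hc1 : 1 ≤ c := by rw [hc]; linarith [abs_nonneg L]
      have hc0 : 0 < c := by linarith
      have hcf : c⁻¹ • f ∈ (sob m).W := sob_smul_mem _ hf
      have hsl : slope (c⁻¹ • f) ≤ 1 := by
        rw [le_iff_ae]
        filter_upwards [slope_ae hcf, one_ae (M := M) (m := m), hL, sob_Γ_self_ae hf,
          Met.mslope_const_mul c⁻¹ (mem_sob_iff.1 hf),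
          Met.mslope_congr (AEEqFun.coeFn_smul c⁻¹ f) (mem_sob_iff.1 hcf),
          (mem_sob_iff.1 hf).mslope_nonneg] with x a1 a2 a3 a4 a5 a6 a7
        rw [a1, a2, a6]
        have a5' : Met.mslope m (c⁻¹ • ⇑f) x = |c⁻¹| * Met.mslope m f x := a5
        rw [a5', abs_of_pos (inv_pos.2 hc0)]
        rw [a4, abs_of_nonneg (sq_nonneg _)] at a3
        rw [inv_mul_le_iff₀ hc0, mul_one]
        have h3 : Met.mslope m f x ^ 2 ≤ c ^ 2 := by
          calc Met.mslope m f x ^ 2 ≤ L := a3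
            _ ≤ |L| := le_abs_self L
            _ ≤ c ^ 2 := by nlinarith [abs_nonneg L]
        exact (sq_le_sq₀ a7 hc0.le).1 h3
      obtain ⟨u, hu1, hu2⟩ := hs _ hcf hsl
      -- the truncated representative
      refine ⟨fun x => Met.trunc |C| (c * u x), ?_, ⟨|C|, fun x => Met.abs_trunc_le (abs_nonneg C) _⟩,
        ?_⟩
      · have h3 : Met.IsLip (fun x => c * u x) := Met.IsLip.const_mul c ⟨1, hu1⟩
        exact h3.comp (Met.trunc_lip |C|)
      · filter_upwards [hu2, AEEqFun.coeFn_smul c⁻¹ f, hC] with x a1 a2 a3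
        rw [← a1, a2]
        simp only [Pi.smul_apply, smul_eq_mul]
        rw [mul_inv_cancel_left₀ hc0.ne', Met.trunc_of_abs_le (a3.trans (le_abs_self C))]

omit [BorelSpace M] [SecondCountableTopology M] in
theorem sigmaFinite_of_ball (hfin : ∀ (x : M) (r : ℝ), m (Metric.ball x r) < ∞) :
    SigmaFinite m := by
  rcases isEmpty_or_nonempty M with hM | ⟨⟨x₀⟩⟩
  · have : m = 0 := by
      ext s hs
      have : s = ∅ := Set.eq_empty_of_isEmpty s
      rw [this]; simp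
    rw [this]; infer_instance
  · refine ⟨⟨⟨fun n => Metric.ball x₀ n, fun n => trivial, fun n => hfin x₀ n, ?_⟩⟩⟩
    exact Metric.iUnion_ball_nat x₀

end Vale.Agent.P233
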