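import Mathlib

open Filter Topology Set

namespace Vale.Agent.P233

/-- smooth truncation at the level `K` -/
theorem exists_clamp {K : ℝ} (hK : 0 < K) (n : ℕ) : ∃ φ φ' : ℝ → ℝ, Continuous φ ∧ Continuous φ' ∧
    (∀ t, HasDerivAt φ (φ' t) t) ∧ φ 0 = 0 ∧ (∀ t, 0 ≤ φ' t ∧ φ' t ≤ 1) ∧ (∀ t, |φ t| ≤ K) ∧
    (∀ t s, |φ t - φ s| ≤ |t - s|) ∧ ∀ t, |t| ≤ K → |φ t - t| ≤ K / ((n : ℝ) + 1) := by
  set N : ℝ := (n : ℝ) + 1 with hN
  have hN0 : 0 < N := by positivity
  have hN1 : 1 ≤ N := by rw [hN]; linarith [Nat.cast_nonneg (α := ℝ) n]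
  set ρ : ℝ → ℝ := fun s => max 0 (min 1 ((K - |s|) * (N / K))) with hρ
  have hρc : Continuous ρ := by fun_prop
  have hρ0 : ∀ s, 0 ≤ ρ s := fun s => le_max_left _ _
  have hρ1 : ∀ s, ρ s ≤ 1 := fun s => max_le zero_le_one (min_le_left _ _)
  set φ : ℝ → ℝ := fun t => ∫ s in (0 : ℝ)..t, ρ s with hφ
  have hd : ∀ t, HasDerivAt φ (ρ t) t := fun t => (hρc.integral_hasStrictDerivAt 0 t).hasDerivAt
  have hφc : Continuous φ := continuous_iff_continuousAt.2 fun t => (hd t).continuousAt
  have hφ0 : φ 0 = 0 := by simp [hφ]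
  have hlip : ∀ t s, |φ t - φ s| ≤ |t - s| := by
    intro t s
    have := Convex.norm_image_sub_le_of_norm_hasDerivWithin_le (f := φ) (f' := ρ) (s := univ)
      (C := 1) (fun x _ => (hd x).hasDerivWithinAt)
      (fun x _ => by rw [Real.norm_eq_abs, abs_of_nonneg (hρ0 x)]; exact hρ1 x) convex_univ
      (mem_univ s) (mem_univ t)
    simpa using this
  have hle : ∀ t, |φ t| ≤ |t| := by
    intro t
    have := hlip t 0
    rwa [hφ0, sub_zero, sub_zero] at this
  -- constancy outside
  have hout1 : ∀ t, K ≤ t → φ t = φ K := by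
    intro t ht
    have := Convex.norm_image_sub_le_of_norm_hasDerivWithin_le (f := φ) (f' := ρ) (s := Ici K)
      (C := 0) (fun x _ => (hd x).hasDerivWithinAt)
      (fun x hx => by
        have hx' : K ≤ x := hx
        have h1 : (K - |x|) * (N / K) ≤ 0 :=
          mul_nonpos_of_nonpos_of_nonneg (by linarith [le_abs_self x]) (by positivity)
        have h2 : ρ x = 0 := by
          simp only [hρ]
          exact max_eq_left ((min_le_right _ _).trans h1)
        rw [h2]; simp) (convex_Ici K) (mem_Ici.2 le_rfl) (mem_Ici.2 ht)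
    rw [zero_mul, norm_le_zero_iff] at this
    linarith
  have hout2 : ∀ t, t ≤ -K → φ t = φ (-K) := by
    intro t ht
    have := Convex.norm_image_sub_le_of_norm_hasDerivWithin_le (f := φ) (f' := ρ) (s := Iic (-K))
      (C := 0) (fun x _ => (hd x).hasDerivWithinAt)
      (fun x hx => by
        have hx' : x ≤ -K := hx
        have h1 : (K - |x|) * (N / K) ≤ 0 :=
          mul_nonpos_of_nonpos_of_nonneg (by linarith [neg_le_abs x]) (by positivity)
        have h2 : ρ x = 0 := by
          simp only [hρ]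
          exact max_eq_left ((min_le_right _ _).trans h1)
        rw [h2]; simp) (convex_Iic (-K)) (mem_Iic.2 le_rfl) (mem_Iic.2 ht)
    rw [zero_mul, norm_le_zero_iff] at this
    linarith
  have hbd : ∀ t, |φ t| ≤ K := by
    intro t
    rcases le_total K t with h | h
    · rw [hout1 t h]
      exact (hle K).trans (abs_of_pos hK).le
    rcases le_total t (-K) with h' | h'
    · rw [hout2 t h']
      refine (hle (-K)).trans ?_
      rw [abs_neg, abs_of_pos hK]
    · exact (hle t).trans (abs_le.2 ⟨h', h⟩)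
  -- identity inside
  set a : ℝ := K - K / N with ha
  have hKN : K / N ≤ K := div_le_self hK.le hN1
  have hKN0 : 0 < K / N := by positivity
  have ha0 : 0 ≤ a := by rw [ha]; linarith
  have hin : ∀ t, |t| ≤ a → φ t = t := by
    intro t ht
    have := Convex.norm_image_sub_le_of_norm_hasDerivWithin_le (f := fun t => φ t - t)
      (f' := fun t => ρ t - 1) (s := Icc (-a) a)
      (C := 0) (fun x _ => ((hd x).sub (hasDerivAt_id' x)).hasDerivWithinAt)
      (fun x hx => by
        have h1 : |x| ≤ a := abs_le.2 hx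
        have h2 : 1 ≤ (K - |x|) * (N / K) := by
          have h3 : K / N ≤ K - |x| := by rw [ha] at h1; linarith
          calc (1 : ℝ) = K / N * (N / K) := by field_simp
            _ ≤ (K - |x|) * (N / K) := mul_le_mul_of_nonneg_right h3 (by positivity)
        have h4 : ρ x = 1 := by
          simp only [hρ]
          rw [min_eq_left h2]
          norm_num
        simp only [h4]; simp) (convex_Icc _ _)
      (show (0 : ℝ) ∈ Icc (-a) a from ⟨by linarith, ha0⟩) (show t ∈ Icc (-a) a from abs_le.1 ht)
    rw [zero_mul, norm_le_zero_iff] at this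
    rw [hφ0] at this
    linarith
  refine ⟨φ, ρ, hφc, hρc, hd, hφ0, fun t => ⟨hρ0 t, hρ1 t⟩, hbd, hlip, fun t ht => ?_⟩
  -- derivative of `φ - id` is between `-1` and `0`
  have hlip2 : ∀ t s, |(φ t - t) - (φ s - s)| ≤ |t - s| := by
    intro t s
    have := Convex.norm_image_sub_le_of_norm_hasDerivWithin_le (f := fun t => φ t - t)
      (f' := fun t => ρ t - 1) (s := univ)
      (C := 1) (fun x _ => ((hd x).sub (hasDerivAt_id' x)).hasDerivWithinAt)
      (fun x _ => by
        rw [Real.norm_eq_abs, abs_le]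
        constructor <;> linarith [hρ0 x, hρ1 x]) convex_univ
      (mem_univ s) (mem_univ t)
    simpa using this
  rcases le_total (|t|) a with h | h
  · rw [hin t h]; simpa using hKN0.le
  · rcases le_total 0 t with h0 | h0
    · have h1 := hlip2 t a
      rw [hin a (by rw [abs_of_nonneg ha0]), sub_self, sub_zero] at h1
      rw [abs_of_nonneg h0] at h ht
      rw [abs_of_nonneg (sub_nonneg.2 h)] at h1
      refine h1.trans ?_
      rw [ha]; linarith
    · have h1 := hlip2 t (-a)
      rw [hin (-a) (by rw [abs_neg, abs_of_nonneg ha0]), sub_self, sub_zero] at h1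
      rw [abs_of_nonpos h0] at h ht
      rw [abs_of_nonpos (show t - -a ≤ 0 by linarith)] at h1
      refine h1.trans ?_
      rw [ha] at *
      linarith

end Vale.Agent.P233
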