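import Vale.Agent.P233.Defs

open MeasureTheory
open scoped ENNReal

namespace Vale.Agent.P233

/-- balls have finite measure -/
theorem ball_lt_top_of_growth {M : Type*} [MetricSpace M] [MeasurableSpace M] {m : Measure M}
    (h : ∃ (x₀ : M) (c : ℝ), ∀ r > 0,
      m (Metric.ball x₀ r) ≤ ENNReal.ofReal (c * Real.exp (c * r ^ 2))) (x : M) (r : ℝ) :
    m (Metric.ball x r) < ∞ := by
  obtain ⟨x₀, c, hc⟩ := h
  have h1 : Metric.ball x r ⊆ Metric.ball x₀ (|r| + dist x x₀ + 1) := by
    intro y hy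
    rw [Metric.mem_ball] at hy ⊢
    linarith [dist_triangle y x x₀, le_abs_self r]
  exact (measure_mono h1).trans_lt ((hc _ (by positivity)).trans_lt ENNReal.ofReal_lt_top)

end Vale.Agent.P233
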