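import Vale.Agent.P233.MathlibUsed

open MeasureTheory Filter Topology
open scoped ENNReal NNReal InnerProductSpace

universe u

namespace Vale.Agent.P233.S

/-! Functions `M → ℝ` are representatives of classes modulo `m`-a.e. equality. -/

/-- `u k → f` in `L²`. -/
def Conv {M : Type u} {_ : MeasurableSpace M} (m : Measure M) (u : ℕ → M → ℝ) (f : M → ℝ) : Prop :=
  Tendsto (fun k => eLpNorm (fun x => u k x - f x) 2 m) atTop (𝓝 0)

/-- `f ∈ L²`. -/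
def L2 {M : Type u} {_ : MeasurableSpace M} (m : Measure M) (f : M → ℝ) : Prop := MemLp f 2 m

/-! ### The minimal relaxed slope -/

section Metric

variable {M : Type u} [MetricSpace M] [MeasurableSpace M] (m : Measure M)

/-- The local Lipschitz constant `limsup_{y → x} |f y - f x| / d(y,x)`. -/
noncomputable def lipAt (f : M → ℝ) (x : M) : ℝ≥0∞ :=
  limsup (fun y => ENNReal.ofReal (|f y - f x| / dist y x)) (𝓝[≠] x)

/-- `G ∈ L²` is a relaxed slope of `f ∈ L²`: there are Lipschitz `u k ∈ L²` with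
`u k → f` in `L²` and `g k ∈ L²` with `lip (u k) ≤ g k` a.e. and `g k → G` in `L²`. -/
def IsRelaxedSlope (f G : M → ℝ) : Prop :=
  L2 m f ∧ L2 m G ∧ ∃ u g : ℕ → M → ℝ, (∀ k, (∃ K, LipschitzWith K (u k)) ∧ L2 m (u k) ∧
    L2 m (g k) ∧ ∀ᵐ x ∂m, 0 ≤ g k x ∧ lipAt (u k) x ≤ ENNReal.ofReal (g k x)) ∧
    Conv m u f ∧ Conv m g G

/-- `G` is the minimal relaxed slope of `f`. -/
def IsMinSlope (f G : M → ℝ) : Prop :=
  IsRelaxedSlope m f G ∧ ∀ G', IsRelaxedSlope m f G' → G ≤ᵐ[m] G'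

open Classical in
/-- The minimal relaxed slope `|Df|`. The Cheeger energy of `f ∈ W^{1,2}` is `½ ∫ |Df|² dm`. -/
noncomputable def slope (f : M → ℝ) : M → ℝ :=
  if h : ∃ G, IsMinSlope m f G then h.choose else fun _ => 0

end Metric

/-- A measure, its Sobolev functions, `Γ f g = ⟨∇f,∇g⟩`, and bounded Lipschitz functions. -/
structure Calc (M : Type u) where
  meas : MeasurableSpace M
  m : Measure M
  W : (M → ℝ) → Prop
  Γ : (M → ℝ) → (M → ℝ) → M → ℝ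
  B : (M → ℝ) → Prop

/-- The Sobolev calculus of a metric measure space: `W^{1,2}(M)`, with `⟨∇f,∇g⟩` given by
polarization of `|Df|²`. -/
noncomputable def sob {M : Type u} [MetricSpace M] [MeasurableSpace M] (m : Measure M) :
    Calc M where
  meas := inferInstance
  m := m
  W := fun f => ∃ G, IsRelaxedSlope m f G
  Γ := fun f g x => (slope m (fun y => f y + g y) x ^ 2 - slope m (fun y => f y - g y) x ^ 2) / 4
  B := fun f => ∃ u : M → ℝ, (∃ K, LipschitzWith K u) ∧ (∃ K : ℝ, ∀ x, |u x| ≤ K) ∧ f =ᵐ[m] u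

/-- The list of the pairs `(a_j, b_j)` stands for the vector field `∑ a_j ∇b_j`. -/
abbrev VF (M : Type u) : Type u := List ((M → ℝ) × (M → ℝ))

namespace Calc

variable {M : Type u} (C : Calc M)

/-- `∫ f dm`. -/
noncomputable def int (f : M → ℝ) : ℝ := ∫ x, f x ∂C.m

/-- `h = Δf`. -/
def IsLap (f h : M → ℝ) : Prop :=
  C.W f ∧ L2 C.m h ∧ ∀ g, C.W g → C.int (C.Γ f g) = -C.int fun x => h x * g x

open Classical in
/-- `Δf`. -/
noncomputable def lap (f : M → ℝ) : M → ℝ :=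
  if h : ∃ h, C.IsLap f h then h.choose else fun _ => 0

/-- The weak Bochner inequality `BE(K,N)`. -/
def BE (K N : ℝ) : Prop :=
  ∀ f h φ ψ b, C.IsLap f h → C.W h → C.IsLap φ ψ →
    (∀ᵐ x ∂C.m, 0 ≤ φ x ∧ φ x ≤ b ∧ |ψ x| ≤ b) →
    C.int (fun x => φ x * (C.Γ f h x + K * C.Γ f f x + h x ^ 2 / N))
      ≤ C.int (fun x => C.Γ f f x * ψ x) / 2

/-- `f ∈ Test(M)`: `f ∈ D(Δ)` is bounded and Lipschitz and `Δf ∈ W^{1,2}`. -/
def Test (f : M → ℝ) : Prop := C.B f ∧ ∃ h, C.IsLap f h ∧ C.W h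

/-- `X ∈ TestV(M)`. -/
def TestV (X : VF M) : Prop := ∀ p ∈ X, C.Test p.1 ∧ C.Test p.2

/-- `⟨X,Y⟩`. -/
noncomputable def ip (X Y : VF M) (x : M) : ℝ :=
  (X.map fun p => (Y.map fun q => p.1 x * q.1 x * C.Γ p.2 q.2 x).sum).sum

/-- `div X`. -/
noncomputable def dv (X : VF M) (x : M) : ℝ :=
  (X.map fun p => C.Γ p.1 p.2 x + p.1 x * C.lap p.2 x).sum

/-- `Hess b (∇g, ∇h)`. -/
noncomputable def hess (b g h : M → ℝ) (x : M) : ℝ :=
  (C.Γ g (C.Γ b h) x + C.Γ h (C.Γ b g) x - C.Γ b (C.Γ g h) x) / 2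

/-- `⟨∇_X Y, Z⟩`, where `⟨∇_X (c ∇d), Z⟩ = ⟨X,∇c⟩ ⟨∇d,Z⟩ + c Hess d (X, Z)`. -/
noncomputable def nab (X Y Z : VF M) (x : M) : ℝ :=
  (X.map fun p => (Y.map fun q => (Z.map fun r =>
    p.1 x * r.1 x * (C.Γ p.2 q.1 x * C.Γ q.2 r.2 x + q.1 x * C.hess q.2 p.2 r.2 x)).sum).sum).sum

section L2TM

variable {H : Type u} [NormedAddCommGroup H] [InnerProductSpace ℝ H] (ι : VF M → H)

/-- `H`, with the map `ι`, is the Hilbert space `L²(TM)`: the completion of `TestV(M)` with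
respect to `∫ ⟨X,Y⟩ dm`. -/
def IsL2TM : Prop :=
  CompleteSpace H ∧ (∀ X Y, C.TestV X → C.TestV Y → ⟪ι X, ι Y⟫_ℝ = C.int (C.ip X Y)) ∧
    ∀ v : H, ∀ ε > 0, ∃ X, C.TestV X ∧ ‖ι X - v‖ < ε

/-- `V ∈ L²(TM)` represents the functional `Φ` on test vector fields. -/
def Reps (Φ : VF M → ℝ) (V : H) : Prop := ∀ Z, C.TestV Z → ⟪V, ι Z⟫_ℝ = Φ Z

open Classical in
/-- The element of `L²(TM)` that represents `Φ`. -/
noncomputable def rep (Φ : VF M → ℝ) : H := if h : ∃ V, C.Reps ι Φ V then h.choose else 0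

/-- `∇_X Y ∈ L²(TM)`: `Z ↦ ∫ ⟨∇_X Y, Z⟩ dm`. -/
noncomputable def cov (X Y : VF M) : H := C.rep ι fun Z => C.int (C.nab X Y Z)

/-- `R(X,Y,Z,W)(f)`, where `V = f W`; the last term is `[X,Y]` paired with `∇Z (·, f W)`. -/
noncomputable def curvAux (X Y Z W V : VF M) (f : M → ℝ) : ℝ :=
  -⟪C.cov ι X V, C.cov ι Y Z⟫_ℝ - C.int (fun x => f x * C.nab Y Z W x * C.dv X x)
    + ⟪C.cov ι Y V, C.cov ι X Z⟫_ℝ + C.int (fun x => f x * C.nab X Z W x * C.dv Y x)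
    - ⟪C.cov ι X Y - C.cov ι Y X, C.rep ι fun X' => C.int (C.nab X' Z V)⟫_ℝ

/-- Gigli's curvature functional `R(X,Y,Z,W)(f)`. -/
noncomputable def curv (X Y Z W : VF M) (f : M → ℝ) : ℝ :=
  C.curvAux ι X Y Z W (W.map fun p => (fun x => f x * p.1 x, p.2)) f

end L2TM

/-- Distributional sectional curvature `≥ κ`: the covariant derivatives of test vector fields
exist in `L²(TM)`, and `R(X,Y,Y,X)(f) ≥ κ ∫ f (|X|²|Y|² - ⟨X,Y⟩²) dm` for all test vector fields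
`X`, `Y` and all nonnegative test functions `f`. -/
def DistSecGE (κ : ℝ) : Prop :=
  ∀ (H : Type u) [NormedAddCommGroup H] [InnerProductSpace ℝ H] (ι : VF M → H),
    C.IsL2TM ι → ∀ X Y, C.TestV X → C.TestV Y →
      (∃ V, C.Reps ι (fun Z => C.int (C.nab X Y Z)) V) ∧
      (∃ V, C.Reps ι (fun Z => C.int (C.nab Z X Y)) V) ∧
      ∀ f, C.Test f → (∀ᵐ x ∂C.m, 0 ≤ f x) →
        κ * C.int (fun x => f x * (C.ip X X x * C.ip Y Y x - C.ip X Y x ^ 2)) ≤ C.curv ι X Y Y X f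

end Calc

/-- `RCD(K,N)` for finite `N`, in its Eulerian form. -/
structure IsRCD {M : Type u} [MetricSpace M] [MeasurableSpace M] (m : Measure M) (K N : ℝ) :
    Prop where
  quadratic : ∀ f g, (sob m).W f → (sob m).W g →
    ∫ x, slope m (fun y => f y + g y) x ^ 2 + slope m (fun y => f y - g y) x ^ 2 ∂m
      = ∫ x, 2 * slope m f x ^ 2 + 2 * slope m g x ^ 2 ∂m
  growth : ∃ (x₀ : M) (c : ℝ), ∀ r > 0,
    m (Metric.ball x₀ r) ≤ ENNReal.ofReal (c * Real.exp (c * r ^ 2))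
  sobolev_to_lipschitz : ∀ f, (sob m).W f → (∀ᵐ x ∂m, slope m f x ≤ 1) →
    ∃ u : M → ℝ, LipschitzWith 1 u ∧ f =ᵐ[m] u
  bochner : (sob m).BE K N

end Vale.Agent.P233.S
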