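import Vale.Agent.P233.L0

open MeasureTheory Filter Topology
open scoped ENNReal NNReal InnerProductSpace

namespace Vale.Agent.P233

variable {M : Type*} [MeasurableSpace M] {m : Measure M}

/-! ### the product in `L²` -/

variable {f g h : M →ₘ[m] ℝ}

theorem I_mul_eq_inner (hf : MemLp f 2 m) (hg : MemLp g 2 m) :
    I (f * g) = ⟪hf.toLp, hg.toLp⟫_ℝ := by
  rw [L2.inner_def]
  unfold I
  refine integral_congr_ae ?_
  filter_upwards [mul_ae f g, hf.coeFn_toLp, hg.coeFn_toLp] with x h1 h2 h3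
  rw [h1, h2, h3]
  simp [mul_comm]

theorem I_sq_eq_norm (hf : MemLp f 2 m) : I (f ^ 2) = ‖hf.toLp‖ ^ 2 := by
  rw [sq, I_mul_eq_inner hf hf, real_inner_self_eq_norm_sq]

theorem I_cs (hf : MemLp f 2 m) (hg : MemLp g 2 m) : I (f * g) ^ 2 ≤ I (f ^ 2) * I (g ^ 2) := by
  rw [I_mul_eq_inner hf hg, I_sq_eq_norm hf, I_sq_eq_norm hg, ← mul_pow, sq_le_sq]
  refine (abs_real_inner_le_norm _ _).trans ?_
  exact le_abs_self _

theorem I_abs_le (hf : MemLp f 2 m) (hg : MemLp g 2 m) :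
    |I (f * g)| ≤ Real.sqrt (I (f ^ 2)) * Real.sqrt (I (g ^ 2)) := by
  rw [I_mul_eq_inner hf hg, I_sq_eq_norm hf, I_sq_eq_norm hg, Real.sqrt_sq (norm_nonneg _),
    Real.sqrt_sq (norm_nonneg _)]
  exact abs_real_inner_le_norm _ _

theorem I_sq_nonneg (f : M →ₘ[m] ℝ) : 0 ≤ I (f ^ 2) := I_nonneg (sq_nonneg' f)

theorem I_sq_eq_zero (hf : MemLp f 2 m) (h : I (f ^ 2) = 0) : f = 0 := by
  have h1 := I_eq_zero_of_nonneg (mem_sq hf) (sq_nonneg' f) h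
  rw [eq_iff_ae] at h1 ⊢
  filter_upwards [h1, sq_ae f, zero_ae (M := M) (m := m)] with x a1 a2 a3
  rw [a2, a3] at a1
  rw [a3]
  exact pow_eq_zero_iff (two_ne_zero) |>.1 a1

theorem eLpNorm_eq_sqrt_I {f : M →ₘ[m] ℝ} (hf : MemLp f 2 m) :
    eLpNorm f 2 m = ENNReal.ofReal (Real.sqrt (I (f ^ 2))) := by
  rw [I_sq_eq_norm hf, Real.sqrt_sq (norm_nonneg _), Lp.norm_toLp,
    ENNReal.ofReal_toReal hf.eLpNorm_lt_top.ne]

/-- `L²` convergence -/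
theorem tendsto_eLpNorm_of_I_sq {u : ℕ → M →ₘ[m] ℝ} {f : M →ₘ[m] ℝ}
    (hu : ∀ n, MemLp (u n) 2 m) (hf : MemLp f 2 m)
    (h : Tendsto (fun n => I ((u n - f) ^ 2)) atTop (𝓝 0)) :
    Tendsto (fun n => eLpNorm ((⇑(u n) : M → ℝ) - ⇑f) 2 m) atTop (𝓝 0) := by
  have h1 : ∀ n, eLpNorm ((⇑(u n) : M → ℝ) - ⇑f) 2 m =
      ENNReal.ofReal (Real.sqrt (I ((u n - f) ^ 2))) := by
    intro n
    rw [← eLpNorm_eq_sqrt_I (mem_sub (hu n) hf)]
    exact eLpNorm_congr_ae (AEEqFun.coeFn_sub (u n) f).symm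
  simp_rw [h1]
  have h2 := ENNReal.tendsto_ofReal ((Real.continuous_sqrt.tendsto 0).comp h)
  simpa [Function.comp_def] using h2

/-- subsequence converging almost everywhere -/
theorem exists_subseq_of_I_sq {u : ℕ → M →ₘ[m] ℝ} {f : M →ₘ[m] ℝ}
    (hu : ∀ n, MemLp (u n) 2 m) (hf : MemLp f 2 m)
    (h : Tendsto (fun n => I ((u n - f) ^ 2)) atTop (𝓝 0)) :
    ∃ ns : ℕ → ℕ, StrictMono ns ∧ ∀ᵐ x ∂m, Tendsto (fun n => u (ns n) x) atTop (𝓝 (f x)) :=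
  (tendstoInMeasure_of_tendsto_eLpNorm (by norm_num) (fun n => (hu n).1) hf.1
    (tendsto_eLpNorm_of_I_sq hu hf h)).exists_seq_tendsto_ae

/-- dominated convergence -/
theorem I_tendsto_of_dominated {u : ℕ → M →ₘ[m] ℝ} {f : M →ₘ[m] ℝ} {G : M → ℝ}
    (hG : Integrable G m) (hb : ∀ n, ∀ᵐ x ∂m, |u n x| ≤ G x)
    (h : ∀ᵐ x ∂m, Tendsto (fun n => u n x) atTop (𝓝 (f x))) :
    Tendsto (fun n => I (u n)) atTop (𝓝 (I f)) :=
  tendsto_integral_of_dominated_convergence G (fun n => (u n).aestronglyMeasurable) hG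
    (by simpa using hb) h

/-- the elementary inequality `(a+b)² ≤ 2a²+2b²` integrated -/
theorem I_sq_add_le (hf : MemLp f 2 m) (hg : MemLp g 2 m) :
    I ((f + g) ^ 2) ≤ 2 * I (f ^ 2) + 2 * I (g ^ 2) := by
  rw [← I_smul, ← I_smul, ← I_add (mem_smul _ (mem_sq hf)) (mem_smul _ (mem_sq hg))]
  refine I_mono (mem_sq (mem_add hf hg)) (mem_add (mem_smul _ (mem_sq hf)) (mem_smul _ (mem_sq hg)))
    ?_
  rw [le_iff_ae]
  filter_upwards [sq_ae (f + g), add_ae f g, add_ae ((2 : ℝ) • f ^ 2) ((2 : ℝ) • g ^ 2),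
    smul_ae (f ^ 2) (2 : ℝ), smul_ae (g ^ 2) (2 : ℝ), sq_ae f, sq_ae g] with x b1 b2 b3 b4 b5 b6 b7
  rw [b1, b2, b3, b4, b5, b6, b7]
  nlinarith [sq_nonneg (f x - g x)]

theorem smul_eq_ofReal_mul (c : ℝ) (f : M →ₘ[m] ℝ) : c • f = algebraMap ℝ (M →ₘ[m] ℝ) c * f :=
  Algebra.smul_def c f

theorem memLp_two_of_sq {F : M →ₘ[m] ℝ} (h : MemLp (F ^ 2 : M →ₘ[m] ℝ) 1 m) : MemLp F 2 m := by
  rw [memLp_two_iff_integrable_sq F.aestronglyMeasurable]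
  exact (int_of_mem h).congr (sq_ae F)

end Vale.Agent.P233
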