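import Vale.Agent.P233.Gamma
import Vale.Agent.P233.L2

open MeasureTheory Filter Topology
open scoped ENNReal NNReal

namespace Vale.Agent.P233

variable {M : Type*} [MeasurableSpace M] {m : Measure M} {C : Calc m}

/-- discriminant -/
theorem disc_of_forall {a b c : ℝ} (h : ∀ t : ℝ, 0 ≤ a + 2 * t * b + t ^ 2 * c) :
    b ^ 2 ≤ a * c := by
  have h1 : discrim c (2 * b) a ≤ 0 := discrim_le_zero fun t => by
    have := h t
    nlinarith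
  unfold discrim at h1
  nlinarith

theorem forall_real_of_rat {a b c : ℝ} (h : ∀ q : ℚ, 0 ≤ a + 2 * (q : ℝ) * b + (q : ℝ) ^ 2 * c)
    (t : ℝ) : 0 ≤ a + 2 * t * b + t ^ 2 * c := by
  have hcont : Continuous fun t : ℝ => a + 2 * t * b + t ^ 2 * c := by fun_prop
  have hcl : IsClosed {t : ℝ | 0 ≤ a + 2 * t * b + t ^ 2 * c} :=
    isClosed_le continuous_const hcont
  have hd : Dense {t : ℝ | 0 ≤ a + 2 * t * b + t ^ 2 * c} :=
    Rat.denseRange_cast.mono (by rintro _ ⟨q, rfl⟩; exact h q)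
  have := hcl.closure_eq ▸ hd.closure_eq
  exact (this ▸ Set.mem_univ t : t ∈ {t : ℝ | 0 ≤ a + 2 * t * b + t ^ 2 * c})

namespace IsDir

variable (hC : IsDir C)
include hC

section linear
variable {f g h : M →ₘ[m] ℝ}

theorem neg_mem (hf : f ∈ C.W) : -f ∈ C.W := by
  have := hC.smul_mem (-1) f hf
  simpa using this

theorem sub_mem (hf : f ∈ C.W) (hg : g ∈ C.W) : f - g ∈ C.W := by
  rw [sub_eq_add_neg]; exact hC.add_mem f hf _ (hC.neg_mem hg)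

theorem Γ_add_right (hf : f ∈ C.W) (hg : g ∈ C.W) (hh : h ∈ C.W) :
    C.Γ f (g + h) = C.Γ f g + C.Γ f h := by
  rw [hC.symm f hf _ (hC.add_mem g hg h hh), hC.add_left g hg h hh f hf, hC.symm g hg f hf,
    hC.symm h hh f hf]

theorem Γ_smul_right (c : ℝ) (hf : f ∈ C.W) (hg : g ∈ C.W) :
    C.Γ f (c • g) = c • C.Γ f g := by
  rw [hC.symm f hf _ (hC.smul_mem c g hg), hC.smul_left c g hg f hf, hC.symm g hg f hf]

theorem Γ_neg_left (hf : f ∈ C.W) (hg : g ∈ C.W) : C.Γ (-f) g = - C.Γ f g := by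
  have := hC.smul_left (-1) f hf g hg
  simpa using this

theorem Γ_neg_right (hf : f ∈ C.W) (hg : g ∈ C.W) : C.Γ f (-g) = - C.Γ f g := by
  have := hC.Γ_smul_right (-1) hf hg
  simpa using this

theorem Γ_sub_left (hf : f ∈ C.W) (hg : g ∈ C.W) (hh : h ∈ C.W) :
    C.Γ (f - g) h = C.Γ f h - C.Γ g h := by
  rw [sub_eq_add_neg, hC.add_left f hf _ (hC.neg_mem hg) h hh, hC.Γ_neg_left hg hh, ← sub_eq_add_neg]

theorem Γ_sub_right (hf : f ∈ C.W) (hg : g ∈ C.W) (hh : h ∈ C.W) :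
    C.Γ f (g - h) = C.Γ f g - C.Γ f h := by
  rw [sub_eq_add_neg, hC.Γ_add_right hf hg (hC.neg_mem hh), hC.Γ_neg_right hf hh, ← sub_eq_add_neg]

theorem Γ_zero_left (hf : f ∈ C.W) : C.Γ 0 f = 0 := by
  have := hC.smul_left 0 0 hC.zero_mem f hf
  simpa using this

theorem Γ_zero_right (hf : f ∈ C.W) : C.Γ f 0 = 0 := by
  rw [hC.symm f hf 0 hC.zero_mem, hC.Γ_zero_left hf]

/-- expansion of `Γ(f + tg, f + tg)` -/
theorem Γ_expand (t : ℝ) (hf : f ∈ C.W) (hg : g ∈ C.W) :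
    C.Γ (f + t • g) (f + t • g) = C.Γ f f + (2 * t) • C.Γ f g + (t ^ 2) • C.Γ g g := by
  have htg := hC.smul_mem t g hg
  have hs := hC.add_mem f hf _ htg
  rw [hC.add_left f hf _ htg _ hs, hC.Γ_add_right hf hf htg, hC.Γ_add_right htg hf htg,
    hC.Γ_smul_right t hf hg, hC.Γ_smul_right t htg hg, hC.smul_left t g hg f hf,
    hC.smul_left t g hg g hg, hC.symm g hg f hf, smul_smul]
  module

end linear

section cs
variable {f g h : M →ₘ[m] ℝ}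

theorem Γ_expand_ae (t : ℝ) (hf : f ∈ C.W) (hg : g ∈ C.W) :
    ∀ᵐ x ∂m, 0 ≤ C.Γ f f x + 2 * t * C.Γ f g x + t ^ 2 * C.Γ g g x := by
  have h1 := hC.nonneg _ (hC.add_mem f hf _ (hC.smul_mem t g hg))
  rw [hC.Γ_expand t hf hg, nonneg_iff_ae] at h1
  filter_upwards [h1, add_ae (C.Γ f f + (2 * t) • C.Γ f g) ((t ^ 2) • C.Γ g g),
    add_ae (C.Γ f f) ((2 * t) • C.Γ f g), smul_ae (C.Γ f g) (2 * t),
    smul_ae (C.Γ g g) (t ^ 2)] with x a1 a2 a3 a4 a5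
  rwa [a2, a3, a4, a5] at a1

theorem Γ_cs_ae (hf : f ∈ C.W) (hg : g ∈ C.W) :
    ∀ᵐ x ∂m, C.Γ f g x ^ 2 ≤ C.Γ f f x * C.Γ g g x := by
  have h1 : ∀ᵐ x ∂m, ∀ q : ℚ, 0 ≤ C.Γ f f x + 2 * (q : ℝ) * C.Γ f g x + (q : ℝ) ^ 2 * C.Γ g g x :=
    ae_all_iff.2 fun q => hC.Γ_expand_ae q hf hg
  filter_upwards [h1] with x hx
  exact disc_of_forall (forall_real_of_rat hx)

/-- pointwise Cauchy-Schwarz -/
theorem Γ_cs (hf : f ∈ C.W) (hg : g ∈ C.W) : C.Γ f g ^ 2 ≤ C.Γ f f * C.Γ g g := by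
  rw [le_iff_ae]
  filter_upwards [hC.Γ_cs_ae hf hg, sq_ae (C.Γ f g), mul_ae (C.Γ f f) (C.Γ g g)] with x h1 h2 h3
  rw [h2, h3]; exact h1

theorem Γ_nonneg_ae (hf : f ∈ C.W) : ∀ᵐ x ∂m, 0 ≤ C.Γ f f x := nonneg_iff_ae.1 (hC.nonneg f hf)

theorem Γ_abs_ae (hf : f ∈ C.W) (hg : g ∈ C.W) :
    ∀ᵐ x ∂m, |C.Γ f g x| ≤ Real.sqrt (C.Γ f f x) * Real.sqrt (C.Γ g g x) := by
  filter_upwards [hC.Γ_cs_ae hf hg, hC.Γ_nonneg_ae hf] with x h1 h2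
  rw [← Real.sqrt_mul h2]
  exact Real.abs_le_sqrt h1

theorem Γ_mem1 (hf : f ∈ C.W) (hg : g ∈ C.W) : MemLp (C.Γ f g) 1 m := by
  refine mem_of_le (mem_add (hC.mem1 f hf) (hC.mem1 g hg)) ?_
  filter_upwards [hC.Γ_cs_ae hf hg, hC.Γ_nonneg_ae hf, hC.Γ_nonneg_ae hg,
    add_ae (C.Γ f f) (C.Γ g g)] with x h1 h2 h3 h4
  rw [h4, abs_of_nonneg (add_nonneg h2 h3)]
  refine abs_le_of_sq_le_sq ?_ (add_nonneg h2 h3)
  nlinarith

/-- if `|∇f|` is bounded then `Γ f g ∈ L²` -/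
theorem Γ_mem2 (hf : f ∈ C.W) (hf' : MemLp (C.Γ f f) ∞ m) (hg : g ∈ C.W) :
    MemLp (C.Γ f g) 2 m := by
  refine memLp_two_of_sq (mem_of_le (mem_mul_top hf' (hC.mem1 g hg)) ?_)
  filter_upwards [hC.Γ_cs_ae hf hg, hC.Γ_nonneg_ae hf, hC.Γ_nonneg_ae hg,
    mul_ae (C.Γ f f) (C.Γ g g), sq_ae (C.Γ f g)] with x h1 h2 h3 h4 h5
  rw [h4, h5, abs_of_nonneg (mul_nonneg h2 h3), abs_of_nonneg (sq_nonneg _)]
  exact h1

theorem Γ_memTop (hf : f ∈ C.W) (hf' : MemLp (C.Γ f f) ∞ m) (hg : g ∈ C.W)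
    (hg' : MemLp (C.Γ g g) ∞ m) : MemLp (C.Γ f g) ∞ m := by
  refine mem_of_le (mem_add hf' hg') ?_
  filter_upwards [hC.Γ_cs_ae hf hg, hC.Γ_nonneg_ae hf, hC.Γ_nonneg_ae hg,
    add_ae (C.Γ f f) (C.Γ g g)] with x h1 h2 h3 h4
  rw [h4, abs_of_nonneg (add_nonneg h2 h3)]
  refine abs_le_of_sq_le_sq ?_ (add_nonneg h2 h3)
  nlinarith

theorem E_cs (hf : f ∈ C.W) (hg : g ∈ C.W) :
    I (C.Γ f g) ^ 2 ≤ I (C.Γ f f) * I (C.Γ g g) := by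
  refine disc_of_forall fun t => ?_
  have h1 := I_nonneg (hC.nonneg _ (hC.add_mem f hf _ (hC.smul_mem t g hg)))
  rw [hC.Γ_expand t hf hg, I_add (mem_add (hC.mem1 f hf) (mem_smul _ (hC.Γ_mem1 hf hg)))
    (mem_smul _ (hC.mem1 g hg)), I_add (hC.mem1 f hf) (mem_smul _ (hC.Γ_mem1 hf hg)), I_smul,
    I_smul] at h1
  exact h1

theorem E_nonneg (hf : f ∈ C.W) : 0 ≤ I (C.Γ f f) := I_nonneg (hC.nonneg f hf)

theorem E_abs_le (hf : f ∈ C.W) (hg : g ∈ C.W) :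
    |I (C.Γ f g)| ≤ Real.sqrt (I (C.Γ f f)) * Real.sqrt (I (C.Γ g g)) := by
  rw [← Real.sqrt_mul (hC.E_nonneg hf)]
  exact Real.abs_le_sqrt (hC.E_cs hf hg)

/-- `∫ |Γ f g| ≤ √E(f) √E(g)` -/
theorem int_abs_Γ_le (hf : f ∈ C.W) (hg : g ∈ C.W) :
    ∫ x, |C.Γ f g x| ∂m ≤ Real.sqrt (I (C.Γ f f)) * Real.sqrt (I (C.Γ g g)) := by
  have hsc : Continuous Real.sqrt := Real.continuous_sqrt
  have aux : ∀ k : M →ₘ[m] ℝ, k ∈ C.W → MemLp (AEEqFun.comp Real.sqrt hsc (C.Γ k k)) 2 m ∧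
      AEEqFun.comp Real.sqrt hsc (C.Γ k k) ^ 2 = C.Γ k k := by
    intro k hk
    have e : AEEqFun.comp Real.sqrt hsc (C.Γ k k) ^ 2 = C.Γ k k := by
      rw [eq_iff_ae]
      filter_upwards [sq_ae (AEEqFun.comp Real.sqrt hsc (C.Γ k k)),
        AEEqFun.coeFn_comp Real.sqrt hsc (C.Γ k k), hC.Γ_nonneg_ae hk] with x h1 h2 h3
      rw [h1, h2, Function.comp_apply, Real.sq_sqrt h3]
    refine ⟨memLp_two_of_sq ?_, e⟩
    rw [e]; exact hC.mem1 k hk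
  obtain ⟨a1, a2⟩ := aux f hf
  obtain ⟨b1, b2⟩ := aux g hg
  have h1 := I_abs_le a1 b1
  rw [a2, b2] at h1
  refine le_trans ?_ ((le_abs_self _).trans h1)
  unfold I
  refine integral_mono_ae (int_of_mem (hC.Γ_mem1 hf hg)).abs (int_of_mem (mem_mul_22 a1 b1)) ?_
  filter_upwards [hC.Γ_abs_ae hf hg, mul_ae (AEEqFun.comp Real.sqrt hsc (C.Γ f f))
    (AEEqFun.comp Real.sqrt hsc (C.Γ g g)), AEEqFun.coeFn_comp Real.sqrt hsc (C.Γ f f),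
    AEEqFun.coeFn_comp Real.sqrt hsc (C.Γ g g)] with x h1 h2 h3 h4
  rw [h2, h3, h4]
  exact h1

end cs

section algebra
variable {f g h : M →ₘ[m] ℝ}

theorem chain_bdd (hf : f ∈ C.W) {K : ℝ} (hK : ∀ᵐ x ∂m, |f x| ≤ K)
    {φ φ' : ℝ → ℝ} (hφ : Continuous φ) (hφ' : Continuous φ')
    (hd : ∀ t ∈ Set.Icc (-K) K, HasDerivWithinAt φ (φ' t) (Set.Icc (-K) K) t) (h0 : φ 0 = 0) :
    AEEqFun.comp φ hφ f ∈ C.W ∧
      ∀ g ∈ C.W, C.Γ (AEEqFun.comp φ hφ f) g = AEEqFun.comp φ' hφ' f * C.Γ f g := by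
  rcases lt_or_ge K 0 with hK0 | hK0
  · -- trivial measure
    have hfalse : ∀ᵐ x ∂m, False := by
      filter_upwards [hK] with x hx
      linarith [abs_nonneg (f x)]
    have heq : ∀ a b : M →ₘ[m] ℝ, a = b := fun a b => by
      rw [eq_iff_ae]
      filter_upwards [hfalse] with x hx
      exact hx.elim
    refine ⟨?_, fun g _ => heq _ _⟩
    rw [heq (AEEqFun.comp φ hφ f) f]
    exact hf
  set cl : ℝ → ℝ := fun t => max (-K) (min K t) with hcl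
  have hclc : Continuous cl := continuous_const.max (continuous_const.min continuous_id)
  have hclm : ∀ t, cl t ∈ Set.Icc (-K) K := fun t =>
    ⟨le_max_left _ _, max_le (by linarith) (min_le_left _ _)⟩
  have hcleq : ∀ t ∈ Set.Icc (-K) K, cl t = t := by
    intro t ht
    simp only [hcl]
    rw [min_eq_right ht.2, max_eq_right ht.1]
  set ψ' : ℝ → ℝ := fun t => φ' (cl t) with hψ'
  have hψ'c : Continuous ψ' := hφ'.comp hclc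
  set ψ : ℝ → ℝ := fun t => ∫ s in (0 : ℝ)..t, ψ' s with hψ
  have hψd : ∀ t, HasDerivAt ψ (ψ' t) t := fun t =>
    (hψ'c.integral_hasStrictDerivAt 0 t).hasDerivAt
  have hψc : Continuous ψ := continuous_iff_continuousAt.2 fun t => (hψd t).continuousAt
  have hψ0 : ψ 0 = 0 := by simp [hψ]
  obtain ⟨B, hB⟩ : ∃ B : ℝ, ∀ t, |ψ' t| ≤ B := by
    obtain ⟨B, hB⟩ := (isCompact_Icc (a := -K) (b := K)).exists_bound_of_continuousOn
      hφ'.continuousOn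
    exact ⟨B, fun t => hB _ (hclm t)⟩
  have hψφ : ∀ t ∈ Set.Icc (-K) K, ψ t = φ t := by
    intro t ht
    have h1 := Convex.norm_image_sub_le_of_norm_hasDerivWithin_le (f := fun t => ψ t - φ t)
      (f' := fun t => ψ' t - φ' t) (s := Set.Icc (-K) K) (C := 0)
      (fun x hx => ((hψd x).hasDerivWithinAt).sub (hd x hx))
      (fun x hx => by simp only [hψ']; rw [hcleq x hx]; simp) (convex_Icc _ _)
      (show (0 : ℝ) ∈ Set.Icc (-K) K from ⟨by linarith, hK0⟩) ht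
    rw [zero_mul, norm_le_zero_iff] at h1
    rw [hψ0, h0] at h1
    linarith
  obtain ⟨h1, h2⟩ := hC.chain f hf ψ ψ' hψc hψ'c hψd hψ0 ⟨B, hB⟩
  have e1 : AEEqFun.comp φ hφ f = AEEqFun.comp ψ hψc f := by
    rw [eq_iff_ae]
    filter_upwards [AEEqFun.coeFn_comp φ hφ f, AEEqFun.coeFn_comp ψ hψc f, hK] with x a1 a2 a3
    rw [a1, a2, Function.comp_apply, Function.comp_apply, hψφ _ (abs_le.1 a3)]
  have e2 : AEEqFun.comp φ' hφ' f = AEEqFun.comp ψ' hψ'c f := by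
    rw [eq_iff_ae]
    filter_upwards [AEEqFun.coeFn_comp φ' hφ' f, AEEqFun.coeFn_comp ψ' hψ'c f, hK]
      with x a1 a2 a3
    rw [a1, a2, Function.comp_apply, Function.comp_apply]
    simp only [hψ']
    rw [hcleq _ (abs_le.1 a3)]
  rw [e1, e2]
  exact ⟨h1, h2⟩

theorem sq_mem (hf : f ∈ C.A) : f ^ 2 ∈ C.W ∧ ∀ g ∈ C.W, C.Γ (f ^ 2) g = 2 * f * C.Γ f g := by
  obtain ⟨K, hK⟩ := mem_top_iff.1 hf.2
  have hφ : Continuous fun t : ℝ => t ^ 2 := by fun_prop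
  have hφ' : Continuous fun t : ℝ => 2 * t := by fun_prop
  obtain ⟨h1, h2⟩ := hC.chain_bdd hf.1 hK hφ hφ' (fun t _ => by
    have := (hasDerivAt_pow 2 t).hasDerivWithinAt (s := Set.Icc (-K) K)
    simpa using this) (by norm_num)
  have e1 : AEEqFun.comp (fun t : ℝ => t ^ 2) hφ f = f ^ 2 := by
    rw [eq_iff_ae]
    filter_upwards [AEEqFun.coeFn_comp (fun t : ℝ => t ^ 2) hφ f, sq_ae f] with x a1 a2
    rw [a1, a2]; rfl
  have e2 : AEEqFun.comp (fun t : ℝ => 2 * t) hφ' f = 2 * f := by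
    have e3 : (2 : M →ₘ[m] ℝ) = 1 + 1 := by norm_num
    rw [eq_iff_ae, e3, add_mul, one_mul]
    filter_upwards [AEEqFun.coeFn_comp (fun t : ℝ => 2 * t) hφ' f, add_ae f f] with x a1 a2
    rw [a1, a2, Function.comp_apply]; ring
  rw [e1] at h1
  rw [e1, e2] at h2
  exact ⟨h1, h2⟩

theorem quarter (c : M →ₘ[m] ℝ) : (4 : ℝ)⁻¹ • (4 * c) = c := by
  have h1 : (4 : M →ₘ[m] ℝ) * c = (4 : ℝ) • c := by
    rw [Algebra.smul_def]
    congr 1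
    exact (map_ofNat (algebraMap ℝ (M →ₘ[m] ℝ)) 4).symm
  rw [h1, smul_smul]
  norm_num

theorem A_add (hf : f ∈ C.A) (hg : g ∈ C.A) : f + g ∈ C.A :=
  ⟨hC.add_mem f hf.1 g hg.1, mem_add hf.2 hg.2⟩
theorem A_sub (hf : f ∈ C.A) (hg : g ∈ C.A) : f - g ∈ C.A :=
  ⟨hC.sub_mem hf.1 hg.1, mem_sub hf.2 hg.2⟩
theorem A_smul (c : ℝ) (hf : f ∈ C.A) : c • f ∈ C.A :=
  ⟨hC.smul_mem c f hf.1, mem_smul c hf.2⟩
theorem A_neg (hf : f ∈ C.A) : -f ∈ C.A := ⟨hC.neg_mem hf.1, mem_neg hf.2⟩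
theorem A_zero : (0 : M →ₘ[m] ℝ) ∈ C.A := ⟨hC.zero_mem, mem_zero⟩

theorem mul_polar (f g : M →ₘ[m] ℝ) : f * g = (4 : ℝ)⁻¹ • ((f + g) ^ 2 - (f - g) ^ 2) := by
  have e : (f + g) ^ 2 - (f - g) ^ 2 = 4 * (f * g) := by ring
  rw [e, quarter hC]

theorem mul_mem_A (hf : f ∈ C.A) (hg : g ∈ C.A) : f * g ∈ C.A := by
  refine ⟨?_, mem_mul_top hf.2 hg.2⟩
  rw [mul_polar hC]
  exact hC.smul_mem _ _ (hC.sub_mem (hC.sq_mem (hC.A_add hf hg)).1 (hC.sq_mem (hC.A_sub hf hg)).1)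

/-- Leibniz rule for bounded Sobolev functions -/
theorem Γ_mul_left (hf : f ∈ C.A) (hg : g ∈ C.A) (hh : h ∈ C.W) :
    C.Γ (f * g) h = f * C.Γ g h + g * C.Γ f h := by
  obtain ⟨a1, a2⟩ := hC.sq_mem (hC.A_add hf hg)
  obtain ⟨b1, b2⟩ := hC.sq_mem (hC.A_sub hf hg)
  rw [mul_polar hC f g, hC.smul_left _ _ (hC.sub_mem a1 b1) h hh, hC.Γ_sub_left a1 b1 hh,
    a2 h hh, b2 h hh, hC.add_left f hf.1 g hg.1 h hh, hC.Γ_sub_left hf.1 hg.1 hh]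
  have e : 2 * (f + g) * (C.Γ f h + C.Γ g h) - 2 * (f - g) * (C.Γ f h - C.Γ g h) =
      4 * (f * C.Γ g h + g * C.Γ f h) := by ring
  rw [e, quarter hC]

theorem Γ_mul_right (hf : f ∈ C.A) (hg : g ∈ C.A) (hh : h ∈ C.W) :
    C.Γ h (f * g) = f * C.Γ h g + g * C.Γ h f := by
  rw [hC.symm h hh _ (hC.mul_mem_A hf hg).1, hC.Γ_mul_left hf hg hh, hC.symm h hh g hg.1,
    hC.symm h hh f hf.1]

end algebra

end IsDir

end Vale.Agent.P233
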