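import Vale.Agent.P233.BasicA

open MeasureTheory Filter Topology
open scoped ENNReal NNReal

namespace Vale.Agent.P233

variable {M : Type*} [MeasurableSpace M] {m : Measure M} {C : Calc m}

theorem abs_arctan_le (t : ℝ) : |Real.arctan t| ≤ |t| := by
  have key : ∀ s : ℝ, 0 ≤ s → Real.arctan s ≤ s := by
    intro s hs
    rcases hs.eq_or_lt with h | h
    · rw [← h]; simp
    · have h2 := Real.lt_tan (Real.arctan_pos.2 h) (Real.arctan_lt_pi_div_two _)
      rw [Real.tan_arctan] at h2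
      exact h2.le
  rcases le_or_gt 0 t with ht | ht
  · rw [abs_of_nonneg (Real.arctan_nonneg.2 ht), abs_of_nonneg ht]
    exact key t ht
  · have h1 := key (-t) (by linarith)
    have h2 : 0 < Real.arctan (-t) := Real.arctan_pos.2 (by linarith)
    rw [Real.arctan_neg] at h1 h2
    rw [abs_of_neg ht, abs_of_neg (by linarith)]
    exact h1

theorem tendsto_div_succ (t : ℝ) : Tendsto (fun n : ℕ => t / ((n : ℝ) + 1)) atTop (𝓝 0) := by
  have h1 := (tendsto_one_div_add_atTop_nhds_zero_nat (𝕜 := ℝ)).const_mul t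
  rw [mul_zero] at h1
  refine h1.congr fun n => ?_
  rw [mul_one_div]

namespace IsDir

variable (hC : IsDir C)
include hC
variable {f g h k : M →ₘ[m] ℝ}

/-! ### energy of sums -/

theorem nrm2_nonneg (hf : f ∈ C.W) : 0 ≤ C.nrm2 f :=
  add_nonneg (I_sq_nonneg f) (hC.E_nonneg hf)

theorem I_sq_le_nrm2 (hf : f ∈ C.W) : I (f ^ 2) ≤ C.nrm2 f := by
  unfold Calc.nrm2; linarith [hC.E_nonneg hf]

theorem E_le_nrm2 (f : M →ₘ[m] ℝ) : I (C.Γ f f) ≤ C.nrm2 f := by
  unfold Calc.nrm2; linarith [I_sq_nonneg f]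

theorem E_add (hf : f ∈ C.W) (hg : g ∈ C.W) :
    I (C.Γ (f + g) (f + g)) = I (C.Γ f f) + 2 * I (C.Γ f g) + I (C.Γ g g) := by
  have h1 := hC.Γ_expand 1 hf hg
  rw [one_smul, mul_one, one_pow, one_smul] at h1
  rw [h1, I_add (mem_add (hC.mem1 f hf) (mem_smul _ (hC.Γ_mem1 hf hg))) (hC.mem1 g hg),
    I_add (hC.mem1 f hf) (mem_smul _ (hC.Γ_mem1 hf hg)), I_smul]

theorem E_neg (hf : f ∈ C.W) : I (C.Γ (-f) (-f)) = I (C.Γ f f) := by
  rw [hC.Γ_neg_left hf (hC.neg_mem hf), hC.Γ_neg_right hf hf, neg_neg]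

theorem E_sub (hf : f ∈ C.W) (hg : g ∈ C.W) :
    I (C.Γ (f - g) (f - g)) = I (C.Γ f f) - 2 * I (C.Γ f g) + I (C.Γ g g) := by
  rw [sub_eq_add_neg, hC.E_add hf (hC.neg_mem hg), hC.E_neg hg, hC.Γ_neg_right hf hg, I_neg]
  ring

theorem E_smul (c : ℝ) (hf : f ∈ C.W) : I (C.Γ (c • f) (c • f)) = c ^ 2 * I (C.Γ f f) := by
  rw [hC.smul_left c f hf _ (hC.smul_mem c f hf), hC.Γ_smul_right c hf hf, I_smul, I_smul]
  ring

theorem sqrt_E_add_le (hf : f ∈ C.W) (hg : g ∈ C.W) :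
    Real.sqrt (I (C.Γ (f + g) (f + g))) ≤ Real.sqrt (I (C.Γ f f)) + Real.sqrt (I (C.Γ g g)) := by
  rw [hC.E_add hf hg]
  refine Real.sqrt_le_iff.2 ⟨by positivity, ?_⟩
  have h1 := (le_abs_self _).trans (hC.E_abs_le hf hg)
  nlinarith [Real.sq_sqrt (hC.E_nonneg hf), Real.sq_sqrt (hC.E_nonneg hg)]

theorem E_add_le (hf : f ∈ C.W) (hg : g ∈ C.W) :
    I (C.Γ (f + g) (f + g)) ≤ 2 * I (C.Γ f f) + 2 * I (C.Γ g g) := by
  have h1 := hC.E_nonneg (hC.sub_mem hf hg)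
  rw [hC.E_sub hf hg] at h1
  rw [hC.E_add hf hg]
  linarith

theorem nrm2_add_le (hf : f ∈ C.W) (hg : g ∈ C.W) :
    C.nrm2 (f + g) ≤ 2 * C.nrm2 f + 2 * C.nrm2 g := by
  unfold Calc.nrm2
  linarith [hC.E_add_le hf hg, I_sq_add_le (hC.memLp f hf) (hC.memLp g hg)]

theorem nrm2_neg (hf : f ∈ C.W) : C.nrm2 (-f) = C.nrm2 f := by
  unfold Calc.nrm2
  rw [hC.E_neg hf, neg_sq]

theorem nrm2_sub_le (hf : f ∈ C.W) (hg : g ∈ C.W) :
    C.nrm2 (f - g) ≤ 2 * C.nrm2 f + 2 * C.nrm2 g := by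
  rw [sub_eq_add_neg, ← hC.nrm2_neg hg]
  exact hC.nrm2_add_le hf (hC.neg_mem hg)

theorem nrm2_sub_comm (hf : f ∈ C.W) (hg : g ∈ C.W) : C.nrm2 (f - g) = C.nrm2 (g - f) := by
  rw [← hC.nrm2_neg (hC.sub_mem hf hg), neg_sub]

/-- convergence in `W` gives a Cauchy sequence -/
theorem cauchy_of_tendsto {u : ℕ → M →ₘ[m] ℝ} (hu : ∀ n, u n ∈ C.W) (hf : f ∈ C.W)
    (h : Tendsto (fun n => C.nrm2 (u n - f)) atTop (𝓝 0)) :
    ∀ ε > 0, ∃ N, ∀ n ≥ N, ∀ k ≥ N, C.nrm2 (u n - u k) < ε := by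
  intro ε hε
  obtain ⟨N, hN⟩ := eventually_atTop.1 (h.eventually (gt_mem_nhds (show (0 : ℝ) < ε / 4 by
    positivity)))
  refine ⟨N, fun n hn k hk => ?_⟩
  have h1 := hC.nrm2_sub_le (hC.sub_mem (hu n) hf) (hC.sub_mem (hu k) hf)
  have e : u n - f - (u k - f) = u n - u k := by abel
  rw [e] at h1
  linarith [hN n hn, hN k hk]

/-- limits in `L²` of convergent sequences are unique -/
theorem eq_of_tendsto_I_sq {u : ℕ → M →ₘ[m] ℝ} (hu : ∀ n, MemLp (u n) 2 m) (hf : MemLp f 2 m)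
    (hg : MemLp g 2 m) (h1 : Tendsto (fun n => I ((u n - f) ^ 2)) atTop (𝓝 0))
    (h2 : Tendsto (fun n => I ((u n - g) ^ 2)) atTop (𝓝 0)) : f = g := by
  rw [← sub_eq_zero]
  refine I_sq_eq_zero (mem_sub hf hg) (le_antisymm ?_ (I_sq_nonneg _))
  have h3 : Tendsto (fun n => 2 * I ((u n - g) ^ 2) + 2 * I ((u n - f) ^ 2)) atTop (𝓝 0) := by
    simpa using (h2.const_mul 2).add (h1.const_mul 2)
  refine ge_of_tendsto' h3 fun n => ?_
  have h4 := I_sq_add_le (mem_sub (hu n) hg) (mem_neg (mem_sub (hu n) hf))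
  rw [neg_sq] at h4
  have e : u n - g + -(u n - f) = f - g := by abel
  rwa [e] at h4

theorem tendsto_I_sq_of_nrm2 {u : ℕ → M →ₘ[m] ℝ} (hu : ∀ n, u n ∈ C.W) (hf : f ∈ C.W)
    (h : Tendsto (fun n => C.nrm2 (u n - f)) atTop (𝓝 0)) :
    Tendsto (fun n => I ((u n - f) ^ 2)) atTop (𝓝 0) :=
  squeeze_zero (fun n => I_sq_nonneg _) (fun n => hC.I_sq_le_nrm2 (hC.sub_mem (hu n) hf)) h

theorem tendsto_E_of_nrm2 {u : ℕ → M →ₘ[m] ℝ} (hu : ∀ n, u n ∈ C.W) (hf : f ∈ C.W)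
    (h : Tendsto (fun n => C.nrm2 (u n - f)) atTop (𝓝 0)) :
    Tendsto (fun n => I (C.Γ (u n - f) (u n - f))) atTop (𝓝 0) :=
  squeeze_zero (fun n => hC.E_nonneg (hC.sub_mem (hu n) hf)) (fun n => E_le_nrm2 hC _) h

/-- `L¹` convergence of `Γ` -/
theorem tendsto_int_abs_Γ {u : ℕ → M →ₘ[m] ℝ} (hu : ∀ n, u n ∈ C.W) (hf : f ∈ C.W) (hg : g ∈ C.W)
    (h : Tendsto (fun n => C.nrm2 (u n - f)) atTop (𝓝 0)) :
    Tendsto (fun n => ∫ x, |C.Γ (u n - f) g x| ∂m) atTop (𝓝 0) := by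
  have h1 := hC.tendsto_E_of_nrm2 hu hf h
  have h2 : Tendsto (fun n => Real.sqrt (I (C.Γ (u n - f) (u n - f))) *
      Real.sqrt (I (C.Γ g g))) atTop (𝓝 0) := by
    have := ((Real.continuous_sqrt.tendsto 0).comp h1).mul_const (Real.sqrt (I (C.Γ g g)))
    simpa [Function.comp_def] using this
  exact squeeze_zero (fun n => integral_nonneg fun x => abs_nonneg _)
    (fun n => hC.int_abs_Γ_le (hC.sub_mem (hu n) hf) hg) h2

/-! ### truncations -/

/-- truncations -/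
theorem exists_trunc (hf : f ∈ C.W) : ∃ u : ℕ → M →ₘ[m] ℝ, (∀ n, u n ∈ C.A) ∧
    (∀ n, ∀ᵐ x ∂m, |u n x| ≤ |f x|) ∧ Tendsto (fun n => C.nrm2 (u n - f)) atTop (𝓝 0) ∧
    (∀ᵐ x ∂m, Tendsto (fun n => u n x) atTop (𝓝 (f x))) := by
  set φ : ℕ → ℝ → ℝ := fun n t => ((n : ℝ) + 1) * Real.arctan (t / ((n : ℝ) + 1)) with hφ
  set φ' : ℕ → ℝ → ℝ := fun n t => 1 / (1 + (t / ((n : ℝ) + 1)) ^ 2) with hφ'
  have hn : ∀ n : ℕ, (0 : ℝ) < (n : ℝ) + 1 := fun n => by positivity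
  have hφc : ∀ n, Continuous (φ n) := fun n =>
    continuous_const.mul (Real.continuous_arctan.comp (continuous_id.div_const _))
  have hφ'c : ∀ n, Continuous (φ' n) := fun n =>
    continuous_const.div (continuous_const.add ((continuous_id.div_const _).pow 2))
      (fun t => by positivity)
  have hd : ∀ n t, HasDerivAt (φ n) (φ' n t) t := by
    intro n t
    have h1 := ((hasDerivAt_id' t).div_const ((n : ℝ) + 1)).arctan.const_mul ((n : ℝ) + 1)
    refine h1.congr_deriv ?_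
    simp only [hφ']
    have := hn n
    field_simp
  have hφ0 : ∀ n, φ n 0 = 0 := fun n => by simp [hφ]
  have hφ'1 : ∀ n t, 0 ≤ φ' n t ∧ φ' n t ≤ 1 := by
    intro n t
    simp only [hφ']
    refine ⟨by positivity, ?_⟩
    rw [div_le_one (by positivity)]
    nlinarith [sq_nonneg (t / ((n : ℝ) + 1))]
  have hφ1 : ∀ n t, |φ n t| ≤ |t| := by
    intro n t
    simp only [hφ]
    rw [abs_mul, abs_of_pos (hn n)]
    have h1 := abs_arctan_le (t / ((n : ℝ) + 1))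
    rw [abs_div, abs_of_pos (hn n)] at h1
    calc ((n : ℝ) + 1) * |Real.arctan (t / ((n : ℝ) + 1))| ≤ ((n : ℝ) + 1) * (|t| / ((n : ℝ) + 1)) :=
          mul_le_mul_of_nonneg_left h1 (hn n).le
      _ = |t| := by have := hn n; field_simp
  have hlim : ∀ t, Tendsto (fun n => φ' n t) atTop (𝓝 1) := by
    intro t
    have h1 := tendsto_div_succ t
    have h2 : Tendsto (fun n : ℕ => 1 / (1 + (t / ((n : ℝ) + 1)) ^ 2)) atTop
        (𝓝 (1 / (1 + 0 ^ 2))) :=
      Tendsto.div tendsto_const_nhds (tendsto_const_nhds.add (h1.pow 2)) (by norm_num)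
    rw [show (1 : ℝ) / (1 + 0 ^ 2) = 1 by norm_num] at h2
    exact h2
  have hlim2 : ∀ t, Tendsto (fun n => φ n t) atTop (𝓝 t) := by
    intro t
    rcases eq_or_ne t 0 with rfl | ht
    · simp only [hφ0]; exact tendsto_const_nhds
    · have h1 : Tendsto (fun n : ℕ => t / ((n : ℝ) + 1)) atTop (𝓝[≠] 0) := by
        rw [tendsto_nhdsWithin_iff]
        constructor
        · exact tendsto_div_succ t
        · exact Eventually.of_forall fun n => div_ne_zero ht (hn n).ne'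
      have h2 : HasDerivAt Real.arctan 1 0 := by
        have := Real.hasDerivAt_arctan 0
        simpa using this
      rw [hasDerivAt_iff_tendsto_slope] at h2
      have h3 := (h2.comp h1).const_mul t
      rw [mul_one] at h3
      refine h3.congr fun n => ?_
      simp only [hφ, Function.comp_apply, slope_def_field, Real.arctan_zero, sub_zero]
      have := hn n
      field_simp
  choose hmem hΓ using fun n => hC.chain f hf (φ n) (φ' n) (hφc n) (hφ'c n) (hd n) (hφ0 n)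
    ⟨1, fun t => by rw [abs_of_nonneg (hφ'1 n t).1]; exact (hφ'1 n t).2⟩
  set u : ℕ → M →ₘ[m] ℝ := fun n => AEEqFun.comp (φ n) (hφc n) f with hu
  have hae : ∀ n, ⇑(u n) =ᵐ[m] fun x => φ n (f x) := fun n => AEEqFun.coeFn_comp (φ n) (hφc n) f
  have hf2 := hC.memLp f hf
  have ha2 : ∀ n, ∀ᵐ x ∂m, |u n x| ≤ |f x| := by
    intro n
    filter_upwards [hae n] with x hx
    rw [hx]; exact hφ1 n _
  have ha3 : ∀ᵐ x ∂m, Tendsto (fun n => u n x) atTop (𝓝 (f x)) := by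
    filter_upwards [ae_all_iff.2 hae] with x hx
    simp_rw [hx]
    exact hlim2 _
  refine ⟨u, fun n => ⟨hmem n, ?_⟩, ha2, ?_, ha3⟩
  · rw [mem_top_iff]
    refine ⟨((n : ℝ) + 1) * (Real.pi / 2), ?_⟩
    filter_upwards [hae n] with x hx
    rw [hx]
    simp only [hφ]
    rw [abs_mul, abs_of_pos (hn n)]
    exact mul_le_mul_of_nonneg_left (abs_le.2 ⟨(Real.neg_pi_div_two_lt_arctan _).le,
      (Real.arctan_lt_pi_div_two _).le⟩) (hn n).le
  · -- `L²` part
    have l1 : Tendsto (fun n => I ((u n - f) ^ 2)) atTop (𝓝 (I (0 : M →ₘ[m] ℝ))) := by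
      refine I_tendsto_of_dominated (G := fun x => 4 * f x ^ 2)
        ((int_of_mem (mem_sq hf2)).congr (sq_ae f) |>.const_mul 4) (fun n => ?_) ?_
      · filter_upwards [sq_ae (u n - f), sub_ae (u n) f, ha2 n] with x h1 h2 h3
        rw [h1, h2, abs_of_nonneg (sq_nonneg _)]
        have h4 : |u n x - f x| ≤ 2 * |f x| := by
          calc |u n x - f x| ≤ |u n x| + |f x| := abs_sub _ _
            _ ≤ 2 * |f x| := by linarith
        calc (u n x - f x) ^ 2 = |u n x - f x| ^ 2 := (sq_abs _).symm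
          _ ≤ (2 * |f x|) ^ 2 := by gcongr
          _ = 4 * f x ^ 2 := by rw [mul_pow, sq_abs]; ring
      · filter_upwards [ae_all_iff.2 fun n => sq_ae (u n - f), ae_all_iff.2 fun n => sub_ae (u n) f,
          ha3, zero_ae (M := M) (m := m)] with x h1 h2 h3 h4
        simp_rw [h1, h2, h4]
        have := ((h3.sub_const (f x)).pow 2)
        simpa using this
    have l2 : Tendsto (fun n => I (C.Γ (u n - f) (u n - f))) atTop (𝓝 (I (0 : M →ₘ[m] ℝ))) := by
      have hform : ∀ n, ∀ᵐ x ∂m, C.Γ (u n - f) (u n - f) x = (φ' n (f x) - 1) ^ 2 * C.Γ f f x := by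
        intro n
        have huf := hC.sub_mem (hmem n) hf
        have e1 : C.Γ (u n - f) (u n - f) = C.Γ (u n) (u n) - C.Γ (u n) f - (C.Γ f (u n) - C.Γ f f) := by
          rw [hC.Γ_sub_left (hmem n) hf huf, hC.Γ_sub_right (hmem n) (hmem n) hf,
            hC.Γ_sub_right hf (hmem n) hf]
        have e2 : C.Γ (u n) f = AEEqFun.comp (φ' n) (hφ'c n) f * C.Γ f f := hΓ n f hf
        have e3 : C.Γ f (u n) = AEEqFun.comp (φ' n) (hφ'c n) f * C.Γ f f := by
          rw [hC.symm f hf _ (hmem n), e2]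
        have e4 : C.Γ (u n) (u n) = AEEqFun.comp (φ' n) (hφ'c n) f *
            (AEEqFun.comp (φ' n) (hφ'c n) f * C.Γ f f) := by
          rw [← e3]; exact hΓ n (u n) (hmem n)
        have e5 : C.Γ (u n - f) (u n - f) = (AEEqFun.comp (φ' n) (hφ'c n) f - 1) ^ 2 * C.Γ f f := by
          rw [e1, e4, e3, e2]; ring
        rw [e5]
        filter_upwards [mul_ae ((AEEqFun.comp (φ' n) (hφ'c n) f - 1) ^ 2) (C.Γ f f),
          sq_ae (AEEqFun.comp (φ' n) (hφ'c n) f - 1), sub_ae (AEEqFun.comp (φ' n) (hφ'c n) f) 1,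
          one_ae (M := M) (m := m), AEEqFun.coeFn_comp (φ' n) (hφ'c n) f] with x h1 h2 h3 h4 h5
        rw [h1, h2, h3, h4, h5, Function.comp_apply]
      refine I_tendsto_of_dominated (G := fun x => C.Γ f f x) (int_of_mem (hC.mem1 f hf))
        (fun n => ?_) ?_
      · filter_upwards [hform n, hC.Γ_nonneg_ae hf] with x h1 h2
        rw [h1, abs_of_nonneg (mul_nonneg (sq_nonneg _) h2)]
        have h3 : (φ' n (f x) - 1) ^ 2 ≤ 1 := by
          have := hφ'1 n (f x)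
          nlinarith
        nlinarith
      · filter_upwards [ae_all_iff.2 hform, zero_ae (M := M) (m := m)] with x h1 h2
        simp_rw [h1, h2]
        have := (((hlim (f x)).sub_const 1).pow 2).mul_const (C.Γ f f x)
        simpa using this
    rw [I_zero] at l1 l2
    have := l1.add l2
    rw [add_zero] at this
    exact this

end IsDir

end Vale.Agent.P233
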