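import Vale.Agent.P233.BasicB

open MeasureTheory Filter Topology
open scoped ENNReal NNReal

namespace Vale.Agent.P233

variable {M : Type*} [MeasurableSpace M] {m : Measure M} {C : Calc m}

namespace IsDir

variable (hC : IsDir C)
include hC

section algebra
variable {f g h : M →ₘ[m] ℝ}

/-- energy of a product -/
theorem nrm2_mul_le (hf : f ∈ C.A) {K L : ℝ} (hK : ∀ᵐ x ∂m, |f x| ≤ K)
    (hL : ∀ᵐ x ∂m, |C.Γ f f x| ≤ L) (hg : g ∈ C.A) :
    C.nrm2 (f * g) ≤ (2 * K ^ 2 + 2 * |L|) * C.nrm2 g := by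
  have hfg := hC.mul_mem_A hf hg
  have hg2 := hC.memLp g hg.1
  have h1 : C.Γ (f * g) (f * g) = f ^ 2 * C.Γ g g + 2 * (f * g) * C.Γ f g + g ^ 2 * C.Γ f f := by
    rw [hC.Γ_mul_left hf hg hfg.1, hC.Γ_mul_right hf hg hg.1, hC.Γ_mul_right hf hg hf.1,
      hC.symm g hg.1 f hf.1]
    ring
  have h2 : I (C.Γ (f * g) (f * g)) ≤ 2 * K ^ 2 * I (C.Γ g g) + 2 * |L| * I (g ^ 2) := by
    rw [← I_smul, ← I_smul, ← I_add (mem_smul _ (hC.mem1 g hg.1)) (mem_smul _ (mem_sq hg2))]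
    refine I_mono (hC.mem1 _ hfg.1) (mem_add (mem_smul _ (hC.mem1 g hg.1))
      (mem_smul _ (mem_sq hg2))) ?_
    have e2 : (2 : M →ₘ[m] ℝ) = 1 + 1 := by norm_num
    rw [le_iff_ae, h1, e2]
    filter_upwards [add_ae (f ^ 2 * C.Γ g g + (1 + 1) * (f * g) * C.Γ f g) (g ^ 2 * C.Γ f f),
      add_ae (f ^ 2 * C.Γ g g) ((1 + 1) * (f * g) * C.Γ f g), mul_ae (f ^ 2) (C.Γ g g),
      mul_ae ((1 + 1) * (f * g)) (C.Γ f g), mul_ae (1 + 1) (f * g), add_ae (1 : M →ₘ[m] ℝ) 1,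
      one_ae (M := M) (m := m), mul_ae f g, mul_ae (g ^ 2) (C.Γ f f), sq_ae f, sq_ae g,
      add_ae ((2 * K ^ 2) • C.Γ g g) ((2 * |L|) • g ^ 2), smul_ae (C.Γ g g) (2 * K ^ 2),
      smul_ae (g ^ 2) (2 * |L|), hK, hL, hC.Γ_cs_ae hf.1 hg.1, hC.Γ_nonneg_ae hf.1,
      hC.Γ_nonneg_ae hg.1] with x a1 a2 a3 a4 a5 a6 a7 a8 a9 a10 a11 a12 a13 a14 a15 a16 a17 a18 a19
    rw [a1, a2, a3, a4, a5, a6, a7, a8, a9, a10, a11, a12, a13, a14, a11]
    have b1 : f x ^ 2 ≤ K ^ 2 := by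
      rw [← sq_abs]
      gcongr
    have b2 : C.Γ f f x ≤ |L| := (le_abs_self _).trans (a16.trans (le_abs_self _))
    have b3 : 2 * (f x * g x) * C.Γ f g x ≤ f x ^ 2 * C.Γ g g x + g x ^ 2 * C.Γ f f x := by
      -- from Cauchy-Schwarz
      set A := C.Γ f f x
      set B := C.Γ g g x
      set D := C.Γ f g x
      have c1 : (2 * (f x * g x) * D) ^ 2 ≤ (f x ^ 2 * B + g x ^ 2 * A) ^ 2 := by
        have c2 : (f x * g x) ^ 2 * D ^ 2 ≤ (f x * g x) ^ 2 * (A * B) :=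
          mul_le_mul_of_nonneg_left a17 (sq_nonneg _)
        nlinarith [sq_nonneg (f x ^ 2 * B - g x ^ 2 * A)]
      exact (le_abs_self _).trans (abs_le_of_sq_le_sq c1 (by positivity))
    have b4 : f x ^ 2 * C.Γ g g x ≤ K ^ 2 * C.Γ g g x := mul_le_mul_of_nonneg_right b1 a19
    have b5 : g x ^ 2 * C.Γ f f x ≤ g x ^ 2 * |L| := mul_le_mul_of_nonneg_left b2 (sq_nonneg _)
    linarith
  have h3 : I ((f * g) ^ 2) ≤ K ^ 2 * I (g ^ 2) := by
    rw [← I_smul]
    refine I_mono (mem_sq (hC.memLp _ hfg.1)) (mem_smul _ (mem_sq hg2)) ?_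
    rw [le_iff_ae]
    filter_upwards [sq_ae (f * g), mul_ae f g, smul_ae (g ^ 2) (K ^ 2), sq_ae g, hK]
      with x a1 a2 a3 a4 a5
    rw [a1, a2, a3, a4, mul_pow]
    refine mul_le_mul_of_nonneg_right ?_ (sq_nonneg _)
    rw [← sq_abs]
    gcongr
  unfold Calc.nrm2
  have h4 := I_sq_nonneg g
  have h5 := hC.E_nonneg hg.1
  have h6 : 0 ≤ K ^ 2 := sq_nonneg K
  have h7 : 0 ≤ |L| := abs_nonneg L
  have h8 : 0 ≤ K ^ 2 * I (g ^ 2) := mul_nonneg h6 h4
  have h9 : 0 ≤ |L| * I (C.Γ g g) := mul_nonneg h7 h5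
  nlinarith

/-- Bounded Lipschitz times Sobolev: approximation. -/
theorem mul_lip_aux (hf : f ∈ C.A) (hf' : MemLp (C.Γ f f) ∞ m) (hg : g ∈ C.W) :
    ∃ u : ℕ → M →ₘ[m] ℝ, (∀ n, u n ∈ C.A) ∧ Tendsto (fun n => C.nrm2 (u n - g)) atTop (𝓝 0) ∧
      f * g ∈ C.W ∧ Tendsto (fun n => C.nrm2 (f * u n - f * g)) atTop (𝓝 0) := by
  obtain ⟨u, hu1, hu2, hu3, hu4⟩ := hC.exists_trunc hg
  obtain ⟨K, hK⟩ := mem_top_iff.1 hf.2
  obtain ⟨L, hL⟩ := mem_top_iff.1 hf'
  have huW : ∀ n, u n ∈ C.W := fun n => (hu1 n).1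
  have hfu : ∀ n, f * u n ∈ C.W := fun n => (hC.mul_mem_A hf (hu1 n)).1
  set D : ℝ := 2 * K ^ 2 + 2 * |L| with hD
  have hD0 : 0 ≤ D := by positivity
  have hcau := hC.cauchy_of_tendsto huW hg hu3
  obtain ⟨F, hF, hlim⟩ := hC.complete (fun n => f * u n) hfu (by
    intro ε hε
    obtain ⟨N, hN⟩ := hcau (ε / (D + 1)) (by positivity)
    refine ⟨N, fun n hn k hk => ?_⟩
    have h1 := hC.nrm2_mul_le hf hK hL (hC.A_sub (hu1 n) (hu1 k))
    rw [mul_sub] at h1
    have h2 := hN n hn k hk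
    have h3 := hC.nrm2_nonneg (hC.sub_mem (huW n) (huW k))
    calc C.nrm2 (f * u n - f * u k) ≤ D * C.nrm2 (u n - u k) := h1
      _ ≤ (D + 1) * C.nrm2 (u n - u k) := by nlinarith
      _ < (D + 1) * (ε / (D + 1)) := by gcongr
      _ = ε := by field_simp)
  have hg2 := hC.memLp g hg
  have hfg2 : MemLp (f * g : M →ₘ[m] ℝ) 2 m := mem_mul_top hf.2 hg2
  have l1 := hC.tendsto_I_sq_of_nrm2 hfu hF hlim
  have l2 : Tendsto (fun n => I ((f * u n - f * g) ^ 2)) atTop (𝓝 0) := by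
    have h1 := (hC.tendsto_I_sq_of_nrm2 huW hg hu3).const_mul (K ^ 2)
    rw [mul_zero] at h1
    refine squeeze_zero (fun n => I_sq_nonneg _) (fun n => ?_) h1
    have hug2 := hC.memLp _ (hC.sub_mem (huW n) hg)
    rw [← I_smul, ← mul_sub]
    refine I_mono (mem_sq (mem_mul_top hf.2 hug2)) (mem_smul _ (mem_sq hug2)) ?_
    rw [le_iff_ae]
    filter_upwards [sq_ae (f * (u n - g)), mul_ae f (u n - g), smul_ae ((u n - g) ^ 2) (K ^ 2),
      sq_ae (u n - g), hK] with x a1 a2 a3 a4 a5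
    rw [a1, a2, a3, a4, mul_pow]
    refine mul_le_mul_of_nonneg_right ?_ (sq_nonneg _)
    rw [← sq_abs]
    gcongr
  have hFeq : F = f * g := hC.eq_of_tendsto_I_sq (fun n => hC.memLp _ (hfu n)) (hC.memLp F hF)
    hfg2 l1 l2
  rw [hFeq] at hF hlim
  exact ⟨u, hu1, hu3, hF, hlim⟩

/-- bounded Lipschitz times Sobolev is Sobolev -/
theorem mul_mem_lip (hf : f ∈ C.A) (hf' : MemLp (C.Γ f f) ∞ m) (hg : g ∈ C.W) :
    f * g ∈ C.W := by
  obtain ⟨u, h1, h2, h3, h4⟩ := hC.mul_lip_aux hf hf' hg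
  exact h3

theorem Γ_mul_left_lip (hf : f ∈ C.A) (hf' : MemLp (C.Γ f f) ∞ m) (hg : g ∈ C.W)
    (hh : h ∈ C.W) : C.Γ (f * g) h = f * C.Γ g h + g * C.Γ f h := by
  obtain ⟨u, h1, h2, h3, h4⟩ := hC.mul_lip_aux hf hf' hg
  obtain ⟨K, hK⟩ := mem_top_iff.1 hf.2
  have huW : ∀ n, u n ∈ C.W := fun n => (h1 n).1
  have hfu : ∀ n, f * u n ∈ C.W := fun n => (hC.mul_mem_A hf (h1 n)).1
  have hΓfh2 := hC.Γ_mem2 hf.1 hf' hh
  have hg2 := hC.memLp g hg
  set D := C.Γ (f * g) h - (f * C.Γ g h + g * C.Γ f h) with hD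
  have hDmem : MemLp D 1 m := mem_sub (hC.Γ_mem1 h3 hh)
    (mem_add (mem_mul_top hf.2 (hC.Γ_mem1 hg hh)) (mem_mul_22 hg2 hΓfh2))
  -- bound
  have hDn : ∀ n, D = -(C.Γ (f * u n - f * g) h) + (f * C.Γ (u n - g) h + (u n - g) * C.Γ f h) := by
    intro n
    rw [hD, hC.Γ_sub_left (hfu n) h3 hh, hC.Γ_sub_left (huW n) hg hh,
      hC.Γ_mul_left hf (h1 n) hh]
    ring
  have t1 := hC.tendsto_int_abs_Γ hfu h3 hh h4
  have t2 := (hC.tendsto_int_abs_Γ huW hg hh h2).const_mul |K|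
  have t3 : Tendsto (fun n => Real.sqrt (I ((u n - g) ^ 2)) * Real.sqrt (I (C.Γ f h ^ 2))) atTop
      (𝓝 0) := by
    have := ((Real.continuous_sqrt.tendsto 0).comp (hC.tendsto_I_sq_of_nrm2 huW hg h2)).mul_const
      (Real.sqrt (I (C.Γ f h ^ 2)))
    simpa [Function.comp_def] using this
  have hle : ∀ n, ∫ x, |D x| ∂m ≤ ∫ x, |C.Γ (f * u n - f * g) h x| ∂m +
      |K| * ∫ x, |C.Γ (u n - g) h x| ∂m +
      Real.sqrt (I ((u n - g) ^ 2)) * Real.sqrt (I (C.Γ f h ^ 2)) := by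
    intro n
    have hug := hC.sub_mem (huW n) hg
    have hug2 := hC.memLp _ hug
    have hfug := hC.sub_mem (hfu n) h3
    have i1 := int_of_mem (hC.Γ_mem1 hfug hh)
    have i2 := int_of_mem (hC.Γ_mem1 hug hh)
    have i3 := int_of_mem (mem_mul_22 hug2 hΓfh2)
    have c1 : ∫ x, |((u n - g) * C.Γ f h : M →ₘ[m] ℝ) x| ∂m ≤
        Real.sqrt (I ((u n - g) ^ 2)) * Real.sqrt (I (C.Γ f h ^ 2)) := by
      -- use absolute values
      have habs : Continuous fun t : ℝ => |t| := continuous_abs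
      have aux : ∀ k : M →ₘ[m] ℝ, MemLp k 2 m → MemLp (AEEqFun.comp (fun t : ℝ => |t|) habs k) 2 m ∧
          I (AEEqFun.comp (fun t : ℝ => |t|) habs k ^ 2) = I (k ^ 2) := by
        intro k hk
        refine ⟨mem_of_le hk ?_, ?_⟩
        · filter_upwards [AEEqFun.coeFn_comp (fun t : ℝ => |t|) habs k] with x hx
          rw [hx, Function.comp_apply, abs_abs]
        · unfold I
          refine integral_congr_ae ?_
          filter_upwards [AEEqFun.coeFn_comp (fun t : ℝ => |t|) habs k,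
            sq_ae (AEEqFun.comp (fun t : ℝ => |t|) habs k), sq_ae k] with x b1 b2 b3
          rw [b2, b1, b3, Function.comp_apply, sq_abs]
      obtain ⟨p1, p2⟩ := aux _ hug2
      obtain ⟨q1, q2⟩ := aux _ hΓfh2
      have := (le_abs_self _).trans (I_abs_le p1 q1)
      rw [p2, q2] at this
      refine le_trans (le_of_eq ?_) this
      unfold I
      refine integral_congr_ae ?_
      filter_upwards [mul_ae (u n - g) (C.Γ f h), mul_ae (AEEqFun.comp (fun t : ℝ => |t|) habs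
        (u n - g)) (AEEqFun.comp (fun t : ℝ => |t|) habs (C.Γ f h)),
        AEEqFun.coeFn_comp (fun t : ℝ => |t|) habs (u n - g),
        AEEqFun.coeFn_comp (fun t : ℝ => |t|) habs (C.Γ f h)] with x b1 b2 b3 b4
      rw [b1, b2, b3, b4, abs_mul]
      rfl
    refine le_trans ?_ (add_le_add_right c1 _)
    have i12 : Integrable (fun x => |C.Γ (f * u n - f * g) h x| + |K| * |C.Γ (u n - g) h x|) m :=
      i1.abs.add (i2.abs.const_mul _)
    rw [← integral_const_mul, ← integral_add i1.abs (i2.abs.const_mul _), ← integral_add i12 i3.abs]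
    refine integral_mono_ae (int_of_mem hDmem).abs (i12.add i3.abs) ?_
    have hn := hDn n
    filter_upwards [eq_iff_ae.1 hn, add_ae (-(C.Γ (f * u n - f * g) h))
      (f * C.Γ (u n - g) h + (u n - g) * C.Γ f h), neg_ae (C.Γ (f * u n - f * g) h),
      add_ae (f * C.Γ (u n - g) h) ((u n - g) * C.Γ f h), mul_ae f (C.Γ (u n - g) h), hK]
      with x b1 b2 b3 b4 b5 b6
    rw [b1, b2, b3, b4, b5]
    refine (abs_add_le _ _).trans ?_
    rw [abs_neg, add_assoc]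
    refine add_le_add le_rfl ((abs_add_le _ _).trans (add_le_add ?_ le_rfl))
    rw [abs_mul]
    exact mul_le_mul_of_nonneg_right (b6.trans (le_abs_self _)) (abs_nonneg _)
  have hlim : Tendsto (fun n => ∫ x, |C.Γ (f * u n - f * g) h x| ∂m +
      |K| * ∫ x, |C.Γ (u n - g) h x| ∂m +
      Real.sqrt (I ((u n - g) ^ 2)) * Real.sqrt (I (C.Γ f h ^ 2))) atTop (𝓝 0) := by
    simpa using (t1.add t2).add t3
  have h0 : ∫ x, |D x| ∂m ≤ 0 := ge_of_tendsto' hlim hle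
  have h5 : ∀ᵐ x ∂m, |D x| = 0 := by
    have := (integral_eq_zero_iff_of_nonneg (fun x => abs_nonneg _)
      (int_of_mem hDmem).abs).1 (le_antisymm h0 (integral_nonneg fun x => abs_nonneg _))
    exact this
  have h6 : D = 0 := by
    rw [eq_iff_ae]
    filter_upwards [h5, zero_ae (M := M) (m := m)] with x b1 b2
    rw [b2]
    exact abs_eq_zero.1 b1
  rw [hD, sub_eq_zero] at h6
  exact h6

end algebra

section lap
variable {f g h k : M →ₘ[m] ℝ}

/-- an `L²` function orthogonal to `W` vanishes -/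
theorem eq_zero_of_orth (hf : MemLp f 2 m) (h : ∀ g ∈ C.W, I (f * g) = 0) : f = 0 := by
  refine I_sq_eq_zero hf ?_
  by_contra hne
  have hpos : 0 < I (f ^ 2) := lt_of_le_of_ne (I_sq_nonneg f) (Ne.symm hne)
  obtain ⟨g, hg, hfg⟩ := hC.dense_L2 f hf (I (f ^ 2)) hpos
  have hg2 := hC.memLp g hg
  have h1 := I_cs hf (mem_sub hf hg2)
  have h2 : I (f * (f - g)) = I (f ^ 2) := by
    rw [mul_sub, I_sub (mem_mul_22 hf hf) (mem_mul_22 hf hg2), h g hg, sub_zero, sq]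
  rw [h2] at h1
  nlinarith

theorem isLap_unique (h1 : C.IsLap f g) (h2 : C.IsLap f h) : g = h := by
  rw [← sub_eq_zero]
  refine hC.eq_zero_of_orth (mem_sub h1.2.1 h2.2.1) fun k hk => ?_
  have hk2 := hC.memLp k hk
  have a1 : I (C.Γ f k) = -I (g * k) := h1.2.2 k hk
  have a2 : I (C.Γ f k) = -I (h * k) := h2.2.2 k hk
  rw [sub_mul, I_sub (mem_mul_22 h1.2.1 hk2) (mem_mul_22 h2.2.1 hk2)]
  linarith

theorem lap_eq (h1 : C.IsLap f g) : C.lap f = g := by
  have h : ∃ h, C.IsLap f h := ⟨g, h1⟩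
  have h2 : C.IsLap f (C.lap f) := by
    unfold Calc.lap
    rw [dif_pos h]
    exact h.choose_spec
  exact hC.isLap_unique h2 h1

theorem isLap_add (h1 : C.IsLap f h) (h2 : C.IsLap g k) : C.IsLap (f + g) (h + k) := by
  refine ⟨hC.add_mem f h1.1 g h2.1, mem_add h1.2.1 h2.2.1, fun l hl => ?_⟩
  have hl2 := hC.memLp l hl
  have a1 : I (C.Γ f l) = -I (h * l) := h1.2.2 l hl
  have a2 : I (C.Γ g l) = -I (k * l) := h2.2.2 l hl
  show I (C.Γ (f + g) l) = -I ((h + k) * l)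
  rw [hC.add_left f h1.1 g h2.1 l hl, I_add (hC.Γ_mem1 h1.1 hl) (hC.Γ_mem1 h2.1 hl), add_mul,
    I_add (mem_mul_22 h1.2.1 hl2) (mem_mul_22 h2.2.1 hl2)]
  linarith

theorem isLap_smul (c : ℝ) (h1 : C.IsLap f h) : C.IsLap (c • f) (c • h) := by
  refine ⟨hC.smul_mem c f h1.1, mem_smul c h1.2.1, fun l hl => ?_⟩
  have a1 : I (C.Γ f l) = -I (h * l) := h1.2.2 l hl
  show I (C.Γ (c • f) l) = -I ((c • h) * l)
  rw [hC.smul_left c f h1.1 l hl, I_smul, smul_mul_assoc, I_smul, a1]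
  ring

end lap

/-- limits in `L²` along a bounded sequence in `W` are in `W` -/
theorem mem_of_bounded {u : ℕ → M →ₘ[m] ℝ} {f : M →ₘ[m] ℝ} {K : ℝ} (hu : ∀ n, u n ∈ C.W)
    (hK : ∀ n, I (C.Γ (u n) (u n)) ≤ K) (hf : MemLp f 2 m)
    (hlim : Tendsto (fun n => I ((u n - f) ^ 2)) atTop (𝓝 0)) :
    f ∈ C.W ∧ I (C.Γ f f) ≤ K := by
  -- nested convex sets
  set S : ℕ → Set (M →ₘ[m] ℝ) := fun n => {g | g ∈ C.W ∧ I ((g - f) ^ 2) ≤ ((n : ℝ) + 1)⁻¹} with hS
  have hne : ∀ n, ∃ j, u j ∈ S n := by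
    intro n
    obtain ⟨j, hj⟩ := (hlim.eventually (ge_mem_nhds (show (0 : ℝ) < ((n : ℝ) + 1)⁻¹ by
      positivity))).exists
    exact ⟨j, hu j, hj⟩
  set e : ℕ → ℝ := fun n => sInf ((fun g => I (C.Γ g g)) '' S n) with he
  have hbdd : ∀ n, BddBelow ((fun g => I (C.Γ g g)) '' S n) := by
    intro n
    refine ⟨0, ?_⟩
    rintro _ ⟨g, hg, rfl⟩
    exact hC.E_nonneg hg.1
  have heK : ∀ n, e n ≤ K := by
    intro n
    obtain ⟨j, hj⟩ := hne n
    exact (csInf_le (hbdd n) ⟨u j, hj, rfl⟩).trans (hK j)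
  have hSmono : ∀ n k, n ≤ k → S k ⊆ S n := by
    intro n k hnk g hg
    refine ⟨hg.1, hg.2.trans ?_⟩
    have : (n : ℝ) ≤ k := by exact_mod_cast hnk
    gcongr
  have hemono : Monotone e := by
    intro n k hnk
    obtain ⟨j, hj⟩ := hne k
    exact csInf_le_csInf (hbdd n) ⟨_, ⟨u j, hj, rfl⟩⟩ (Set.image_mono (hSmono n k hnk))
  -- almost minimizers
  have hex : ∀ n : ℕ, ∃ g ∈ S n, I (C.Γ g g) < e n + ((n : ℝ) + 1)⁻¹ := by
    intro n
    obtain ⟨j, hj⟩ := hne n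
    have h1 : e n < e n + ((n : ℝ) + 1)⁻¹ := by
      have : (0 : ℝ) < ((n : ℝ) + 1)⁻¹ := by positivity
      linarith
    obtain ⟨_, ⟨g, hg, rfl⟩, h2⟩ := exists_lt_of_csInf_lt
      (s := (fun g => I (C.Γ g g)) '' S n) ⟨_, ⟨u j, hj, rfl⟩⟩ h1
    exact ⟨g, hg, h2⟩
  choose g hg1 hg2 using hex
  have hgW : ∀ n, g n ∈ C.W := fun n => (hg1 n).1
  -- limit of the minima
  have hebdd : BddAbove (Set.range e) := ⟨K, by rintro _ ⟨n, rfl⟩; exact heK n⟩
  set E := ⨆ n, e n with hE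
  have helim : Tendsto e atTop (𝓝 E) := tendsto_atTop_ciSup hemono hebdd
  have heE : ∀ n, e n ≤ E := fun n => le_ciSup hebdd n
  -- L² convergence
  have hgf : Tendsto (fun n => I ((g n - f) ^ 2)) atTop (𝓝 0) :=
    squeeze_zero (fun n => I_sq_nonneg _) (fun n => (hg1 n).2) (by
      have := tendsto_one_div_add_atTop_nhds_zero_nat (𝕜 := ℝ)
      simpa using this)
  -- key energy estimate
  have key : ∀ n k, n ≤ k → I (C.Γ (g n - g k) (g n - g k)) ≤ 2 * (E - e n) +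
      4 * ((n : ℝ) + 1)⁻¹ := by
    intro n k hnk
    have hk : g k ∈ S n := hSmono n k hnk (hg1 k)
    have hmid : (2 : ℝ)⁻¹ • (g n + g k) ∈ S n := by
      refine ⟨hC.smul_mem _ _ (hC.add_mem _ (hgW n) _ (hgW k)), ?_⟩
      have e1 : (2 : ℝ)⁻¹ • (g n + g k) - f = (2 : ℝ)⁻¹ • ((g n - f) + (g k - f)) := by module
      rw [e1, smul_pow, I_smul]
      have h1 := I_sq_add_le (mem_sub (hC.memLp _ (hgW n)) hf) (mem_sub (hC.memLp _ (hgW k)) hf)
      have h2 := (hg1 n).2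
      have h3 := hk.2
      linarith
    have h1 : e n ≤ I (C.Γ ((2 : ℝ)⁻¹ • (g n + g k)) ((2 : ℝ)⁻¹ • (g n + g k))) :=
      csInf_le (hbdd n) ⟨_, hmid, rfl⟩
    rw [hC.E_smul _ (hC.add_mem _ (hgW n) _ (hgW k)), hC.E_add (hgW n) (hgW k)] at h1
    rw [hC.E_sub (hgW n) (hgW k)]
    have h2 := hg2 n
    have h3 := hg2 k
    have h4 : (((k : ℝ) + 1)⁻¹ : ℝ) ≤ ((n : ℝ) + 1)⁻¹ := by
      have : (n : ℝ) ≤ k := by exact_mod_cast hnk
      gcongr
    have h5 := heE k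
    nlinarith
  have key2 : ∀ n k, n ≤ k → C.nrm2 (g n - g k) ≤ 2 * (E - e n) + 8 * ((n : ℝ) + 1)⁻¹ := by
    intro n k hnk
    have h1 := key n k hnk
    have h2 : I ((g n - g k) ^ 2) ≤ 4 * ((n : ℝ) + 1)⁻¹ := by
      have h3 := I_sq_add_le (mem_sub (hC.memLp _ (hgW n)) hf)
        (mem_neg (mem_sub (hC.memLp _ (hgW k)) hf))
      have e1 : g n - f + -(g k - f) = g n - g k := by abel
      rw [e1, neg_sq] at h3
      have h4 := (hg1 n).2
      have h5 := (hSmono n k hnk (hg1 k)).2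
      linarith
    unfold Calc.nrm2
    linarith
  have hb : Tendsto (fun n : ℕ => 2 * (E - e n) + 8 * ((n : ℝ) + 1)⁻¹) atTop (𝓝 0) := by
    have h1 := (helim.const_sub E).const_mul 2
    have h2 := (tendsto_one_div_add_atTop_nhds_zero_nat (𝕜 := ℝ)).const_mul 8
    have h3 := h1.add h2
    simpa using h3
  obtain ⟨F, hF, hFlim⟩ := hC.complete g hgW (by
    intro ε hε
    obtain ⟨N, hN⟩ := eventually_atTop.1 (hb.eventually (gt_mem_nhds hε))
    refine ⟨N, fun n hn k hk => ?_⟩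
    rcases le_total n k with hnk | hnk
    · exact (key2 n k hnk).trans_lt (hN n hn)
    · rw [hC.nrm2_sub_comm (hgW n) (hgW k)]
      exact (key2 k n hnk).trans_lt (hN k hk))
  have hFf : F = f := hC.eq_of_tendsto_I_sq (fun n => hC.memLp _ (hgW n)) (hC.memLp F hF) hf
    (hC.tendsto_I_sq_of_nrm2 hgW hF hFlim) hgf
  rw [hFf] at hF hFlim
  refine ⟨hF, ?_⟩
  have hE1 := hC.tendsto_E_of_nrm2 hgW hF hFlim
  have hK0 : 0 ≤ K := (hC.E_nonneg (hu 0)).trans (hK 0)
  have hlim2 : Tendsto (fun n : ℕ => Real.sqrt (I (C.Γ (g n - f) (g n - f))) +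
      Real.sqrt (K + ((n : ℝ) + 1)⁻¹)) atTop (𝓝 (Real.sqrt 0 + Real.sqrt (K + 0))) := by
    refine ((Real.continuous_sqrt.tendsto 0).comp hE1).add ?_
    refine (Real.continuous_sqrt.tendsto (K + 0)).comp ?_
    have := tendsto_one_div_add_atTop_nhds_zero_nat (𝕜 := ℝ)
    have h2 := this.const_add K
    simpa using h2
  have hle : Real.sqrt (I (C.Γ f f)) ≤ Real.sqrt 0 + Real.sqrt (K + 0) := by
    refine ge_of_tendsto' hlim2 fun n => ?_
    have h1 := hC.sqrt_E_add_le (hC.neg_mem (hC.sub_mem (hgW n) hF)) (hgW n)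
    have e1 : -(g n - f) + g n = f := by abel
    rw [e1, hC.E_neg (hC.sub_mem (hgW n) hF)] at h1
    refine h1.trans (add_le_add le_rfl (Real.sqrt_le_sqrt ?_))
    linarith [hg2 n, heK n]
  rw [Real.sqrt_zero, zero_add, add_zero] at hle
  exact (Real.sqrt_le_sqrt_iff hK0).1 hle

theorem nonneg_of_forall {F : M →ₘ[m] ℝ} (hF : MemLp F 1 m)
    (h : ∀ s ∈ C.A, 0 ≤ s → 0 ≤ I (s * F)) : 0 ≤ F := by
  have hFint := int_of_mem hF
  have hFm : StronglyMeasurable (F : M → ℝ) := AEEqFun.stronglyMeasurable F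
  -- it is enough to show that `{F < -ε}` is a null set
  have key : ∀ n : ℕ, m {x | F x < -((n : ℝ) + 1)⁻¹} = 0 := by
    intro n
    set ε : ℝ := ((n : ℝ) + 1)⁻¹ with hε
    have hε0 : 0 < ε := by positivity
    set S : Set M := {x | F x < -ε} with hS
    have hSm : MeasurableSet S := measurableSet_lt hFm.measurable measurable_const
    have hSfin : m S < ∞ := by
      have h1 : S ⊆ {x | ε ≤ ‖F x‖} := by
        intro x hx
        simp only [hS] at hx
        have hx' : F x < -ε := hx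
        show ε ≤ ‖F x‖
        rw [Real.norm_eq_abs]
        exact le_trans (by linarith) (neg_le_abs _)
      exact (measure_mono h1).trans_lt (hFint.measure_norm_ge_lt_top hε0)
    have hind : MemLp (S.indicator (fun _ => (1 : ℝ))) 2 m :=
      memLp_indicator_const 2 hSm 1 (Or.inr hSfin.ne)
    set χ : M →ₘ[m] ℝ := AEEqFun.mk _ hind.1 with hχ
    have hχae := AEEqFun.coeFn_mk _ hind.1
    have hχ2 : MemLp χ 2 m := (memLp_congr_ae hχae).2 hind
    -- approximations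
    choose g hg1 hg2 using fun k : ℕ => hC.dense_L2 χ hχ2 (((k : ℝ) + 1)⁻¹) (by positivity)
    have hlim : Tendsto (fun k => I ((g k - χ) ^ 2)) atTop (𝓝 0) := by
      refine squeeze_zero (fun n => I_sq_nonneg _) (fun k => ?_) (show Tendsto (fun k : ℕ =>
        ((k : ℝ) + 1)⁻¹) atTop (𝓝 0) by
          have := tendsto_one_div_add_atTop_nhds_zero_nat (𝕜 := ℝ)
          simpa using this)
      have e1 : (g k - χ) ^ 2 = (χ - g k) ^ 2 := by ring
      rw [e1]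
      exact (hg2 k).le
    obtain ⟨ns, hns, hae⟩ := exists_subseq_of_I_sq (fun k => hC.memLp _ (hg1 k)) hχ2 hlim
    -- truncation
    set φ : ℝ → ℝ := fun t => 2 * t ^ 2 / (1 + t ^ 2) with hφ
    set φ' : ℝ → ℝ := fun t => 4 * t / (1 + t ^ 2) ^ 2 with hφ'
    have hφc : Continuous φ := (by fun_prop : Continuous fun t : ℝ => 2 * t ^ 2).div
      (by fun_prop) (fun t => by positivity)
    have hφ'c : Continuous φ' := (by fun_prop : Continuous fun t : ℝ => 4 * t).div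
      (by fun_prop) (fun t => by positivity)
    have hd : ∀ t, HasDerivAt φ (φ' t) t := by
      intro t
      have h1 : HasDerivAt (fun t : ℝ => 2 * t ^ 2) (2 * (2 * t)) t := by
        have := (hasDerivAt_pow 2 t).const_mul 2
        simpa using this
      have h2 : HasDerivAt (fun t : ℝ => 1 + t ^ 2) (2 * t) t := by
        have := (hasDerivAt_pow 2 t).const_add 1
        simpa using this
      refine (h1.div h2 (by positivity)).congr_deriv ?_
      simp only [hφ']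
      field_simp
      ring
    have hφ'b : ∀ t, |φ' t| ≤ 4 := by
      intro t
      simp only [hφ']
      rw [abs_div, abs_of_pos (show (0 : ℝ) < (1 + t ^ 2) ^ 2 by positivity),
        div_le_iff₀ (by positivity), abs_mul, abs_of_pos (by norm_num : (0:ℝ) < 4)]
      have h1 : |t| ≤ (1 + t ^ 2) ^ 2 := by
        have h2 : |t| ^ 2 = t ^ 2 := sq_abs t
        nlinarith [abs_nonneg t, sq_nonneg (|t| - 1), sq_nonneg (t ^ 2)]
      linarith
    have hφ0 : ∀ t, 0 ≤ φ t := fun t => by simp only [hφ]; positivity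
    have hφ2 : ∀ t, φ t ≤ 2 := by
      intro t
      simp only [hφ]
      rw [div_le_iff₀ (by positivity)]
      nlinarith
    have hmem := fun k => (hC.chain (g k) (hg1 k) φ φ' hφc hφ'c hd (by simp [hφ]) ⟨4, hφ'b⟩).1
    set s : ℕ → M →ₘ[m] ℝ := fun k => AEEqFun.comp φ hφc (g k) with hs
    have hsae : ∀ k, ⇑(s k) =ᵐ[m] fun x => φ (g k x) := fun k => AEEqFun.coeFn_comp φ hφc (g k)
    have hsA : ∀ k, s k ∈ C.A := by
      intro k
      refine ⟨hmem k, mem_top_iff.2 ⟨2, ?_⟩⟩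
      filter_upwards [hsae k] with x hx
      rw [hx, abs_of_nonneg (hφ0 _)]
      exact hφ2 _
    have hs0 : ∀ k, 0 ≤ s k := by
      intro k
      rw [nonneg_iff_ae]
      filter_upwards [hsae k] with x hx
      rw [hx]; exact hφ0 _
    have h3 : Tendsto (fun k => I (s (ns k) * F)) atTop (𝓝 (I (χ * F))) := by
      refine I_tendsto_of_dominated (G := fun x => 2 * |F x|) (hFint.abs.const_mul 2)
        (fun k => ?_) ?_
      · filter_upwards [mul_ae (s (ns k)) F, hsae (ns k)] with x a1 a2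
        rw [a1, a2, abs_mul, abs_of_nonneg (hφ0 _)]
        exact mul_le_mul_of_nonneg_right (hφ2 _) (abs_nonneg _)
      · filter_upwards [ae_all_iff.2 fun k => mul_ae (s (ns k)) F,
          ae_all_iff.2 fun k => hsae (ns k), hae, hχae, mul_ae χ F] with x a1 a2 a3 a4 a5
        simp_rw [a1, a5, a2]
        refine Tendsto.mul_const _ ?_
        have h4 : Tendsto (fun k => φ (g (ns k) x)) atTop (𝓝 (φ (χ x))) :=
          (hφc.tendsto (χ x)).comp a3
        have h5 : φ (χ x) = χ x := by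
          rw [hχ, a4]
          by_cases hx : x ∈ S
          · rw [Set.indicator_of_mem hx]
            simp only [hφ]; norm_num
          · rw [Set.indicator_of_notMem hx]
            simp only [hφ]; norm_num
        rwa [h5] at h4
    have h4 : 0 ≤ I (χ * F) := ge_of_tendsto' h3 fun k => h _ (hsA _) (hs0 _)
    have h5 : I (χ * F) = ∫ x in S, F x ∂m := by
      rw [← integral_indicator hSm]
      unfold I
      refine integral_congr_ae ?_
      filter_upwards [mul_ae χ F, hχae] with x a1 a2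
      rw [a1, hχ, a2]
      by_cases hx : x ∈ S
      · rw [Set.indicator_of_mem hx, Set.indicator_of_mem hx, one_mul]
      · rw [Set.indicator_of_notMem hx, Set.indicator_of_notMem hx, zero_mul]
    have h6 : ∫ x in S, F x ∂m ≤ ∫ x in S, (-ε) ∂m := by
      refine setIntegral_mono_on hFint.integrableOn ?_ hSm fun x hx => le_of_lt hx
      exact integrableOn_const (hs := hSfin.ne)
    rw [setIntegral_const, smul_eq_mul] at h6
    have h7 : m.real S ≤ 0 := by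
      rw [h5] at h4
      by_contra hcon
      push Not at hcon
      nlinarith
    have h8 : m.real S = 0 := le_antisymm h7 measureReal_nonneg
    exact (measureReal_eq_zero_iff hSfin.ne).1 h8
  rw [nonneg_iff_ae]
  have h9 : ∀ᵐ x ∂m, ∀ n : ℕ, ¬ (F x < -((n : ℝ) + 1)⁻¹) := by
    rw [ae_all_iff]
    intro n
    exact measure_eq_zero_iff_ae_notMem.1 (key n)
  filter_upwards [h9] with x hx
  by_contra hcon
  push Not at hcon
  obtain ⟨n, hn⟩ := exists_nat_one_div_lt (show (0 : ℝ) < -F x by linarith)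
  rw [one_div] at hn
  exact hx n (by linarith)

/-- fundamental lemma -/
theorem eq_zero_of_forall {F : M →ₘ[m] ℝ} (hF : MemLp F 1 m)
    (h : ∀ s ∈ C.A, I (s * F) = 0) : F = 0 := by
  refine le_antisymm ?_ (hC.nonneg_of_forall hF fun s hs _ => (h s hs).ge)
  rw [← neg_nonneg]
  refine hC.nonneg_of_forall (mem_neg hF) fun s hs _ => ?_
  rw [mul_neg, I_neg, h s hs, neg_zero]

end IsDir

end Vale.Agent.P233
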