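import Mathlib

open MeasureTheory Filter Topology
open scoped ENNReal NNReal InnerProductSpace

universe u

namespace Vale.Agent.P233

/-! ### A first order calculus: Sobolev functions, carre du champ, bounded Lipschitz functions -/

/-- `W` is the set of Sobolev functions, `Γ f g = ⟨∇f,∇g⟩`, and `B` is the set of the
bounded Lipschitz functions. -/
structure Calc {M : Type*} [MeasurableSpace M] (m : Measure M) where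
  W : Set (M →ₘ[m] ℝ)
  Γ : (M →ₘ[m] ℝ) → (M →ₘ[m] ℝ) → (M →ₘ[m] ℝ)
  B : Set (M →ₘ[m] ℝ)

namespace Calc

variable {M : Type*} [MeasurableSpace M] {m : Measure M} (C : Calc m)

/-- `h = Δf`. -/
def IsLap (f h : M →ₘ[m] ℝ) : Prop :=
  f ∈ C.W ∧ MemLp h 2 m ∧ ∀ g ∈ C.W, ∫ x, C.Γ f g x ∂m = -∫ x, (h * g) x ∂m

open Classical in
/-- `Δf`. -/
noncomputable def lap (f : M →ₘ[m] ℝ) : M →ₘ[m] ℝ :=
  if h : ∃ h, C.IsLap f h then h.choose else 0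

/-- `Test(M)`: `f ∈ D(Δ)` is bounded and Lipschitz and `Δf ∈ W`. -/
def Test : Set (M →ₘ[m] ℝ) := {f | f ∈ C.B ∧ ∃ h, C.IsLap f h ∧ h ∈ C.W}

/-- The weak Bochner inequality `BE(K,N)`. -/
def BE (K N : ℝ) : Prop :=
  ∀ f h φ ψ : M →ₘ[m] ℝ, C.IsLap f h → h ∈ C.W → C.IsLap φ ψ → 0 ≤ φ → MemLp φ ∞ m →
    MemLp ψ ∞ m →
    ∫ x, (φ * (C.Γ f h + K • C.Γ f f + N⁻¹ • h ^ 2)) x ∂m ≤ ∫ x, ((2 : ℝ)⁻¹ • (C.Γ f f * ψ)) x ∂m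

/-- `X ∈ TestV(M)`, where the list of the pairs `(a_j, b_j)` stands for `∑ a_j ∇b_j`. -/
def IsTestV (X : List ((M →ₘ[m] ℝ) × (M →ₘ[m] ℝ))) : Prop :=
  ∀ p ∈ X, p.1 ∈ C.Test ∧ p.2 ∈ C.Test

/-- `⟨X,Y⟩`. -/
noncomputable def ip (X Y : List ((M →ₘ[m] ℝ) × (M →ₘ[m] ℝ))) : M →ₘ[m] ℝ :=
  (X.map fun p => (Y.map fun q => p.1 * q.1 * C.Γ p.2 q.2).sum).sum

/-- `div X`. -/
noncomputable def dv (X : List ((M →ₘ[m] ℝ) × (M →ₘ[m] ℝ))) : M →ₘ[m] ℝ :=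
  (X.map fun p => C.Γ p.1 p.2 + p.1 * C.lap p.2).sum

/-- `Hess b (∇g, ∇h)`. -/
noncomputable def hess (b g h : M →ₘ[m] ℝ) : M →ₘ[m] ℝ :=
  (2 : ℝ)⁻¹ • (C.Γ g (C.Γ b h) + C.Γ h (C.Γ b g) - C.Γ b (C.Γ g h))

/-- `⟨∇_X Y, Z⟩`, where `⟨∇_X (c ∇d), Z⟩ = ⟨X,∇c⟩ ⟨∇d,Z⟩ + c Hess d (X, Z)`. -/
noncomputable def nab (X Y Z : List ((M →ₘ[m] ℝ) × (M →ₘ[m] ℝ))) : M →ₘ[m] ℝ :=
  (X.map fun p => (Y.map fun q => (Z.map fun r =>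
    p.1 * r.1 * (C.Γ p.2 q.1 * C.Γ q.2 r.2 + q.1 * C.hess q.2 p.2 r.2)).sum).sum).sum

/-- `f X`. -/
def mulV (f : M →ₘ[m] ℝ) (X : List ((M →ₘ[m] ℝ) × (M →ₘ[m] ℝ))) :
    List ((M →ₘ[m] ℝ) × (M →ₘ[m] ℝ)) := X.map fun p => (f * p.1, p.2)

variable {H : Type*} [NormedAddCommGroup H] [InnerProductSpace ℝ H]
  (ι : List ((M →ₘ[m] ℝ) × (M →ₘ[m] ℝ)) → H)

/-- `H`, with the map `ι`, is the Hilbert space `L²(TM)`: the completion of `TestV(M)`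
with respect to `∫ ⟨X,Y⟩ dm`. -/
def IsL2TM : Prop :=
  (∀ X Y, C.IsTestV X → C.IsTestV Y → ⟪ι X, ι Y⟫_ℝ = ∫ x, C.ip X Y x ∂m) ∧
    Dense {v | ∃ X, C.IsTestV X ∧ ι X = v}

/-- `V = ∇_X Y` in `L²(TM)`. -/
def IsCov (X Y : List ((M →ₘ[m] ℝ) × (M →ₘ[m] ℝ))) (V : H) : Prop :=
  ∀ Z, C.IsTestV Z → ⟪V, ι Z⟫_ℝ = ∫ x, C.nab X Y Z x ∂m

/-- `V ∈ L²(TM)` is the vector field with `⟨V, X⟩ = ⟨∇_X Y, Z⟩`. -/
def IsCovT (Y Z : List ((M →ₘ[m] ℝ) × (M →ₘ[m] ℝ))) (V : H) : Prop :=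
  ∀ X, C.IsTestV X → ⟪V, ι X⟫_ℝ = ∫ x, C.nab X Y Z x ∂m

open Classical in
/-- `∇_X Y ∈ L²(TM)`. -/
noncomputable def cov (X Y : List ((M →ₘ[m] ℝ) × (M →ₘ[m] ℝ))) : H :=
  if h : ∃ V, C.IsCov ι X Y V then h.choose else 0

open Classical in
/-- The field `V ∈ L²(TM)` with `⟨V, X⟩ = ⟨∇_X Y, Z⟩`. -/
noncomputable def covT (Y Z : List ((M →ₘ[m] ℝ) × (M →ₘ[m] ℝ))) : H :=
  if h : ∃ V, C.IsCovT ι Y Z V then h.choose else 0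

/-- Gigli's curvature functional `R(X,Y,Z,W)(f)`. -/
noncomputable def curv (X Y Z W : List ((M →ₘ[m] ℝ) × (M →ₘ[m] ℝ))) (f : M →ₘ[m] ℝ) : ℝ :=
  -⟪C.cov ι X (mulV f W), C.cov ι Y Z⟫_ℝ - ∫ x, (f * C.nab Y Z W * C.dv X) x ∂m
    + ⟪C.cov ι Y (mulV f W), C.cov ι X Z⟫_ℝ + ∫ x, (f * C.nab X Z W * C.dv Y) x ∂m
    - ⟪C.cov ι X Y - C.cov ι Y X, C.covT ι Z (mulV f W)⟫_ℝ

end Calc

/-! ### The Sobolev calculus of a metric measure space -/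

section Metric

variable {M : Type*} [MetricSpace M] [MeasurableSpace M] {m : Measure M}

/-- The local Lipschitz constant `limsup_{y → x} |f y - f x| / d(y,x)`. -/
noncomputable def lipAt (f : M → ℝ) (x : M) : ℝ≥0∞ :=
  limsup (fun y => ENNReal.ofReal (|f y - f x| / dist y x)) (𝓝[≠] x)

/-- `G ∈ L²` is a relaxed slope of `f ∈ L²`: there are Lipschitz `u k ∈ L²` with
`u k → f` in `L²` and `g k ∈ L²` with `lip (u k) ≤ g k` a.e. and `g k → G` in `L²`. -/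
def IsRelaxedSlope (f G : M →ₘ[m] ℝ) : Prop :=
  MemLp f 2 m ∧ MemLp G 2 m ∧ ∃ u g : ℕ → M → ℝ,
    (∀ k, (∃ K, LipschitzWith K (u k)) ∧ MemLp (u k) 2 m ∧ MemLp (g k) 2 m ∧
      ∀ᵐ x ∂m, 0 ≤ g k x ∧ lipAt (u k) x ≤ ENNReal.ofReal (g k x)) ∧
    Tendsto (fun k => eLpNorm (fun x => u k x - f x) 2 m) atTop (𝓝 0) ∧
    Tendsto (fun k => eLpNorm (fun x => g k x - G x) 2 m) atTop (𝓝 0)

/-- `G` is the minimal relaxed slope of `f`. -/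
def IsMinSlope (f G : M →ₘ[m] ℝ) : Prop :=
  IsRelaxedSlope f G ∧ ∀ G', IsRelaxedSlope f G' → G ≤ G'

open Classical in
/-- The minimal relaxed slope `|Df|`. The Cheeger energy of `f ∈ W^{1,2}` is `½ ∫ |Df|² dm`. -/
noncomputable def slope (f : M →ₘ[m] ℝ) : M →ₘ[m] ℝ :=
  if h : ∃ G, IsMinSlope f G then h.choose else 0

variable (m) in
/-- `W^{1,2}(M)`, with `⟨∇f,∇g⟩` given by polarization of `|Df|²`, and with the functions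
that have a bounded Lipschitz representative. -/
noncomputable def sob : Calc m where
  W := {f | ∃ G, IsRelaxedSlope f G}
  Γ := fun f g => (4 : ℝ)⁻¹ • (slope (f + g) ^ 2 - slope (f - g) ^ 2)
  B := {f | ∃ u : M → ℝ, (∃ K, LipschitzWith K u) ∧ (∃ K : ℝ, ∀ x, |u x| ≤ K) ∧ f =ᵐ[m] u}

/-- `RCD(K,N)` for finite `N`, in its Eulerian form. -/
structure IsRCD (m : Measure M) (K N : ℝ) : Prop where
  quadratic : ∀ f ∈ (sob m).W, ∀ g ∈ (sob m).W,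
    ∫ x, (slope (f + g) ^ 2) x ∂m + ∫ x, (slope (f - g) ^ 2) x ∂m
      = 2 * ∫ x, (slope f ^ 2) x ∂m + 2 * ∫ x, (slope g ^ 2) x ∂m
  growth : ∃ (x₀ : M) (c : ℝ), ∀ r > 0,
    m (Metric.ball x₀ r) ≤ ENNReal.ofReal (c * Real.exp (c * r ^ 2))
  sobolev_to_lipschitz : ∀ f ∈ (sob m).W, slope f ≤ 1 → ∃ u : M → ℝ, LipschitzWith 1 u ∧ f =ᵐ[m] u
  bochner : (sob m).BE K N

/-- Distributional sectional curvature `≥ κ`: in `L²(TM)` the covariant derivatives of test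
vector fields exist and `R(X,Y,Y,X)(f) ≥ κ ∫ f (|X|²|Y|² - ⟨X,Y⟩²) dm` for all test vector
fields `X`, `Y` and all nonnegative test functions `f`. -/
def DistSecGE {M : Type u} [MetricSpace M] [MeasurableSpace M] (m : Measure M) (κ : ℝ) : Prop :=
  ∀ (H : Type u) [NormedAddCommGroup H] [InnerProductSpace ℝ H] [CompleteSpace H]
    (ι : List ((M →ₘ[m] ℝ) × (M →ₘ[m] ℝ)) → H), (sob m).IsL2TM ι →
    ∀ X Y : List ((M →ₘ[m] ℝ) × (M →ₘ[m] ℝ)), (sob m).IsTestV X → (sob m).IsTestV Y →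
      (∃ V, (sob m).IsCov ι X Y V) ∧ (∃ V, (sob m).IsCovT ι X Y V) ∧
      ∀ f ∈ (sob m).Test, 0 ≤ f →
        κ * ∫ x, (f * ((sob m).ip X X * (sob m).ip Y Y - (sob m).ip X Y ^ 2)) x ∂m
          ≤ (sob m).curv ι X Y Y X f

end Metric

end Vale.Agent.P233
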