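import Vale.Agent.P233.ResHilb

open MeasureTheory Filter Topology
open scoped ENNReal NNReal

namespace Vale.Agent.P233

variable {M : Type*} [MeasurableSpace M] {m : Measure M} {C : Calc m}

/-- dominated convergence for bounded multipliers -/
theorem I_tendsto_of_bdd {u : ℕ → M →ₘ[m] ℝ} {v G : M →ₘ[m] ℝ} {K : ℝ}
    (hu : ∀ n, ∀ᵐ x ∂m, |u n x| ≤ K) (hlim : ∀ᵐ x ∂m, Tendsto (fun n => u n x) atTop (𝓝 (v x)))
    (hG : MemLp G 1 m) : Tendsto (fun n => I (u n * G)) atTop (𝓝 (I (v * G))) := by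
  unfold I
  refine tendsto_integral_of_dominated_convergence (fun x => K * |G x|)
    (fun n => (u n * G).aestronglyMeasurable) ?_ ?_ ?_
  · exact (int_of_mem hG).abs.const_mul K
  · intro n
    filter_upwards [hu n, mul_ae (u n) G] with x h1 h2
    rw [h2, Real.norm_eq_abs, abs_mul]
    exact mul_le_mul_of_nonneg_right h1 (abs_nonneg _)
  · have : ∀ᵐ x ∂m, ∀ n, (u n * G) x = u n x * G x := by
      rw [ae_all_iff]; intro n; exact mul_ae (u n) G
    filter_upwards [this, mul_ae v G, hlim] with x h1 h2 h3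
    rw [h2]
    simp only [h1]
    exact h3.mul_const _

namespace IsDir

/-- a continuous linear functional of the form `h ↦ I(Γ(a,h)) + I(K h)` that vanishes on bounded
functions vanishes -/
theorem ext_A (hC : IsDir C) {a K h : M →ₘ[m] ℝ} (ha : a ∈ C.W) (hK : MemLp K 2 m)
    (H : ∀ h ∈ C.A, I (C.Γ a h) + I (K * h) = 0) (hh : h ∈ C.W) :
    I (C.Γ a h) + I (K * h) = 0 := by
  obtain ⟨u, hu, -, hlim, -⟩ := hC.exists_trunc hh
  have hd : ∀ n, u n - h ∈ C.W := fun n => hC.sub_mem (hu n).1 hh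
  have h1 : ∀ n, (I (C.Γ a h) + I (K * h)) ^ 2
      ≤ 2 * (I (C.Γ a a) + I (K ^ 2)) * C.nrm2 (u n - h) := by
    intro n
    have e1 : I (C.Γ a (u n - h)) = I (C.Γ a (u n)) - I (C.Γ a h) := by
      rw [hC.Γ_sub_right ha (hu n).1 hh, I_sub (hC.Γ_mem1 ha (hu n).1) (hC.Γ_mem1 ha hh)]
    have e2 : I (K * (u n - h)) = I (K * u n) - I (K * h) := by
      rw [mul_sub, I_sub (mem_mul_22 hK (hC.memLp _ (hu n).1)) (mem_mul_22 hK (hC.memLp _ hh))]
    have e3 := H _ (hu n)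
    have c1 := hC.E_cs ha (hd n)
    have c2 := I_cs hK (hC.memLp _ (hd n))
    have p1 : 0 ≤ I (C.Γ a a) := I_nonneg (hC.nonneg _ ha)
    have p2 : 0 ≤ I (K ^ 2) := I_nonneg (sq_nonneg' _)
    have p3 : 0 ≤ I (C.Γ (u n - h) (u n - h)) := I_nonneg (hC.nonneg _ (hd n))
    have p4 : 0 ≤ I ((u n - h) ^ 2) := I_nonneg (sq_nonneg' _)
    have e4 : I (C.Γ a h) + I (K * h) = -(I (C.Γ a (u n - h)) + I (K * (u n - h))) := by
      rw [e1, e2]; linarith
    rw [e4]
    unfold Calc.nrm2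
    nlinarith [sq_nonneg (I (C.Γ a (u n - h)) - I (K * (u n - h))), mul_nonneg p1 p4,
      mul_nonneg p2 p3]
  have h2 : Tendsto (fun n => 2 * (I (C.Γ a a) + I (K ^ 2)) * C.nrm2 (u n - h)) atTop (𝓝 0) := by
    simpa using hlim.const_mul (2 * (I (C.Γ a a) + I (K ^ 2)))
  have h3 := ge_of_tendsto h2 (Eventually.of_forall h1)
  have : (I (C.Γ a h) + I (K * h)) ^ 2 = 0 := le_antisymm h3 (sq_nonneg _)
  exact pow_eq_zero_iff (two_ne_zero) |>.1 this

end IsDir

end Vale.Agent.P233
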