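import Mathlib

open MeasureTheory Filter Topology
open scoped ENNReal NNReal

namespace Vale.Agent.P233

variable {M : Type*} [MeasurableSpace M] {m : Measure M}

noncomputable instance instCommRingL0 : CommRing (M →ₘ[m] ℝ) :=
  { (inferInstance : AddCommGroup (M →ₘ[m] ℝ)), (inferInstance : CommMonoid (M →ₘ[m] ℝ)) with
    left_distrib := fun a b c => by
      apply AEEqFun.ext
      filter_upwards [AEEqFun.coeFn_mul a (b + c), AEEqFun.coeFn_add b c,
        AEEqFun.coeFn_add (a * b) (a * c), AEEqFun.coeFn_mul a b, AEEqFun.coeFn_mul a c]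
        with x h1 h2 h3 h4 h5
      simp only [h1, h2, h3, h4, h5, Pi.mul_apply, Pi.add_apply]
      ring
    right_distrib := fun a b c => by
      apply AEEqFun.ext
      filter_upwards [AEEqFun.coeFn_mul (a + b) c, AEEqFun.coeFn_add a b,
        AEEqFun.coeFn_add (a * c) (b * c), AEEqFun.coeFn_mul a c, AEEqFun.coeFn_mul b c]
        with x h1 h2 h3 h4 h5
      simp only [h1, h2, h3, h4, h5, Pi.mul_apply, Pi.add_apply]
      ring
    zero_mul := fun a => by
      apply AEEqFun.ext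
      filter_upwards [AEEqFun.coeFn_mul 0 a, AEEqFun.coeFn_zero (α := M) (μ := m) (β := ℝ)]
        with x h1 h2
      simp only [h1, Pi.mul_apply, h2, Pi.zero_apply, zero_mul]
    mul_zero := fun a => by
      apply AEEqFun.ext
      filter_upwards [AEEqFun.coeFn_mul a 0, AEEqFun.coeFn_zero (α := M) (μ := m) (β := ℝ)]
        with x h1 h2
      simp only [h1, Pi.mul_apply, h2, Pi.zero_apply, mul_zero] }

noncomputable instance instAlgebraL0 : Algebra ℝ (M →ₘ[m] ℝ) :=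
  Algebra.ofModule
    (fun r x y => by
      apply AEEqFun.ext
      filter_upwards [AEEqFun.coeFn_mul (r • x) y, AEEqFun.coeFn_smul r x,
        AEEqFun.coeFn_smul r (x * y), AEEqFun.coeFn_mul x y] with a h1 h2 h3 h4
      simp only [h1, h2, h3, h4, Pi.mul_apply, Pi.smul_apply, smul_eq_mul]
      ring)
    (fun r x y => by
      apply AEEqFun.ext
      filter_upwards [AEEqFun.coeFn_mul x (r • y), AEEqFun.coeFn_smul r y,
        AEEqFun.coeFn_smul r (x * y), AEEqFun.coeFn_mul x y] with a h1 h2 h3 h4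
      simp only [h1, h2, h3, h4, Pi.mul_apply, Pi.smul_apply, smul_eq_mul]
      ring)


section ae
variable (f g : M →ₘ[m] ℝ)

theorem mul_ae : ⇑(f * g) =ᵐ[m] fun x => f x * g x := AEEqFun.coeFn_mul f g
theorem add_ae : ⇑(f + g) =ᵐ[m] fun x => f x + g x := AEEqFun.coeFn_add f g
theorem sub_ae : ⇑(f - g) =ᵐ[m] fun x => f x - g x := AEEqFun.coeFn_sub f g
theorem neg_ae : ⇑(-f) =ᵐ[m] fun x => - f x := AEEqFun.coeFn_neg f
theorem smul_ae (c : ℝ) : ⇑(c • f) =ᵐ[m] fun x => c * f x := AEEqFun.coeFn_smul c f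
theorem sq_ae : ⇑(f ^ 2) =ᵐ[m] fun x => f x ^ 2 := AEEqFun.coeFn_pow f 2
theorem one_ae : ⇑(1 : M →ₘ[m] ℝ) =ᵐ[m] fun _ => (1 : ℝ) := AEEqFun.coeFn_one
theorem zero_ae : ⇑(0 : M →ₘ[m] ℝ) =ᵐ[m] fun _ => (0 : ℝ) := AEEqFun.coeFn_zero

variable {f g}
theorem le_iff_ae : f ≤ g ↔ ∀ᵐ x ∂m, f x ≤ g x := AEEqFun.coeFn_le.symm
theorem nonneg_iff_ae : 0 ≤ f ↔ ∀ᵐ x ∂m, 0 ≤ f x := by
  rw [le_iff_ae]
  constructor <;> intro h <;> filter_upwards [h, zero_ae (M := M) (m := m)] with x h1 h2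
  · rwa [h2] at h1
  · rwa [h2]
theorem eq_iff_ae : f = g ↔ ∀ᵐ x ∂m, f x = g x := ⟨fun h => by rw [h]; simp, fun h => AEEqFun.ext h⟩

end ae

instance instOrderedRingL0 : IsOrderedRing (M →ₘ[m] ℝ) where
  add_le_add_left a b h c := by
    rw [le_iff_ae] at *
    filter_upwards [h, add_ae a c, add_ae b c] with x h1 h2 h3
    rw [h2, h3]; linarith
  zero_le_one := by
    rw [le_iff_ae]
    filter_upwards [zero_ae (M := M) (m := m), one_ae (M := M) (m := m)] with x h1 h2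
    rw [h1, h2]; norm_num
  mul_le_mul_of_nonneg_left a ha b c h := by
    rw [nonneg_iff_ae] at ha
    rw [le_iff_ae] at *
    filter_upwards [h, ha, mul_ae a b, mul_ae a c] with x h1 h2 h3 h4
    rw [h3, h4]; exact mul_le_mul_of_nonneg_left h1 h2
  mul_le_mul_of_nonneg_right a ha b c h := by
    rw [nonneg_iff_ae] at ha
    rw [le_iff_ae] at *
    filter_upwards [h, ha, mul_ae b a, mul_ae c a] with x h1 h2 h3 h4
    rw [h3, h4]; exact mul_le_mul_of_nonneg_right h1 h2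

theorem smul_nonneg' {c : ℝ} (hc : 0 ≤ c) {f : M →ₘ[m] ℝ} (hf : 0 ≤ f) : 0 ≤ c • f := by
  rw [nonneg_iff_ae] at *
  filter_upwards [hf, smul_ae f c] with x h1 h2
  rw [h2]; positivity

theorem sq_nonneg' (f : M →ₘ[m] ℝ) : 0 ≤ f ^ 2 := by
  rw [nonneg_iff_ae]
  filter_upwards [sq_ae f] with x h
  rw [h]; positivity

/-! ### membership in `L^p` -/
section mem
variable {p : ℝ≥0∞} {f g : M →ₘ[m] ℝ}

theorem mem_add (hf : MemLp f p m) (hg : MemLp g p m) : MemLp (f + g : M →ₘ[m] ℝ) p m :=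
  (memLp_congr_ae (AEEqFun.coeFn_add f g)).2 (hf.add hg)
theorem mem_sub (hf : MemLp f p m) (hg : MemLp g p m) : MemLp (f - g : M →ₘ[m] ℝ) p m :=
  (memLp_congr_ae (AEEqFun.coeFn_sub f g)).2 (hf.sub hg)
theorem mem_neg (hf : MemLp f p m) : MemLp (-f : M →ₘ[m] ℝ) p m :=
  (memLp_congr_ae (AEEqFun.coeFn_neg f)).2 hf.neg
theorem mem_smul (c : ℝ) (hf : MemLp f p m) : MemLp (c • f : M →ₘ[m] ℝ) p m :=
  (memLp_congr_ae (AEEqFun.coeFn_smul c f)).2 (hf.const_smul c)
theorem mem_zero : MemLp (0 : M →ₘ[m] ℝ) p m :=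
  (memLp_congr_ae AEEqFun.coeFn_zero).2 MemLp.zero
theorem mem_top_one : MemLp (1 : M →ₘ[m] ℝ) ∞ m :=
  (memLp_congr_ae AEEqFun.coeFn_one).2 (memLp_top_const 1)
theorem mem_mul_top (hf : MemLp f ∞ m) (hg : MemLp g p m) : MemLp (f * g : M →ₘ[m] ℝ) p m :=
  (memLp_congr_ae (AEEqFun.coeFn_mul f g)).2 (MemLp.mul hg hf)
theorem mem_top_mul (hf : MemLp f p m) (hg : MemLp g ∞ m) : MemLp (f * g : M →ₘ[m] ℝ) p m := by
  rw [mul_comm]; exact mem_mul_top hg hf
theorem mem_mul_22 (hf : MemLp f 2 m) (hg : MemLp g 2 m) : MemLp (f * g : M →ₘ[m] ℝ) 1 m :=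
  (memLp_congr_ae (AEEqFun.coeFn_mul f g)).2 (MemLp.mul hg hf)
theorem mem_sq (hf : MemLp f 2 m) : MemLp (f ^ 2 : M →ₘ[m] ℝ) 1 m := by
  rw [sq]; exact mem_mul_22 hf hf
theorem mem_top_iff : MemLp f ∞ m ↔ ∃ K : ℝ, ∀ᵐ x ∂m, |f x| ≤ K := by
  constructor
  · intro h
    refine ⟨(eLpNormEssSup f m).toReal, ?_⟩
    have h2 : eLpNormEssSup f m ≠ ∞ := by
      have := h.2
      rw [eLpNorm_exponent_top] at this
      exact this.ne
    filter_upwards [ae_le_eLpNormEssSup (f := f) (μ := m)] with x hx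
    rw [← Real.norm_eq_abs, ← toReal_enorm]
    exact ENNReal.toReal_mono h2 hx
  · rintro ⟨K, hK⟩
    exact memLp_top_of_bound f.aestronglyMeasurable K (by simpa using hK)
/-- domination -/
theorem mem_of_le (hg : MemLp g p m) (h : ∀ᵐ x ∂m, |f x| ≤ |g x|) : MemLp f p m :=
  hg.mono f.aestronglyMeasurable (by simpa using h)
end mem

/-! ### the integral -/

/-- The integral of a class of functions. -/
noncomputable def I (f : M →ₘ[m] ℝ) : ℝ := ∫ x, f x ∂m

section integral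
variable {f g : M →ₘ[m] ℝ}
theorem int_of_mem (hf : MemLp f 1 m) : Integrable f m := memLp_one_iff_integrable.1 hf
theorem I_add (hf : MemLp f 1 m) (hg : MemLp g 1 m) : I (f + g) = I f + I g := by
  unfold I
  rw [integral_congr_ae (add_ae f g), integral_add (int_of_mem hf) (int_of_mem hg)]
theorem I_sub (hf : MemLp f 1 m) (hg : MemLp g 1 m) : I (f - g) = I f - I g := by
  unfold I
  rw [integral_congr_ae (sub_ae f g), integral_sub (int_of_mem hf) (int_of_mem hg)]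
theorem I_neg : I (-f) = - I f := by
  unfold I
  rw [integral_congr_ae (neg_ae f), integral_neg]
theorem I_smul (c : ℝ) : I (c • f) = c * I f := by
  unfold I
  rw [integral_congr_ae (smul_ae f c), integral_const_mul]
theorem I_zero : I (0 : M →ₘ[m] ℝ) = 0 := by
  unfold I
  rw [integral_congr_ae zero_ae]; simp
theorem I_mono (hf : MemLp f 1 m) (hg : MemLp g 1 m) (h : f ≤ g) : I f ≤ I g :=
  integral_mono_ae (int_of_mem hf) (int_of_mem hg) (le_iff_ae.1 h)
theorem I_nonneg (h : 0 ≤ f) : 0 ≤ I f :=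
  integral_nonneg_of_ae (nonneg_iff_ae.1 h)
theorem I_eq_zero_of_nonneg (hf : MemLp f 1 m) (h : 0 ≤ f) (h0 : I f = 0) : f = 0 := by
  rw [eq_iff_ae]
  have := (integral_eq_zero_iff_of_nonneg_ae (nonneg_iff_ae.1 h) (int_of_mem hf)).1 h0
  filter_upwards [this, zero_ae (M := M) (m := m)] with x h1 h2
  rw [h1, h2]; rfl
end integral

end Vale.Agent.P233
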