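import Vale.Agent.P233.Defs
import Vale.Agent.P233.L0

open MeasureTheory Filter Topology
open scoped ENNReal NNReal

namespace Vale.Agent.P233

variable {M : Type*} [MeasurableSpace M] {m : Measure M}

/-- The square of the Sobolev norm. -/
noncomputable def Calc.nrm2 (C : Calc m) (f : M →ₘ[m] ℝ) : ℝ := I (f ^ 2) + I (C.Γ f f)

/-- Axioms of a calculus: a strongly local Dirichlet form with carre du champ. -/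
structure IsDir (C : Calc m) : Prop where
  zero_mem : (0 : M →ₘ[m] ℝ) ∈ C.W
  add_mem : ∀ f ∈ C.W, ∀ g ∈ C.W, f + g ∈ C.W
  smul_mem : ∀ (c : ℝ), ∀ f ∈ C.W, c • f ∈ C.W
  memLp : ∀ f ∈ C.W, MemLp f 2 m
  symm : ∀ f ∈ C.W, ∀ g ∈ C.W, C.Γ f g = C.Γ g f
  add_left : ∀ f ∈ C.W, ∀ g ∈ C.W, ∀ h ∈ C.W, C.Γ (f + g) h = C.Γ f h + C.Γ g h
  smul_left : ∀ (c : ℝ), ∀ f ∈ C.W, ∀ g ∈ C.W, C.Γ (c • f) g = c • C.Γ f g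
  nonneg : ∀ f ∈ C.W, 0 ≤ C.Γ f f
  mem1 : ∀ f ∈ C.W, MemLp (C.Γ f f) 1 m
  /-- `W` is a Hilbert space -/
  complete : ∀ u : ℕ → M →ₘ[m] ℝ, (∀ n, u n ∈ C.W) →
    (∀ ε > 0, ∃ N, ∀ n ≥ N, ∀ k ≥ N, C.nrm2 (u n - u k) < ε) →
    ∃ f ∈ C.W, Tendsto (fun n => C.nrm2 (u n - f)) atTop (𝓝 0)
  /-- chain rule -/
  chain : ∀ f ∈ C.W, ∀ (φ φ' : ℝ → ℝ) (hφ : Continuous φ) (hφ' : Continuous φ'),
    (∀ t, HasDerivAt φ (φ' t) t) → φ 0 = 0 → (∃ K : ℝ, ∀ t, |φ' t| ≤ K) →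
    AEEqFun.comp φ hφ f ∈ C.W ∧
      ∀ g ∈ C.W, C.Γ (AEEqFun.comp φ hφ f) g = AEEqFun.comp φ' hφ' f * C.Γ f g
  dense_L2 : ∀ f : M →ₘ[m] ℝ, MemLp f 2 m → ∀ ε > 0, ∃ g ∈ C.W, I ((f - g) ^ 2) < ε

/-- Further axioms: density of Lipschitz functions, good cut-off functions, and the
description of Lipschitz functions by their gradient. -/
structure IsGamma (C : Calc m) : Prop extends IsDir C where
  dense_lip : ∀ f ∈ C.W, ∀ ε > 0, ∃ g ∈ C.W, MemLp g ∞ m ∧ MemLp (C.Γ g g) ∞ m ∧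
    C.nrm2 (f - g) < ε
  cutoff : ∃ η : ℕ → M →ₘ[m] ℝ, (∀ k, η k ∈ C.W ∧ 0 ≤ η k ∧ η k ≤ 1 ∧
    C.Γ (η k) (η k) ≤ ((k : ℝ) + 1)⁻¹ • 1) ∧ (∀ k, η k ≤ η (k + 1)) ∧
    ∀ᵐ x ∂m, Tendsto (fun k => η k x) atTop (𝓝 1)
  lip_iff : ∀ f ∈ C.W, (f ∈ C.B ↔ MemLp f ∞ m ∧ MemLp (C.Γ f f) ∞ m)

/-- bounded Sobolev functions -/
def Calc.A (C : Calc m) : Set (M →ₘ[m] ℝ) := {f | f ∈ C.W ∧ MemLp f ∞ m}

/-- bounded functions that differ from a Sobolev function by a constant -/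
def Calc.AP (C : Calc m) : Set (M →ₘ[m] ℝ) := {f | ∃ c : ℝ, f - c • (1 : M →ₘ[m] ℝ) ∈ C.A}

end Vale.Agent.P233
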