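import Mathlib.Algebra.Order.Archimedean.Real.Hom
import Mathlib.Algebra.Polynomial.Smeval
import Mathlib.Algebra.Ring.IsFormallyReal
import Mathlib.Analysis.Calculus.Deriv.Polynomial
import Mathlib.Analysis.InnerProductSpace.ProdL2
import Mathlib.Analysis.SpecialFunctions.Trigonometric.Bounds
import Mathlib.Data.Rat.Star
import Mathlib.MeasureTheory.Function.AEEqOfIntegral
import Mathlib.MeasureTheory.Function.L2Space
import Mathlib.MeasureTheory.Integral.IntervalIntegral.FundThmCalculus
import Mathlib.MeasureTheory.Measure.SeparableMeasure
import Mathlib.Order.CompletePartialOrder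
import Mathlib.Tactic
import Mathlib.Topology.Filter
import Mathlib.Topology.Separation.CompletelyRegular

/-! The part of Mathlib that the development of this folder uses. -/
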