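import Vale.Agent.P233.MetLsc

open MeasureTheory Filter Topology Set
open scoped ENNReal NNReal

namespace Vale.Agent.P233.Met

variable {M : Type*} [MetricSpace M] [MeasurableSpace M] {m : Measure M}

set_option linter.unusedSectionVars false

theorem memLp_bdd_mul {w c : M → ℝ} {C : ℝ} (hw : MemLp w 2 m) (hc : AEStronglyMeasurable c m)
    (hcb : ∀ᵐ x ∂m, |c x| ≤ C) : MemLp (fun x => c x * w x) 2 m := by
  refine (hw.const_mul C).mono (hc.mul hw.1) ?_
  filter_upwards [hcb] with x hx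
  rw [norm_mul, norm_mul, Real.norm_eq_abs (c x), Real.norm_eq_abs C]
  exact mul_le_mul_of_nonneg_right (hx.trans (le_abs_self C)) (norm_nonneg _)

/-- convergence of products: bounded a.e. convergent times `L²` convergent -/
theorem tendsto_mul_L2 {a : ℕ → M → ℝ} {A : M → ℝ} {g : ℕ → M → ℝ} {G : M → ℝ} {C : ℝ}
    (ha : ∀ k, AEStronglyMeasurable (a k) m) (hA : AEStronglyMeasurable A m)
    (haC : ∀ k, ∀ᵐ x ∂m, |a k x| ≤ C)
    (hlim : ∀ᵐ x ∂m, Tendsto (fun k => a k x) atTop (𝓝 (A x)))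
    (hg : ∀ k, MemLp (g k) 2 m) (hG : MemLp G 2 m)
    (hgG : Tendsto (fun k => eLpNorm (g k - G) 2 m) atTop (𝓝 0)) :
    Tendsto (fun k => eLpNorm ((fun x => a k x * g k x) - (fun x => A x * G x)) 2 m) atTop
      (𝓝 0) := by
  have haC' : ∀ᵐ x ∂m, ∀ k, |a k x| ≤ C := ae_all_iff.2 haC
  have hAC : ∀ᵐ x ∂m, |A x| ≤ C := by
    filter_upwards [hlim, haC'] with x hx hx2
    exact le_of_tendsto hx.abs (Eventually.of_forall hx2)
  have h1 : Tendsto (fun k => eLpNorm (fun x => (a k x - A x) * G x) 2 m) atTop (𝓝 0) := by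
    refine tendsto_eLpNorm_zero_of_dominated (B := fun x => (2 * C) * |G x|)
      (hG.abs.const_mul (2 * C)) ?_ ?_ ?_
    · intro k; exact ((ha k).sub hA).mul hG.1
    · intro k
      filter_upwards [haC k, hAC] with x hx hy
      rw [abs_mul]
      have : |a k x - A x| ≤ 2 * C := (abs_sub _ _).trans (by linarith)
      gcongr
    · filter_upwards [hlim] with x hx
      have := (hx.sub_const (A x)).mul_const (G x)
      simpa using this
  have h2 : Tendsto (fun k => eLpNorm (fun x => a k x * (g k - G) x) 2 m) atTop (𝓝 0) := by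
    have h3 : Tendsto (fun k => ‖C‖ₑ * eLpNorm (g k - G) 2 m) atTop (𝓝 0) := by
      have := ENNReal.Tendsto.const_mul (a := ‖C‖ₑ) hgG (Or.inr (by simp))
      simpa using this
    refine tendsto_of_tendsto_of_tendsto_of_le_of_le tendsto_const_nhds h3
      (fun _ => zero_le) (fun k => ?_)
    rw [← eLpNorm_const_smul]
    refine eLpNorm_mono_ae ?_
    filter_upwards [haC k] with x hx
    simp only [Pi.smul_apply, smul_eq_mul]
    rw [norm_mul, norm_mul, Real.norm_eq_abs (a k x), Real.norm_eq_abs C]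
    exact mul_le_mul_of_nonneg_right (hx.trans (le_abs_self C)) (norm_nonneg _)
  have h3 := h1.add h2
  rw [add_zero] at h3
  refine tendsto_of_tendsto_of_tendsto_of_le_of_le tendsto_const_nhds h3
    (fun _ => zero_le) (fun k => ?_)
  have e : (fun x => a k x * g k x) - (fun x => A x * G x) =
      (fun x => (a k x - A x) * G x) + (fun x => a k x * (g k - G) x) := by
    ext x; simp; ring
  rw [e]
  exact eLpNorm_add_le (((ha k).sub hA).mul hG.1) ((ha k).mul ((hg k).1.sub hG.1)) (by norm_num)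

/-- `C¹` chain rule for relaxed slopes -/
theorem RSlope.comp {f G : M → ℝ} (h : RSlope m f G) {φ : ℝ → ℝ}
    (hφ : ContDiff ℝ 1 φ) (hφ0 : φ 0 = 0) {L : ℝ≥0} (hL : ∀ t, |deriv φ t| ≤ L) :
    RSlope m (fun x => φ (f x)) (fun x => |deriv φ (f x)| * G x) := by
  have hφL : LipschitzWith L φ := by
    refine lipschitzWith_of_nnnorm_deriv_le (hφ.differentiable (by norm_num)) fun t => ?_
    have := hL t
    rw [← Real.norm_eq_abs] at this
    exact_mod_cast this
  have hdc : Continuous (deriv φ) := hφ.continuous_deriv (by norm_num)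
  obtain ⟨hf, hG, u, g, hug, h1, h2⟩ := h
  obtain ⟨ns, hns, hlim⟩ := exists_subseq_ae (fun k => (hug k).2.1.1) hf.1 h1
  have habs : ∀ w : M → ℝ, MemLp w 2 m → MemLp (fun x => φ (w x)) 2 m := by
    intro w hw
    refine (hw.const_mul (L : ℝ)).mono (hφL.continuous.comp_aestronglyMeasurable hw.1) ?_
    filter_upwards with x
    have := hφL.dist_le_mul (w x) 0
    rw [hφ0, dist_zero_right, dist_zero_right] at this
    rw [norm_mul, NNReal.norm_eq]
    exact this
  have hda : ∀ w : M → ℝ, AEStronglyMeasurable w m →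
      AEStronglyMeasurable (fun x => |deriv φ (w x)|) m := fun w hw =>
    (hdc.comp_aestronglyMeasurable hw).norm
  have hdb : ∀ w : M → ℝ, ∀ᵐ x ∂m, |(|deriv φ (w x)|)| ≤ (L : ℝ) := fun w => by
    filter_upwards with x
    rw [abs_abs]; exact hL _
  refine RSlope.of_tendsto (F := fun k x => φ (u (ns k) x))
    (H := fun k x => |deriv φ (u (ns k) x)| * g (ns k) x) (habs f hf)
    (memLp_bdd_mul hG (hda f hf.1) (hdb f)) ?_ ?_ ?_
  · intro k
    obtain ⟨hu1, hu2, hg, -⟩ := hug (ns k)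
    refine (Good.mk' (hu1.comp hφL) (habs _ hu2) (memLp_bdd_mul hg (hda _ hu2.1) (hdb _)) ?_
      ).rSlope
    filter_upwards [(hug (ns k)).lipBd] with x hx
    exact ⟨mul_nonneg (abs_nonneg _) hx.1, LipBd.comp hφ hu1.continuous.continuousAt hx.2⟩
  · have h3 : Tendsto (fun k => ‖(L : ℝ)‖ₑ * eLpNorm (u (ns k) - f) 2 m) atTop (𝓝 0) := by
      have := ENNReal.Tendsto.const_mul (a := ‖(L : ℝ)‖ₑ) (h1.comp hns.tendsto_atTop)
        (Or.inr (by simp))
      simpa using this
    refine tendsto_of_tendsto_of_tendsto_of_le_of_le tendsto_const_nhds h3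
      (fun _ => zero_le) (fun k => ?_)
    rw [← eLpNorm_const_smul]
    refine eLpNorm_mono fun x => ?_
    have := hφL.dist_le_mul (u (ns k) x) (f x)
    rw [dist_eq_norm, dist_eq_norm] at this
    simp only [Pi.smul_apply, smul_eq_mul, Pi.sub_apply]
    rw [norm_mul, NNReal.norm_eq]
    exact this
  · refine tendsto_mul_L2 (fun k => hda _ (hug _).2.1.1) (hda f hf.1) (fun k => hdb _) ?_
      (fun k => (hug (ns k)).2.2.1) hG (h2.comp hns.tendsto_atTop)
    filter_upwards [hlim] with x hx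
    exact ((hdc.tendsto _).comp hx).abs

/-- approximants respecting an `L^∞` bound -/
theorem RSlope.exists_seq_bdd {f G : M → ℝ} (h : RSlope m f G) {C : ℝ}
    (hC : 0 ≤ C) (hfC : ∀ᵐ x ∂m, |f x| ≤ C) :
    ∃ u g : ℕ → M → ℝ, (∀ k, Good m (u k) (g k) ∧ ∀ x, |u k x| ≤ C) ∧
      Tendsto (fun k => eLpNorm (u k - f) 2 m) atTop (𝓝 0) ∧
      Tendsto (fun k => eLpNorm (g k - G) 2 m) atTop (𝓝 0) ∧
      ∀ᵐ x ∂m, Tendsto (fun k => u k x) atTop (𝓝 (f x)) := by
  obtain ⟨hf, hG, u, g, hug, h1, h2⟩ := h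
  have h1' : Tendsto (fun k => eLpNorm ((fun x => trunc C (u k x)) - f) 2 m) atTop (𝓝 0) := by
    refine tendsto_of_tendsto_of_tendsto_of_le_of_le tendsto_const_nhds h1
      (fun _ => zero_le) (fun k => ?_)
    refine eLpNorm_mono_ae ?_
    filter_upwards [hfC] with x hx
    simp only [Pi.sub_apply]
    nth_rewrite 1 [← trunc_of_abs_le hx]
    exact abs_trunc_sub_le _ _ _
  obtain ⟨ns, hns, hlim⟩ := exists_subseq_ae
    (fun k => ((hug k).trunc (n := C) hC).2.1.1) hf.1 h1'
  exact ⟨fun k x => trunc C (u (ns k) x), fun k => g (ns k),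
    fun k => ⟨(hug _).trunc hC, fun x => abs_trunc_le hC _⟩,
    h1'.comp hns.tendsto_atTop, h2.comp hns.tendsto_atTop, hlim⟩

/-- Leibniz inequality for relaxed slopes of bounded functions -/
theorem RSlope.mul {f G g H : M → ℝ} (hf : RSlope m f G)
    (hg : RSlope m g H) {C D : ℝ} (hC : 0 ≤ C) (hD : 0 ≤ D) [BorelSpace M]
    (hfC : ∀ᵐ x ∂m, |f x| ≤ C) (hgD : ∀ᵐ x ∂m, |g x| ≤ D) :
    RSlope m (fun x => f x * g x) (fun x => |f x| * H x + |g x| * G x) := by
  obtain ⟨u, p, hup, hu1, hu2, hu3⟩ := hf.exists_seq_bdd hC hfC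
  obtain ⟨v, q, hvq, hv1, hv2, hv3⟩ := hg.exists_seq_bdd hD hgD
  have habs : ∀ {w : M → ℝ}, AEStronglyMeasurable w m → AEStronglyMeasurable (fun x => |w x|) m :=
    fun hw => hw.norm
  refine RSlope.of_tendsto (F := fun k x => u k x * v k x)
    (H := fun k x => |u k x| * q k x + |v k x| * p k x)
    (memLp_bdd_mul hg.1 hf.1.1 hfC)
    ((memLp_bdd_mul hg.2.1 (habs hf.1.1) (C := C) (by simpa using hfC)).add
      (memLp_bdd_mul hf.2.1 (habs hg.1.1) (C := D) (by simpa using hgD))) ?_ ?_ ?_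
  · intro k
    obtain ⟨h1, h1b⟩ := hup k
    obtain ⟨h2, h2b⟩ := hvq k
    refine (Good.mk' (h1.1.mul h2.1 ⟨C, h1b⟩ ⟨D, h2b⟩)
      (memLp_bdd_mul h2.2.1 h1.2.1.1 (Eventually.of_forall h1b)) ?_ ?_).rSlope
    · exact (memLp_bdd_mul h2.2.2.1 (habs h1.2.1.1) (C := C)
          (Eventually.of_forall (by simpa using h1b))).add
        (memLp_bdd_mul h1.2.2.1 (habs h2.2.1.1) (C := D)
          (Eventually.of_forall (by simpa using h2b)))
    · filter_upwards [h1.lipBd, h2.lipBd] with x hx hy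
      refine ⟨?_, LipBd.mul h1.1.continuous.continuousAt hx.2 hy.2⟩
      have := hx.1
      have := hy.1
      positivity
  · exact tendsto_mul_L2 (fun k => (hup k).1.2.1.1) hf.1.1
      (fun k => Eventually.of_forall (hup k).2) hu3 (fun k => (hvq k).1.2.1) hg.1 hv1
  · have h1 := tendsto_mul_L2 (a := fun k x => |u k x|) (A := fun x => |f x|)
      (fun k => habs (hup k).1.2.1.1) (habs hf.1.1)
      (C := C) (fun k => Eventually.of_forall (by simpa using (hup k).2))
      (by filter_upwards [hu3] with x hx using hx.abs) (fun k => (hvq k).1.2.2.1) hg.2.1 hv2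
    have h2 := tendsto_mul_L2 (a := fun k x => |v k x|) (A := fun x => |g x|)
      (fun k => habs (hvq k).1.2.1.1) (habs hg.1.1)
      (C := D) (fun k => Eventually.of_forall (by simpa using (hvq k).2))
      (by filter_upwards [hv3] with x hx using hx.abs) (fun k => (hup k).1.2.2.1) hf.2.1 hu2
    have h3 := h1.add h2
    rw [add_zero] at h3
    refine tendsto_of_tendsto_of_tendsto_of_le_of_le tendsto_const_nhds h3
      (fun _ => zero_le) (fun k => ?_)
    have e : (fun x => |u k x| * q k x + |v k x| * p k x) -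
        (fun x => |f x| * H x + |g x| * G x) =
        ((fun x => |u k x| * q k x) - (fun x => |f x| * H x)) +
        ((fun x => |v k x| * p k x) - (fun x => |g x| * G x)) := by
      ext x; simp; ring
    rw [e]
    refine eLpNorm_add_le ?_ ?_ (by norm_num)
    · exact ((habs (hup k).1.2.1.1).mul (hvq k).1.2.2.1.1).sub ((habs hf.1.1).mul hg.2.1.1)
    · exact ((habs (hvq k).1.2.1.1).mul (hup k).1.2.2.1.1).sub ((habs hg.1.1).mul hf.2.1.1)

end Vale.Agent.P233.Met
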