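import Vale.Agent.P233.MetLocal

open MeasureTheory Filter Topology Set
open scoped ENNReal NNReal

namespace Vale.Agent.P233.Met

variable {M : Type*} [MetricSpace M] [MeasurableSpace M] {m : Measure M}

set_option linter.unusedSectionVars false

theorem lipBd_zero_of_eventually {u : M → ℝ} {x : M} (h : ∀ᶠ y in 𝓝 x, u y = u x) :
    LipBd u x 0 := by
  intro c hc
  filter_upwards [h] with y hy
  rw [hy, sub_self, abs_zero]
  exact mul_nonneg (le_of_lt hc) dist_nonneg

theorem bdd_of_bounded_support {u : M → ℝ} {K : ℝ≥0} (hu : LipschitzWith K u) {x₀ : M} {R : ℝ}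
    (hR : ∀ x, x ∉ Metric.ball x₀ R → u x = 0) : ∃ C, ∀ x, |u x| ≤ C := by
  refine ⟨|u x₀| + K * |R|, fun x => ?_⟩
  by_cases hx : x ∈ Metric.ball x₀ R
  · have h1 := hu.dist_le_mul x x₀
    rw [Real.dist_eq] at h1
    have h2 : dist x x₀ ≤ |R| := (Metric.mem_ball.1 hx).le.trans (le_abs_self R)
    have h3 : |u x| ≤ |u x₀| + |u x - u x₀| := by
      have := abs_add_le (u x₀) (u x - u x₀)
      simpa using this
    have h4 : (K : ℝ) * dist x x₀ ≤ K * |R| := by gcongr
    linarith
  · rw [hR x hx, abs_zero]; positivity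

/-- Lipschitz functions with bounded support are admissible -/
theorem good_of_bounded_support [BorelSpace M] (hfin : ∀ (x : M) (r : ℝ), m (Metric.ball x r) < ∞)
    {u : M → ℝ} {K : ℝ≥0} (hu : LipschitzWith K u) {x₀ : M} {R : ℝ}
    (hR : ∀ x, x ∉ Metric.ball x₀ R → u x = 0) :
    Good m u ((Metric.ball x₀ (R + 1)).indicator fun _ => (K : ℝ)) := by
  have hbm : MeasurableSet (Metric.ball x₀ (R + 1)) := Metric.isOpen_ball.measurableSet
  obtain ⟨C, hC⟩ := bdd_of_bounded_support hu hR
  have hC0 : 0 ≤ C := (abs_nonneg _).trans (hC x₀)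
  have hind : ∀ c : ℝ, MemLp ((Metric.ball x₀ (R + 1)).indicator fun _ => c) 2 m := fun c =>
    memLp_indicator_const 2 hbm c (Or.inr (hfin x₀ (R + 1)).ne)
  refine Good.mk' ⟨K, hu⟩ ?_ (hind K) ?_
  · refine (hind C).mono hu.continuous.measurable.aestronglyMeasurable ?_
    filter_upwards with x
    by_cases hx : x ∈ Metric.ball x₀ (R + 1)
    · rw [indicator_of_mem hx, Real.norm_eq_abs, Real.norm_eq_abs, abs_of_nonneg hC0]
      exact hC x
    · have hx' : x ∉ Metric.ball x₀ R := fun h => hx (Metric.ball_subset_ball (by linarith) h)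
      rw [hR x hx', norm_zero]; exact norm_nonneg _
  · filter_upwards with x
    by_cases hx : x ∈ Metric.ball x₀ (R + 1)
    · rw [indicator_of_mem hx]
      exact ⟨K.coe_nonneg, LipBd.of_lipschitz hu x⟩
    · rw [indicator_of_notMem hx]
      refine ⟨le_rfl, lipBd_zero_of_eventually ?_⟩
      have hx2 : R < dist x x₀ := by
        rw [Metric.mem_ball, not_lt] at hx; linarith
      have h1 : ∀ᶠ y in 𝓝 x, R < dist y x₀ :=
        (continuous_id.dist continuous_const).continuousAt.eventually_const_lt hx2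
      filter_upwards [h1] with y hy
      rw [hR y (by rw [Metric.mem_ball, not_lt]; exact hy.le),
        hR x (by rw [Metric.mem_ball, not_lt]; exact hx2.le)]

/-- cut-off functions -/
noncomputable def cutoff (x₀ : M) (R : ℝ) (x : M) : ℝ := max 0 (min 1 (R + 1 - dist x x₀))

theorem cutoff_lip (x₀ : M) (R : ℝ) : LipschitzWith 1 (cutoff x₀ R) := by
  unfold cutoff
  have h1 : LipschitzWith 1 (fun x : M => R + 1 - dist x x₀) := by
    refine LipschitzWith.of_dist_le_mul fun x y => ?_
    rw [Real.dist_eq, NNReal.coe_one, one_mul]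
    have : R + 1 - dist x x₀ - (R + 1 - dist y x₀) = dist y x₀ - dist x x₀ := by ring
    rw [this, dist_comm x y]
    exact abs_dist_sub_le y x x₀
  exact (h1.const_min 1).const_max 0

theorem cutoff_nonneg (x₀ : M) (R : ℝ) (x : M) : 0 ≤ cutoff x₀ R x := le_max_left _ _
theorem cutoff_le_one (x₀ : M) (R : ℝ) (x : M) : cutoff x₀ R x ≤ 1 :=
  max_le zero_le_one (min_le_left _ _)
theorem cutoff_eq_one {x₀ : M} {R : ℝ} {x : M} (h : dist x x₀ ≤ R) : cutoff x₀ R x = 1 := by
  unfold cutoff
  rw [min_eq_left (by linarith)]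
  norm_num
theorem cutoff_eq_zero {x₀ : M} {R : ℝ} {x : M} (h : x ∉ Metric.ball x₀ (R + 1)) :
    cutoff x₀ R x = 0 := by
  rw [Metric.mem_ball, not_lt] at h
  unfold cutoff
  exact max_eq_left ((min_le_right _ _).trans (by linarith))

theorem tendsto_cutoff (x₀ x : M) : Tendsto (fun n : ℕ => cutoff x₀ n x) atTop (𝓝 1) := by
  obtain ⟨N, hN⟩ := exists_nat_ge (dist x x₀)
  refine tendsto_const_nhds.congr' ?_
  filter_upwards [eventually_ge_atTop N] with k hk
  rw [cutoff_eq_one]
  exact hN.trans (by exact_mod_cast hk)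

/-- `W^{1,2}` is dense in `L²` -/
theorem dense_W12 [BorelSpace M] [SecondCountableTopology M]
    (hfin : ∀ (x : M) (r : ℝ), m (Metric.ball x r) < ∞) {f : M → ℝ} (hf : MemLp f 2 m)
    {ε : ℝ≥0∞} (hε : ε ≠ 0) : ∃ g, eLpNorm (f - g) 2 m ≤ ε ∧ W12 m g := by
  have hloc : IsLocallyFiniteMeasure m :=
    ⟨fun x => ⟨Metric.ball x 1, Metric.ball_mem_nhds x one_pos, hfin x 1⟩⟩
  refine MemLp.induction_dense (by norm_num) (W12 m) ?_ (fun f g hf hg => hf.add hg)
    (fun f hf => hf.memLp.1) hf hε
  intro c s hs hsfin ε hε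
  rcases isEmpty_or_nonempty M with hM | ⟨⟨x₀⟩⟩
  · refine ⟨0, ?_, W12.zero⟩
    have : (0 : M → ℝ) - s.indicator (fun _ => c) = 0 := by ext x; exact (hM.false x).elim
    rw [this]; simp
  -- it suffices to treat bounded closed sets
  -- step A : approximate `s` by `F ⊆ s ∩ ball x₀ n` closed
  set δ : ℝ≥0∞ := ε / 3 with hδ
  have hδ0 : δ ≠ 0 := by simp [hδ, hε]
  have h2 : (2 : ℝ≥0∞) ≠ 0 := by norm_num
  have h2' : (2 : ℝ≥0∞) ≠ ∞ := by norm_num
  -- the norm of an indicator tends to zero with the measure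
  have hsmall : ∃ η : ℝ≥0∞, η ≠ 0 ∧ ∀ A : Set M, MeasurableSet A → m A ≤ η →
      eLpNorm (A.indicator fun _ => c) 2 m ≤ δ := by
    have hc : Tendsto (fun t : ℝ≥0∞ => ‖c‖ₑ * t ^ (1 / (2 : ℝ≥0∞).toReal)) (𝓝 0) (𝓝 0) := by
      have h3 := (ENNReal.continuous_rpow_const (y := 1 / (2 : ℝ≥0∞).toReal)).tendsto 0
      have h4 := ENNReal.Tendsto.const_mul (a := ‖c‖ₑ) h3 (Or.inr (by simp))
      simpa using h4
    have h5 := hc.eventually (ge_mem_nhds (pos_iff_ne_zero.2 hδ0))
    rw [ENNReal.nhds_zero] at h5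
    rw [Filter.eventually_iff] at h5
    have h6 : ∃ η : ℝ≥0∞, η ≠ 0 ∧ ∀ t ≤ η, ‖c‖ₑ * t ^ (1 / (2 : ℝ≥0∞).toReal) ≤ δ := by
      have h7 := (ENNReal.nhds_zero_basis_Iic.mem_iff).1 (by rw [ENNReal.nhds_zero]; exact h5)
      obtain ⟨η, hη, hsub⟩ := h7
      exact ⟨η, hη.ne', fun t ht => hsub ht⟩
    obtain ⟨η, hη, hη2⟩ := h6
    refine ⟨η, hη, fun A hA hmA => ?_⟩
    rw [eLpNorm_indicator_const hA h2 h2']
    exact hη2 _ hmA
  obtain ⟨η, hη, hsmall⟩ := hsmall
  have hball : Tendsto (fun n : ℕ => m (s \ Metric.ball x₀ n)) atTop (𝓝 0) := by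
    have h3 : Tendsto (fun n : ℕ => m (s \ Metric.ball x₀ n)) atTop
        (𝓝 (m (⋂ n : ℕ, s \ Metric.ball x₀ n))) := by
      refine tendsto_measure_iInter_atTop
        (fun n => (hs.diff Metric.isOpen_ball.measurableSet).nullMeasurableSet) ?_
        ⟨0, (measure_mono sdiff_subset).trans_lt hsfin |>.ne⟩
      intro a b hab
      exact sdiff_subset_sdiff_right (Metric.ball_subset_ball (by exact_mod_cast hab))
    have h4 : (⋂ n : ℕ, s \ Metric.ball x₀ n) = ∅ := by
      rw [Set.eq_empty_iff_forall_notMem]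
      intro x hx
      obtain ⟨n, hn⟩ := exists_nat_gt (dist x x₀)
      have h5 := mem_iInter.1 hx n
      exact h5.2 hn
    rwa [h4, measure_empty] at h3
  obtain ⟨n, hn⟩ := (hball.eventually (ge_mem_nhds (pos_iff_ne_zero.2 hη))).exists
  set s' := s ∩ Metric.ball x₀ n with hs'
  have hs'm : MeasurableSet s' := hs.inter Metric.isOpen_ball.measurableSet
  have hs'fin : m s' ≠ ∞ := ((measure_mono inter_subset_left).trans_lt hsfin).ne
  obtain ⟨F, hFs, hFc, hF⟩ := hs'm.exists_isClosed_sdiff_lt hs'fin hη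
  -- thickened indicators of F
  set d : ℕ → ℝ := fun k => 1 / ((k : ℝ) + 1) with hd
  have hd0 : ∀ k, 0 < d k := fun k => by positivity
  have hd1 : ∀ k, d k ≤ 1 := fun k => by
    simp only [hd]
    rw [div_le_one (by positivity)]
    have : (0 : ℝ) ≤ k := by positivity
    linarith
  have hdl : Tendsto d atTop (𝓝 0) := tendsto_one_div_add_atTop_nhds_zero_nat
  set χ : ℕ → M → ℝ := fun k x => c * (thickenedIndicator (hd0 k) F x : ℝ) with hχ
  have hχL : ∀ k, IsLip (χ k) := fun k => by
    have h3 := lipschitzWith_thickenedIndicator (hd0 k) F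
    have h4 : LipschitzWith (d k).toNNReal⁻¹ (fun x => (thickenedIndicator (hd0 k) F x : ℝ)) := by
      refine LipschitzWith.of_dist_le_mul fun x y => ?_
      have h5 := h3.dist_le_mul x y
      rw [NNReal.dist_eq] at h5
      rw [Real.dist_eq]
      exact h5
    exact IsLip.const_mul c ⟨_, h4⟩
  have hχsupp : ∀ k x, x ∉ Metric.ball x₀ (n + 1) → χ k x = 0 := by
    intro k x hx
    have h3 : x ∉ Metric.thickening (d k) F := by
      intro h4
      rw [Metric.mem_thickening_iff] at h4
      obtain ⟨z, hz, hxz⟩ := h4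
      have h5 : dist z x₀ < n := (hFs hz).2
      apply hx
      rw [Metric.mem_ball]
      calc dist x x₀ ≤ dist x z + dist z x₀ := dist_triangle _ _ _
        _ < d k + n := add_lt_add hxz h5
        _ ≤ n + 1 := by linarith [hd1 k]
    simp only [hχ]
    rw [thickenedIndicator_zero (hd0 k) F h3]
    simp
  have hχW : ∀ k, W12 m (χ k) := fun k => by
    obtain ⟨K, hK⟩ := hχL k
    exact ⟨_, (good_of_bounded_support hfin hK (hχsupp k)).rSlope⟩
  have hχlim : Tendsto (fun k => eLpNorm (χ k - F.indicator (fun _ => c)) 2 m) atTop (𝓝 0) := by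
    refine tendsto_eLpNorm_zero_of_dominated
      (B := (Metric.ball x₀ (n + 1)).indicator fun _ => |c|) ?_ ?_ ?_ ?_
    · exact memLp_indicator_const 2 Metric.isOpen_ball.measurableSet |c|
        (Or.inr (hfin x₀ (n + 1)).ne)
    · intro k
      exact ((hχL k).continuous.measurable.aestronglyMeasurable).sub
        (aestronglyMeasurable_const.indicator hFc.measurableSet)
    · intro k
      filter_upwards with x
      by_cases hx : x ∈ Metric.ball x₀ (n + 1)
      · rw [indicator_of_mem hx]
        have h3 := thickenedIndicator_le_one (hd0 k) F x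
        have h3' : (thickenedIndicator (hd0 k) F x : ℝ) ≤ 1 := by exact_mod_cast h3
        have h30 : 0 ≤ (thickenedIndicator (hd0 k) F x : ℝ) := NNReal.coe_nonneg _
        by_cases hxF : x ∈ F
        · have h4 := thickenedIndicator_one (hd0 k) F hxF
          simp only [Pi.sub_apply, hχ, h4, indicator_of_mem hxF]
          simp
        · simp only [Pi.sub_apply, hχ, indicator_of_notMem hxF, sub_zero, abs_mul,
            abs_of_nonneg h30]
          calc |c| * _ ≤ |c| * 1 := by gcongr
            _ = |c| := mul_one _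
      · rw [indicator_of_notMem hx]
        have hxF : x ∉ F := fun h => hx (Metric.ball_subset_ball (by linarith) (hFs h).2)
        simp only [Pi.sub_apply, hχsupp k x hx, indicator_of_notMem hxF]
        simp
    · filter_upwards with x
      have h3 := thickenedIndicator_tendsto_indicator_closure hd0 hdl F
      rw [tendsto_pi_nhds] at h3
      have h4 := h3 x
      rw [hFc.closure_eq] at h4
      have h5 := ((NNReal.continuous_coe.tendsto _).comp h4).const_mul c
      have h6 : c * ((F.indicator (fun _ => (1 : ℝ≥0)) x : ℝ≥0) : ℝ) =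
          F.indicator (fun _ => c) x := by
        by_cases hx : x ∈ F <;> simp [hx]
      rw [h6] at h5
      have h7 := h5.sub_const (F.indicator (fun _ => c) x)
      rw [sub_self] at h7
      exact h7
  obtain ⟨k, hk⟩ := (hχlim.eventually (ge_mem_nhds (pos_iff_ne_zero.2 hδ0))).exists
  refine ⟨χ k, ?_, hχW k⟩
  have e : χ k - s.indicator (fun _ => c) = (χ k - F.indicator (fun _ => c)) +
      (-((s' \ F).indicator (fun _ => c)) + -((s \ Metric.ball x₀ n).indicator fun _ => c)) := by
    ext x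
    simp only [Pi.sub_apply, Pi.add_apply, Pi.neg_apply]
    by_cases hxF : x ∈ F
    · have hxs' := hFs hxF
      have : x ∈ s := hxs'.1
      have h4 : x ∉ s \ Metric.ball x₀ n := fun h => h.2 hxs'.2
      have h5 : x ∉ s' \ F := fun h => h.2 hxF
      rw [indicator_of_mem hxF, indicator_of_mem this, indicator_of_notMem h4,
        indicator_of_notMem h5]
      ring
    · by_cases hxs : x ∈ s
      · by_cases hxb : x ∈ Metric.ball x₀ n
        · have h4 : x ∉ s \ Metric.ball x₀ n := fun h => h.2 hxb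
          have h5 : x ∈ s' \ F := ⟨⟨hxs, hxb⟩, hxF⟩
          rw [indicator_of_notMem hxF, indicator_of_mem hxs, indicator_of_notMem h4,
            indicator_of_mem h5]
          ring
        · have h4 : x ∈ s \ Metric.ball x₀ n := ⟨hxs, hxb⟩
          have h5 : x ∉ s' \ F := fun h => hxb h.1.2
          rw [indicator_of_notMem hxF, indicator_of_mem hxs, indicator_of_mem h4,
            indicator_of_notMem h5]
          ring
      · have h4 : x ∉ s \ Metric.ball x₀ n := fun h => hxs h.1
        have h5 : x ∉ s' \ F := fun h => hxs h.1.1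
        rw [indicator_of_notMem hxF, indicator_of_notMem hxs, indicator_of_notMem h4,
          indicator_of_notMem h5]
        ring
  rw [e]
  have hm1 : AEStronglyMeasurable (χ k - F.indicator (fun _ => c)) m :=
    ((hχL k).continuous.measurable.aestronglyMeasurable).sub
        (aestronglyMeasurable_const.indicator hFc.measurableSet)
  have hm2 : MeasurableSet (s' \ F) := hs'm.diff hFc.measurableSet
  have hm3 : MeasurableSet (s \ Metric.ball x₀ n) := hs.diff Metric.isOpen_ball.measurableSet
  have hm2' : AEStronglyMeasurable (-((s' \ F).indicator (fun _ => c))) m :=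
    (aestronglyMeasurable_const.indicator hm2).neg
  have hm3' : AEStronglyMeasurable (-((s \ Metric.ball x₀ n).indicator (fun _ => c))) m :=
    (aestronglyMeasurable_const.indicator hm3).neg
  refine (eLpNorm_add_le hm1 (hm2'.add hm3') (by norm_num)).trans ?_
  refine (add_le_add_right (eLpNorm_add_le hm2' hm3' (by norm_num)) _).trans ?_
  rw [eLpNorm_neg, eLpNorm_neg]
  calc _ ≤ δ + (δ + δ) := by
        gcongr
        · exact hsmall _ hm2 hF.le
        · exact hsmall _ hm3 hn
    _ = 3 * δ := by ring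
    _ ≤ ε := ENNReal.mul_div_le

end Vale.Agent.P233.Met
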