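import Mathlib

open Filter Topology Set

namespace Vale.Agent.P233.Met

/-- seminorms on the plane -/
structure IsSemi2 (N : ℝ → ℝ → ℝ) : Prop where
  nonneg : ∀ s t, 0 ≤ N s t
  homog : ∀ c s t, N (c * s) (c * t) = |c| * N s t
  add_le : ∀ s t s' t', N (s + s') (t + t') ≤ N s t + N s' t'

namespace IsSemi2

variable {N : ℝ → ℝ → ℝ}

theorem abs_sub_le (h : IsSemi2 N) (s t s' t' : ℝ) :
    |N s t - N s' t'| ≤ N (s - s') (t - t') := by
  have h1 := h.add_le (s - s') (t - t') s' t'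
  have h2 := h.add_le (s' - s) (t' - t) s t
  have h3 := h.homog (-1) (s - s') (t - t')
  simp only [sub_add_cancel] at h1 h2
  have e1 : (-1 : ℝ) * (s - s') = s' - s := by ring
  have e2 : (-1 : ℝ) * (t - t') = t' - t := by ring
  rw [e1, e2, abs_neg, abs_one, one_mul] at h3
  rw [h3] at h2
  rw [abs_le]
  constructor <;> linarith

theorem le_coord (h : IsSemi2 N) (s t : ℝ) : N s t ≤ |s| * N 1 0 + |t| * N 0 1 := by
  have h1 := h.add_le s 0 0 t
  simp only [add_zero, zero_add] at h1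
  have h2 := h.homog s 1 0
  have h3 := h.homog t 0 1
  simp only [mul_one, mul_zero] at h2 h3
  rw [h2, h3] at h1
  exact h1

theorem zero (h : IsSemi2 N) : N 0 0 = 0 := by
  have h1 := h.homog 0 0 0
  simpa using h1

theorem flip (h : IsSemi2 N) : IsSemi2 (fun s t => N s (-t)) where
  nonneg s t := h.nonneg _ _
  homog c s t := by
    have := h.homog c s (-t)
    rw [← this]; congr 1; ring
  add_le s t s' t' := by
    have := h.add_le s (-t) s' (-t')
    have e : -(t + t') = -t + -t' := by ring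
    rw [e]; exact this

/-- monotonicity of difference quotients -/
theorem quot_mono (h : IsSemi2 N) {t t' : ℝ} (ht : 0 < t) (htt' : t ≤ t') :
    (N 1 t ^ 2 - N 1 0 ^ 2) / t ≤ (N 1 t' ^ 2 - N 1 0 ^ 2) / t' := by
  have ht' : 0 < t' := lt_of_lt_of_le ht htt'
  set l : ℝ := t / t' with hl
  have hl0 : 0 ≤ l := by positivity
  have hl1 : l ≤ 1 := by rw [hl, div_le_one ht']; exact htt'
  have h1 := h.add_le (1 - l) 0 l t
  have e1 : 1 - l + l = 1 := by ring
  rw [e1, zero_add] at h1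
  have h2 := h.homog (1 - l) 1 0
  have h3 := h.homog l 1 t'
  have e2 : l * t' = t := by rw [hl]; field_simp
  rw [e2, mul_one, abs_of_nonneg hl0] at h3
  rw [mul_one, mul_zero, abs_of_nonneg (by linarith)] at h2
  rw [h2, h3] at h1
  have hN0 := h.nonneg 1 0
  have hNt := h.nonneg 1 t
  have hNt' := h.nonneg 1 t'
  have h4 : N 1 t ^ 2 ≤ ((1 - l) * N 1 0 + l * N 1 t') ^ 2 := by
    gcongr
  have h5 : ((1 - l) * N 1 0 + l * N 1 t') ^ 2 ≤ (1 - l) * N 1 0 ^ 2 + l * N 1 t' ^ 2 := by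
    nlinarith [mul_nonneg (mul_nonneg hl0 (by linarith : (0 : ℝ) ≤ 1 - l))
      (sq_nonneg (N 1 0 - N 1 t'))]
  have h6 : N 1 t ^ 2 - N 1 0 ^ 2 ≤ l * (N 1 t' ^ 2 - N 1 0 ^ 2) := by nlinarith
  rw [div_le_iff₀ ht]
  have e3 : (N 1 t' ^ 2 - N 1 0 ^ 2) / t' * t = l * (N 1 t' ^ 2 - N 1 0 ^ 2) := by
    rw [hl]; ring
  rw [e3]
  exact h6

theorem quot_lower (h : IsSemi2 N) {t : ℝ} (ht : 0 < t) (ht1 : t ≤ 1) :
    -(N 0 1 * (2 * N 1 0 + N 0 1)) ≤ (N 1 t ^ 2 - N 1 0 ^ 2) / t := by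
  rw [le_div_iff₀ ht]
  have h1 := h.abs_sub_le 1 t 1 0
  rw [sub_self, sub_zero] at h1
  have h2 := h.homog t 0 1
  rw [mul_zero, mul_one, abs_of_pos ht] at h2
  rw [h2] at h1
  have h3 := abs_le.1 h1
  have hN0 := h.nonneg 1 0
  have hNt := h.nonneg 1 t
  have hB := h.nonneg 0 1
  have h4 : N 1 t ^ 2 - N 1 0 ^ 2 = (N 1 t - N 1 0) * (N 1 t + N 1 0) := by ring
  rw [h4]
  have h5 : N 1 t + N 1 0 ≤ 2 * N 1 0 + N 0 1 := by nlinarith
  have h6 : 0 ≤ N 1 t + N 1 0 := by linarith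
  nlinarith [mul_le_mul_of_nonneg_left h5 (mul_nonneg ht.le hB)]

theorem exists_quot_lim (h : IsSemi2 N) :
    ∃ L, Tendsto (fun t => (N 1 t ^ 2 - N 1 0 ^ 2) / t) (𝓝[>] 0) (𝓝 L) := by
  refine ⟨_, MonotoneOn.tendsto_nhdsWithin_Ioo_right (x := (0 : ℝ)) (y := 1)
    ⟨1 / 2, by norm_num, by norm_num⟩ ?_ ?_⟩
  · intro t ht t' _ htt'
    exact h.quot_mono ht.1 htt'
  · refine ⟨-(N 0 1 * (2 * N 1 0 + N 0 1)), ?_⟩
    rintro _ ⟨t, ht, rfl⟩
    exact h.quot_lower ht.1 ht.2.le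

theorem tendsto_one (h : IsSemi2 N) {s : ℝ → ℝ} (hs : Tendsto s (𝓝[>] 0) (𝓝 0)) :
    Tendsto (fun ε => N 1 (s ε) ^ 2) (𝓝[>] 0) (𝓝 (N 1 0 ^ 2)) := by
  have h1 : Tendsto (fun ε => N 1 (s ε)) (𝓝[>] 0) (𝓝 (N 1 0)) := by
    rw [tendsto_iff_dist_tendsto_zero]
    have h2 : Tendsto (fun ε => |s ε| * N 0 1) (𝓝[>] 0) (𝓝 0) := by
      have := hs.abs.mul_const (N 0 1)
      simpa using this
    refine squeeze_zero (fun _ => dist_nonneg) (fun ε => ?_) h2
    rw [Real.dist_eq]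
    refine (h.abs_sub_le _ _ _ _).trans ?_
    rw [sub_self, sub_zero]
    have := h.homog (s ε) 0 1
    rw [mul_zero, mul_one] at this
    rw [this]
  exact h1.pow 2

/-- the key limit, positive case -/
theorem key_pos (h : IsSemi2 N) {g : ℝ} (hg : 0 < g) (k : ℝ) :
    Tendsto (fun ε : ℝ => (N (1 + ε * k) (ε * g) ^ 2 - N 1 0 ^ 2) / (2 * ε) -
      (N (2 * g) ε ^ 2 - N (2 * g) 0 ^ 2) / (4 * ε)) (𝓝[>] 0) (𝓝 (k * N 1 0 ^ 2)) := by
  obtain ⟨L, hL⟩ := h.exists_quot_lim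
  have hid : Tendsto (fun ε : ℝ => ε) (𝓝[>] (0 : ℝ)) (𝓝 0) := tendsto_nhdsWithin_of_tendsto_nhds
    tendsto_id
  have hpos : ∀ᶠ ε : ℝ in 𝓝[>] 0, 0 < ε := eventually_mem_nhdsWithin
  have h1k : Tendsto (fun ε : ℝ => 1 + ε * k) (𝓝[>] 0) (𝓝 1) := by
    have := (hid.mul_const k).const_add 1
    simpa using this
  have h1kpos : ∀ᶠ ε : ℝ in 𝓝[>] 0, 0 < 1 + ε * k := h1k.eventually_const_lt (by norm_num)
  set s : ℝ → ℝ := fun ε => ε * g / (1 + ε * k) with hs
  have hs0 : Tendsto s (𝓝[>] 0) (𝓝 0) := by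
    have := (hid.mul_const g).div h1k (by norm_num)
    rw [zero_mul, zero_div] at this
    exact this
  have hs' : Tendsto s (𝓝[>] 0) (𝓝[>] 0) := by
    rw [tendsto_nhdsWithin_iff]
    refine ⟨hs0, ?_⟩
    filter_upwards [hpos, h1kpos] with ε h1 h2
    exact div_pos (mul_pos h1 hg) h2
  set t : ℝ → ℝ := fun ε => ε / (2 * g) with ht
  have ht' : Tendsto t (𝓝[>] 0) (𝓝[>] 0) := by
    rw [tendsto_nhdsWithin_iff]
    refine ⟨?_, ?_⟩
    · have := hid.div_const (2 * g)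
      simpa using this
    · filter_upwards [hpos] with ε h1
      exact div_pos h1 (by positivity)
  have hA : Tendsto (fun ε => (k + ε * k ^ 2 / 2) * N 1 (s ε) ^ 2 +
      g / (2 * (1 + ε * k)) * ((N 1 (s ε) ^ 2 - N 1 0 ^ 2) / s ε)) (𝓝[>] 0)
      (𝓝 (k * N 1 0 ^ 2 + g / 2 * L)) := by
    refine Tendsto.add (Tendsto.mul ?_ (h.tendsto_one hs0)) (Tendsto.mul ?_ (hL.comp hs'))
    · have := ((hid.mul_const (k ^ 2)).div_const 2).const_add k
      simpa using this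
    · have := (tendsto_const_nhds (x := g)).div (h1k.const_mul 2) (by norm_num)
      rw [mul_one] at this
      exact this
  have hB : Tendsto (fun ε => g / 2 * ((N 1 (t ε) ^ 2 - N 1 0 ^ 2) / t ε)) (𝓝[>] 0)
      (𝓝 (g / 2 * L)) := (hL.comp ht').const_mul (g / 2)
  have hAB := hA.sub hB
  have e0 : k * N 1 0 ^ 2 + g / 2 * L - g / 2 * L = k * N 1 0 ^ 2 := by ring
  rw [e0] at hAB
  refine hAB.congr' ?_
  filter_upwards [hpos, h1kpos] with ε h1 h2
  have e1 : N (1 + ε * k) (ε * g) = (1 + ε * k) * N 1 (s ε) := by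
    have := h.homog (1 + ε * k) 1 (s ε)
    rw [abs_of_pos h2, mul_one] at this
    rw [← this]
    congr 1
    rw [hs]; field_simp
  have e2 : N (2 * g) ε = (2 * g) * N 1 (t ε) := by
    have := h.homog (2 * g) 1 (t ε)
    rw [abs_of_pos (by positivity : (0 : ℝ) < 2 * g), mul_one] at this
    rw [← this]
    congr 1
    rw [ht]; field_simp
  have e3 : N (2 * g) 0 = (2 * g) * N 1 0 := by
    have := h.homog (2 * g) 1 0
    rw [abs_of_pos (by positivity : (0 : ℝ) < 2 * g), mul_one, mul_zero] at this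
    exact this
  have hsne : s ε ≠ 0 := (div_pos (mul_pos h1 hg) h2).ne'
  rw [e1, e2, e3]
  have hε : ε ≠ 0 := h1.ne'
  have h2' : 1 + ε * k ≠ 0 := h2.ne'
  have hg' : g ≠ 0 := hg.ne'
  have e4 : g / (2 * (1 + ε * k)) * ((N 1 (s ε) ^ 2 - N 1 0 ^ 2) / s ε) =
      (N 1 (s ε) ^ 2 - N 1 0 ^ 2) / (2 * ε) := by
    simp only [hs]; field_simp
  have e5 : g / 2 * ((N 1 (t ε) ^ 2 - N 1 0 ^ 2) / t ε) =
      g ^ 2 * (N 1 (t ε) ^ 2 - N 1 0 ^ 2) / ε := by
    simp only [ht]; field_simp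
  rw [e4, e5]
  field_simp
  ring

/-- the key limit -/
theorem key (h : IsSemi2 N) (g k : ℝ) :
    Tendsto (fun ε : ℝ => (N (1 + ε * k) (ε * g) ^ 2 - N 1 0 ^ 2) / (2 * ε) -
      (N (2 * g) ε ^ 2 - N (2 * g) 0 ^ 2) / (4 * ε)) (𝓝[>] 0) (𝓝 (k * N 1 0 ^ 2)) := by
  rcases lt_trichotomy g 0 with hg | hg | hg
  · have h1 := h.flip.key_pos (g := -g) (by linarith) k
    simp only [neg_zero] at h1
    refine h1.congr fun ε => ?_
    have e1 : -(ε * -g) = ε * g := by ring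
    have e2 : N (2 * -g) (-ε) = N (2 * g) ε := by
      have := h.homog (-1) (2 * g) ε
      rw [abs_neg, abs_one, one_mul] at this
      rw [← this]; congr 1 <;> ring
    have e3 : N (2 * -g) 0 = N (2 * g) 0 := by
      have := h.homog (-1) (2 * g) 0
      rw [abs_neg, abs_one, one_mul] at this
      rw [← this]; congr 1 <;> ring
    rw [e1, e2, e3]
  · subst hg
    have hid : Tendsto (fun ε : ℝ => ε) (𝓝[>] (0 : ℝ)) (𝓝 0) :=
      tendsto_nhdsWithin_of_tendsto_nhds tendsto_id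
    have hpos : ∀ᶠ ε : ℝ in 𝓝[>] 0, 0 < ε := eventually_mem_nhdsWithin
    have h1 : Tendsto (fun ε : ℝ => (k + ε * k ^ 2 / 2) * N 1 0 ^ 2 - ε / 4 * N 0 1 ^ 2) (𝓝[>] 0)
        (𝓝 (k * N 1 0 ^ 2)) := by
      have h2 := ((((hid.mul_const (k ^ 2)).div_const 2).const_add k).mul_const (N 1 0 ^ 2)).sub
        ((hid.div_const 4).mul_const (N 0 1 ^ 2))
      simpa using h2
    refine h1.congr' ?_
    filter_upwards [hpos] with ε hε
    have e1 : N (1 + ε * k) (ε * 0) ^ 2 = (1 + ε * k) ^ 2 * N 1 0 ^ 2 := by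
      have := h.homog (1 + ε * k) 1 0
      rw [mul_one, mul_zero] at this
      rw [mul_zero, this, mul_pow, sq_abs]
    have e2 : N (2 * 0) ε ^ 2 = ε ^ 2 * N 0 1 ^ 2 := by
      have := h.homog ε 0 1
      rw [mul_one, mul_zero] at this
      rw [mul_zero, this, mul_pow, sq_abs]
    have e3 : N (2 * 0) 0 = 0 := by rw [mul_zero]; exact h.zero
    rw [e1, e2, e3]
    have hε' : ε ≠ 0 := hε.ne'
    field_simp
    ring
  · exact h.key_pos hg k

theorem bound_a (h : IsSemi2 N) (g k : ℝ) {ε : ℝ} (hε : 0 < ε) (hε1 : ε ≤ 1) :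
    |(N (1 + ε * k) (ε * g) ^ 2 - N 1 0 ^ 2) / (2 * ε)| ≤
      (|k| * N 1 0 + |g| * N 0 1) * (2 * N 1 0 + (|k| * N 1 0 + |g| * N 0 1)) := by
  set A := N 1 0 with hA
  set B := |k| * N 1 0 + |g| * N 0 1 with hB
  have hA0 : 0 ≤ A := h.nonneg _ _
  have hB0 : 0 ≤ B := by
    have := h.nonneg 0 1
    positivity
  have h1 : |N (1 + ε * k) (ε * g) - A| ≤ ε * B := by
    refine (h.abs_sub_le _ _ _ _).trans ?_
    have e : N (1 + ε * k - 1) (ε * g - 0) = ε * N k g := by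
      have := h.homog ε k g
      rw [abs_of_pos hε] at this
      rw [← this]; congr 1 <;> ring
    rw [e]
    have := h.le_coord k g
    gcongr
  have h2 : N (1 + ε * k) (ε * g) ^ 2 - A ^ 2 =
      (N (1 + ε * k) (ε * g) - A) * (N (1 + ε * k) (ε * g) + A) := by ring
  rw [h2, abs_div, abs_mul, abs_of_pos (by positivity : 0 < 2 * ε), div_le_iff₀ (by positivity)]
  have h3 : |N (1 + ε * k) (ε * g) + A| ≤ 2 * A + B := by
    rw [abs_of_nonneg (add_nonneg (h.nonneg _ _) hA0)]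
    have := (abs_le.1 h1).2
    have h4 : ε * B ≤ 1 * B := by gcongr
    linarith
  calc _ ≤ (ε * B) * (2 * A + B) := by gcongr
    _ ≤ B * (2 * A + B) * (2 * ε) := by
      have : 0 ≤ B * (2 * A + B) * ε := by positivity
      nlinarith

theorem bound_b (h : IsSemi2 N) (g : ℝ) {ε : ℝ} (hε : 0 < ε) (hε1 : ε ≤ 1) :
    |(N (2 * g) ε ^ 2 - N (2 * g) 0 ^ 2) / (4 * ε)| ≤
      N 0 1 * (4 * |g| * N 1 0 + N 0 1) := by
  have hB0 : 0 ≤ N 0 1 := h.nonneg _ _
  have hA0 : 0 ≤ N 1 0 := h.nonneg _ _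
  have e1 : N (2 * g) 0 = 2 * |g| * N 1 0 := by
    have := h.homog (2 * g) 1 0
    rw [mul_one, mul_zero] at this
    rw [this, abs_mul]; norm_num
  have h1 : |N (2 * g) ε - N (2 * g) 0| ≤ ε * N 0 1 := by
    refine (h.abs_sub_le _ _ _ _).trans ?_
    rw [sub_self, sub_zero]
    have := h.homog ε 0 1
    rw [mul_one, mul_zero, abs_of_pos hε] at this
    rw [this]
  have h2 : N (2 * g) ε ^ 2 - N (2 * g) 0 ^ 2 =
      (N (2 * g) ε - N (2 * g) 0) * (N (2 * g) ε + N (2 * g) 0) := by ring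
  rw [h2, abs_div, abs_mul, abs_of_pos (by positivity : 0 < 4 * ε), div_le_iff₀ (by positivity)]
  have h3 : |N (2 * g) ε + N (2 * g) 0| ≤ 4 * |g| * N 1 0 + N 0 1 := by
    rw [abs_of_nonneg (add_nonneg (h.nonneg _ _) (h.nonneg _ _))]
    have := (abs_le.1 h1).2
    have h4 : ε * N 0 1 ≤ 1 * N 0 1 := by gcongr
    linarith
  calc _ ≤ (ε * N 0 1) * (4 * |g| * N 1 0 + N 0 1) := by gcongr
    _ ≤ N 0 1 * (4 * |g| * N 1 0 + N 0 1) * (4 * ε) := by
      have : 0 ≤ N 0 1 * (4 * |g| * N 1 0 + N 0 1) * ε := by positivity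
      nlinarith

end IsSemi2

/-- extension of a rational seminorm -/
theorem exists_semi2_ext (N : ℚ → ℚ → ℝ) (h0 : ∀ p q, 0 ≤ N p q)
    (h1 : ∀ c p q, N (c * p) (c * q) = |(c : ℝ)| * N p q)
    (h2 : ∀ p q p' q', N (p + p') (q + q') ≤ N p q + N p' q') :
    ∃ N' : ℝ → ℝ → ℝ, IsSemi2 N' ∧ ∀ p q : ℚ, N' p q = N p q := by
  have hcoord : ∀ p q, N p q ≤ |(p : ℝ)| * N 1 0 + |(q : ℝ)| * N 0 1 := by
    intro p q
    have e1 := h2 p 0 0 q
    have e2 := h1 p 1 0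
    have e3 := h1 q 0 1
    simp only [mul_one, mul_zero, add_zero, zero_add] at e1 e2 e3
    rw [e2, e3] at e1
    exact e1
  have hsub : ∀ p q p' q', |N p q - N p' q'| ≤ N (p - p') (q - q') := by
    intro p q p' q'
    have e1 := h2 (p - p') (q - q') p' q'
    have e2 := h2 (p' - p) (q' - q) p q
    have e3 := h1 (-1) (p - p') (q - q')
    simp only [sub_add_cancel] at e1 e2
    have f1 : (-1 : ℚ) * (p - p') = p' - p := by ring
    have f2 : (-1 : ℚ) * (q - q') = q' - q := by ring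
    rw [f1, f2] at e3
    simp only [Rat.cast_neg, Rat.cast_one, abs_neg, abs_one, one_mul] at e3
    rw [e3] at e2
    rw [abs_le]
    constructor <;> linarith
  set e : ℚ × ℚ → ℝ × ℝ := fun r => ((r.1 : ℝ), (r.2 : ℝ)) with he
  have hinj : Function.Injective e := by
    rintro ⟨a, b⟩ ⟨c, d⟩ h
    simp only [he, Prod.mk.injEq, Rat.cast_inj] at h
    exact Prod.ext h.1 h.2
  have hdense : DenseRange e := Rat.denseRange_cast.prodMap Rat.denseRange_cast
  set K : NNReal := ⟨N 1 0 + N 0 1, add_nonneg (h0 _ _) (h0 _ _)⟩ with hK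
  set f : ℝ × ℝ → ℝ := fun z => N (Function.invFun e z).1 (Function.invFun e z).2 with hf
  have hfe : ∀ r, f (e r) = N r.1 r.2 := by
    intro r
    simp only [hf]
    rw [Function.leftInverse_invFun hinj r]
  have hLip : LipschitzOnWith K f (range e) := by
    refine LipschitzOnWith.of_dist_le_mul ?_
    rintro _ ⟨r, rfl⟩ _ ⟨r', rfl⟩
    rw [hfe, hfe, Real.dist_eq]
    refine (hsub _ _ _ _).trans ((hcoord _ _).trans ?_)
    have hd1 : |((r.1 - r'.1 : ℚ) : ℝ)| ≤ dist (e r) (e r') := by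
      rw [Prod.dist_eq]
      refine le_trans ?_ (le_max_left _ _)
      simp [he, Real.dist_eq]
    have hd2 : |((r.2 - r'.2 : ℚ) : ℝ)| ≤ dist (e r) (e r') := by
      rw [Prod.dist_eq]
      refine le_trans ?_ (le_max_right _ _)
      simp [he, Real.dist_eq]
    have n1 := h0 1 0
    have n2 := h0 0 1
    calc _ ≤ dist (e r) (e r') * N 1 0 + dist (e r) (e r') * N 0 1 := by gcongr
      _ = (N 1 0 + N 0 1) * dist (e r) (e r') := by ring
  obtain ⟨F, hF, hFe⟩ := hLip.extend_real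
  have hFc : Continuous F := hF.continuous
  have hF' : ∀ p q : ℚ, F ((p : ℝ), (q : ℝ)) = N p q := by
    intro p q
    have : F (e (p, q)) = f (e (p, q)) := (hFe (mem_range_self _)).symm
    rw [hfe] at this
    exact this
  refine ⟨fun s t => F (s, t), ⟨?_, ?_, ?_⟩, hF'⟩
  · intro s t
    have hcl : IsClosed {z : ℝ × ℝ | 0 ≤ F z} := isClosed_le continuous_const hFc
    have := hdense.induction_on (p := fun z => 0 ≤ F z) (s, t) hcl (fun r => by
      rw [hF']; exact h0 _ _)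
    exact this
  · intro c s t
    have hcl : IsClosed {z : ℝ × (ℝ × ℝ) | F (z.1 * z.2.1, z.1 * z.2.2) = |z.1| * F z.2} := by
      refine isClosed_eq (hFc.comp (by fun_prop)) ?_
      exact (continuous_fst.abs).mul (hFc.comp continuous_snd)
    have hd : DenseRange (Prod.map (fun c : ℚ => (c : ℝ)) e) :=
      Rat.denseRange_cast.prodMap hdense
    have := hd.induction_on (p := fun z : ℝ × (ℝ × ℝ) =>
      F (z.1 * z.2.1, z.1 * z.2.2) = |z.1| * F z.2) (c, (s, t)) hcl (by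
        rintro ⟨c, p, q⟩
        simp only [Prod.map, he]
        have := hF' (c * p) (c * q)
        push_cast at this
        rw [this, hF', h1])
    exact this
  · intro s t s' t'
    have hcl : IsClosed {z : (ℝ × ℝ) × (ℝ × ℝ) | F (z.1.1 + z.2.1, z.1.2 + z.2.2) ≤
        F z.1 + F z.2} := by
      refine isClosed_le (hFc.comp (by fun_prop)) ?_
      exact (hFc.comp continuous_fst).add (hFc.comp continuous_snd)
    have hd : DenseRange (Prod.map e e) := hdense.prodMap hdense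
    have := hd.induction_on (p := fun z : (ℝ × ℝ) × (ℝ × ℝ) =>
      F (z.1.1 + z.2.1, z.1.2 + z.2.2) ≤ F z.1 + F z.2) ((s, t), (s', t')) hcl (by
        rintro ⟨⟨p, q⟩, p', q'⟩
        simp only [Prod.map, he]
        have := hF' (p + p') (q + q')
        push_cast at this
        rw [this, hF', hF']
        exact h2 _ _ _ _)
    exact this

end Vale.Agent.P233.Met
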