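import Vale.Agent.P233.MetPoly
import Vale.Agent.P233.MetSemi

open MeasureTheory Filter Topology Set
open scoped ENNReal NNReal

namespace Vale.Agent.P233.Met

variable {M : Type*} [MetricSpace M] [MeasurableSpace M] {m : Measure M}

set_option linter.unusedSectionVars false

/-- twice the Cheeger energy -/
noncomputable def Q (m : Measure M) (f : M → ℝ) : ℝ := ∫ x, (mslope m f x) ^ 2 ∂m

/-- the energy is a quadratic form -/
def Quad (m : Measure M) : Prop :=
  ∀ f g, W12 m f → W12 m g → Q m (f + g) + Q m (f - g) = 2 * Q m f + 2 * Q m g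

/-- the bilinear form -/
noncomputable def E (m : Measure M) (f g : M → ℝ) : ℝ := (Q m (f + g) - Q m (f - g)) / 4

variable [BorelSpace M]

theorem Q_neg {f : M → ℝ} (hf : W12 m f) : Q m (-f) = Q m f := by
  unfold Q
  refine integral_congr_ae ?_
  filter_upwards [mslope_neg hf] with x hx
  rw [hx]

theorem Q_sub_comm {f g : M → ℝ} (hf : W12 m f) (hg : W12 m g) : Q m (f - g) = Q m (g - f) := by
  rw [← Q_neg (hf.sub hg), neg_sub]

theorem Q_const_mul {f : M → ℝ} (c : ℝ) (hf : W12 m f) :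
    Q m (fun x => c * f x) = c ^ 2 * Q m f := by
  unfold Q
  rw [← integral_const_mul]
  refine integral_congr_ae ?_
  filter_upwards [mslope_const_mul c hf] with x hx
  rw [hx, mul_pow, sq_abs]

theorem Q_zero : Q m (0 : M → ℝ) = 0 := by
  have h1 := Q_const_mul 0 (W12.zero (m := m))
  have e : (fun x : M => (0 : ℝ) * (0 : M → ℝ) x) = 0 := by ext x; simp
  rw [e] at h1
  simpa using h1

theorem Q_nonneg (f : M → ℝ) : 0 ≤ Q m f := integral_nonneg fun x => sq_nonneg _

theorem E_symm {f g : M → ℝ} (hf : W12 m f) (hg : W12 m g) : E m f g = E m g f := by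
  unfold E
  rw [Q_sub_comm hf hg, add_comm]

/-- three term identity -/
theorem Q_three (hQ : Quad m) {f g h : M → ℝ} (hf : W12 m f) (hg : W12 m g) (hh : W12 m h) :
    Q m (f + g + h) = Q m (f + g) + Q m (g + h) + Q m (f + h) - Q m f - Q m g - Q m h := by
  have h1 := hQ (f + h) g (hf.add hh) hg
  have h2 := hQ (g + h) f (hg.add hh) hf
  have h3 := hQ (f - g) h (hf.sub hg) hh
  have h4 := hQ f g hf hg
  have e1 : f + h + g = f + g + h := by abel
  have e2 : g + h + f = f + g + h := by abel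
  have e3 : f + h - g = f - g + h := by abel
  have e4 : Q m (f - g - h) = Q m (g + h - f) := by
    rw [show f - g - h = -(g + h - f) by abel, Q_neg ((hg.add hh).sub hf)]
  rw [e1, e3] at h1
  rw [e2] at h2
  rw [e4] at h3
  linarith

theorem E_add_left (hQ : Quad m) {f g h : M → ℝ} (hf : W12 m f) (hh : W12 m h) (hg : W12 m g) :
    E m (f + h) g = E m f g + E m h g := by
  unfold E
  have h1 := Q_three hQ hf hh hg
  have h2 := Q_three hQ hf hh hg.neg
  have e1 : f + h + -g = f + h - g := by abel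
  have e2 : h + -g = h - g := by abel
  have e3 : f + -g = f - g := by abel
  rw [e1, e2, e3, Q_neg hg] at h2
  rw [h1, h2]
  ring

theorem E_add_right (hQ : Quad m) {f g h : M → ℝ} (hg : W12 m g) (hf : W12 m f) (hh : W12 m h) :
    E m g (f + h) = E m g f + E m g h := by
  rw [E_symm hg (hf.add hh), E_add_left hQ hf hh hg, E_symm hf hg, E_symm hh hg]

theorem E_neg_right (hQ : Quad m) {f g : M → ℝ} (hg : W12 m g) (hf : W12 m f) :
    E m g (-f) = -E m g f := by
  unfold E
  rw [sub_neg_eq_add, ← sub_eq_add_neg]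
  ring

theorem E_zero_right {g : M → ℝ} : E m g 0 = 0 := by
  unfold E
  simp

theorem E_nat_mul (hQ : Quad m) {f g : M → ℝ} (hg : W12 m g) (hf : W12 m f) (n : ℕ) :
    E m g (fun x => (n : ℝ) * f x) = n * E m g f := by
  induction n with
  | zero =>
    have e : (fun x => ((0 : ℕ) : ℝ) * f x) = 0 := by ext x; simp
    rw [e, E_zero_right]; simp
  | succ n ih =>
    have e : (fun x => ((n + 1 : ℕ) : ℝ) * f x) = (fun x => (n : ℝ) * f x) + f := by
      ext x; simp; ring
    rw [e, E_add_right hQ hg (hf.const_mul _) hf, ih]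
    push_cast; ring

theorem E_inv_mul (hQ : Quad m) {f g : M → ℝ} (hg : W12 m g) (hf : W12 m f) (n : ℕ) :
    E m g (fun x => (1 / ((n : ℝ) + 1)) * f x) = (1 / ((n : ℝ) + 1)) * E m g f := by
  have h1 := E_nat_mul hQ hg (hf.const_mul (1 / ((n : ℝ) + 1))) (n + 1)
  have e : (fun x => ((n + 1 : ℕ) : ℝ) * (1 / ((n : ℝ) + 1) * f x)) = f := by
    ext x
    push_cast
    field_simp
  rw [e] at h1
  rw [h1]
  push_cast
  field_simp

theorem Q_add (hQ : Quad m) {f g : M → ℝ} (hf : W12 m f) (hg : W12 m g) :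
    Q m (f + g) = Q m f + 2 * E m f g + Q m g := by
  have := hQ f g hf hg
  unfold E
  linarith

theorem Q_add_inv (hQ : Quad m) {f g : M → ℝ} (hf : W12 m f) (hg : W12 m g) (n : ℕ) :
    Q m (f + fun x => (1 / ((n : ℝ) + 1)) * g x) =
      Q m f + 2 * (1 / ((n : ℝ) + 1)) * E m f g + (1 / ((n : ℝ) + 1)) ^ 2 * Q m g := by
  rw [Q_add hQ hf (hg.const_mul _), E_inv_mul hQ hf hg, Q_const_mul _ hg]
  ring

/-- the pointwise seminorm generated by two Sobolev functions -/
theorem exists_semi {g h : M → ℝ} (hg : W12 m g) (hh : W12 m h) :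
    ∀ᵐ x ∂m, ∃ N : ℝ → ℝ → ℝ, IsSemi2 N ∧
      ∀ p q : ℚ, N p q = mslope m (fun y => (p : ℝ) * g y + (q : ℝ) * h y) x := by
  have hW : ∀ p q : ℚ, W12 m (fun y => (p : ℝ) * g y + (q : ℝ) * h y) := fun p q =>
    (hg.const_mul _).add (hh.const_mul _)
  have h1 : ∀ᵐ x ∂m, ∀ p q : ℚ, 0 ≤ mslope m (fun y => (p : ℝ) * g y + (q : ℝ) * h y) x := by
    rw [ae_all_iff]; intro p; rw [ae_all_iff]; intro q
    exact (hW p q).mslope_nonneg
  have h2 : ∀ᵐ x ∂m, ∀ c p q : ℚ,
      mslope m (fun y => ((c * p : ℚ) : ℝ) * g y + ((c * q : ℚ) : ℝ) * h y) x =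
      |(c : ℝ)| * mslope m (fun y => (p : ℝ) * g y + (q : ℝ) * h y) x := by
    rw [ae_all_iff]; intro c; rw [ae_all_iff]; intro p; rw [ae_all_iff]; intro q
    have e : (fun y => ((c * p : ℚ) : ℝ) * g y + ((c * q : ℚ) : ℝ) * h y) =
        fun y => (c : ℝ) * ((p : ℝ) * g y + (q : ℝ) * h y) := by
      ext y; push_cast; ring
    rw [e]
    exact mslope_const_mul (c : ℝ) (hW p q)
  have h3 : ∀ᵐ x ∂m, ∀ p q p' q' : ℚ,
      mslope m (fun y => ((p + p' : ℚ) : ℝ) * g y + ((q + q' : ℚ) : ℝ) * h y) x ≤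
      mslope m (fun y => (p : ℝ) * g y + (q : ℝ) * h y) x +
      mslope m (fun y => (p' : ℝ) * g y + (q' : ℝ) * h y) x := by
    rw [ae_all_iff]; intro p; rw [ae_all_iff]; intro q
    rw [ae_all_iff]; intro p'; rw [ae_all_iff]; intro q'
    have e : (fun y => ((p + p' : ℚ) : ℝ) * g y + ((q + q' : ℚ) : ℝ) * h y) =
        (fun y => (p : ℝ) * g y + (q : ℝ) * h y) + (fun y => (p' : ℝ) * g y + (q' : ℝ) * h y) := by
      ext y; simp; ring
    rw [e]
    exact mslope_add_le (hW p q) (hW p' q')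
  filter_upwards [h1, h2, h3] with x hx1 hx2 hx3
  obtain ⟨N, hN, hN'⟩ := exists_semi2_ext
    (fun p q => mslope m (fun y => (p : ℝ) * g y + (q : ℝ) * h y) x) hx1 hx2 hx3
  exact ⟨N, hN, hN'⟩

/-- freezing of coefficients -/
theorem mslope_poly {g h : M → ℝ} (hg : W12 m g) (hh : W12 m h) {C D : ℝ}
    (hC : 0 ≤ C) (hD : 0 ≤ D) (hgC : ∀ᵐ x ∂m, |g x| ≤ C) (hhD : ∀ᵐ x ∂m, |h x| ≤ D)
    (α β γ δ : ℝ) :
    W12 m (fun y => α * g y + β * h y + γ * (g y * h y) + δ * (g y * g y)) ∧
    ∀ᵐ x ∂m, ∀ N : ℝ → ℝ → ℝ, IsSemi2 N →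
      (∀ p q : ℚ, N p q = mslope m (fun y => (p : ℝ) * g y + (q : ℝ) * h y) x) →
      mslope m (fun y => α * g y + β * h y + γ * (g y * h y) + δ * (g y * g y)) x =
        N (α + γ * h x + 2 * δ * g x) (β + γ * g x) := by
  have hP : ∀ α β : ℝ, W12 m (fun y => α * g y + β * h y + γ * (g y * h y) + δ * (g y * g y)) :=
    fun α β => ⟨_, RSlope.poly hg.rSlope hh.rSlope hC hD hgC hhD α β γ δ⟩
  refine ⟨hP α β, ?_⟩
  have hW : ∀ p q : ℚ, W12 m (fun y => (p : ℝ) * g y + (q : ℝ) * h y) := fun p q =>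
    (hg.const_mul _).add (hh.const_mul _)
  have h1 : ∀ᵐ x ∂m, ∀ p q : ℚ,
      |mslope m (fun y => α * g y + β * h y + γ * (g y * h y) + δ * (g y * g y)) x -
        mslope m (fun y => (p : ℝ) * g y + (q : ℝ) * h y) x| ≤
      |α - p + γ * h x + 2 * δ * g x| * mslope m g x + |β - q + γ * g x| * mslope m h x := by
    rw [ae_all_iff]; intro p; rw [ae_all_iff]; intro q
    have e : (fun y => α * g y + β * h y + γ * (g y * h y) + δ * (g y * g y)) -
        (fun y => (p : ℝ) * g y + (q : ℝ) * h y) =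
        fun y => (α - p) * g y + (β - q) * h y + γ * (g y * h y) + δ * (g y * g y) := by
      ext y; simp; ring
    have h2 := abs_mslope_sub_le (hP α β) (hW p q)
    rw [e] at h2
    filter_upwards [h2, (RSlope.poly hg.rSlope hh.rSlope hC hD hgC hhD
      (α - p) (β - q) γ δ).mslope_le] with x hx hy
    exact hx.trans hy
  filter_upwards [h1] with x hx N hN hNe
  have hA : N 1 0 = mslope m g x := by
    have := hNe 1 0
    simpa using this
  have hB : N 0 1 = mslope m h x := by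
    have := hNe 0 1
    simpa using this
  set s := α + γ * h x + 2 * δ * g x with hs
  set t := β + γ * g x with ht
  set P := mslope m (fun y => α * g y + β * h y + γ * (g y * h y) + δ * (g y * g y)) x with hPdef
  have hA0 : 0 ≤ N 1 0 := hN.nonneg _ _
  have hB0 : 0 ≤ N 0 1 := hN.nonneg _ _
  have key : ∀ p q : ℚ, |P - N s t| ≤ 2 * (|s - p| * N 1 0 + |t - q| * N 0 1) := by
    intro p q
    have h2 := hx p q
    rw [← hNe p q] at h2
    have e1 : α - p + γ * h x + 2 * δ * g x = s - p := by rw [hs]; ring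
    have e2 : β - q + γ * g x = t - q := by rw [ht]; ring
    rw [e1, e2, ← hA, ← hB] at h2
    have h3 := (hN.abs_sub_le (p : ℝ) (q : ℝ) s t).trans (hN.le_coord _ _)
    rw [abs_sub_comm (p : ℝ) s, abs_sub_comm (q : ℝ) t] at h3
    have h4 : |P - N s t| ≤ |P - N p q| + |N p q - N s t| := by
      have := abs_add_le (P - N p q) (N p q - N s t)
      simpa using this
    linarith
  have h0 : |P - N s t| ≤ 0 := by
    refine le_of_forall_pos_le_add fun ε hε => ?_
    obtain ⟨η, hη, hη2⟩ : ∃ η > 0, 2 * (η * N 1 0 + η * N 0 1) ≤ ε := by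
      refine ⟨ε / (2 * (N 1 0 + N 0 1 + 1)), by positivity, ?_⟩
      have : 2 * (ε / (2 * (N 1 0 + N 0 1 + 1)) * N 1 0 +
          ε / (2 * (N 1 0 + N 0 1 + 1)) * N 0 1) =
          ε * ((N 1 0 + N 0 1) / (N 1 0 + N 0 1 + 1)) := by field_simp
      rw [this]
      have h5 : (N 1 0 + N 0 1) / (N 1 0 + N 0 1 + 1) ≤ 1 := by
        rw [div_le_one (by positivity)]; linarith
      nlinarith
    obtain ⟨p, hp1, hp2⟩ := exists_rat_btwn (show s - η < s by linarith)
    obtain ⟨q, hq1, hq2⟩ := exists_rat_btwn (show t - η < t by linarith)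
    have h5 := key p q
    have h6 : |s - p| ≤ η := by rw [abs_le]; constructor <;> linarith
    have h7 : |t - q| ≤ η := by rw [abs_le]; constructor <;> linarith
    have h8 : |s - p| * N 1 0 + |t - q| * N 0 1 ≤ η * N 1 0 + η * N 0 1 := by gcongr
    linarith
  have := abs_nonpos_iff.1 h0
  linarith

/-- energy density formula -/
theorem energy_density (hQ : Quad m) {g h : M → ℝ} (hg : W12 m g) (hh : W12 m h) {C D : ℝ}
    (hC : 0 ≤ C) (hD : 0 ≤ D) (hgC : ∀ᵐ x ∂m, |g x| ≤ C) (hhD : ∀ᵐ x ∂m, |h x| ≤ D) :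
    ∫ x, h x * (mslope m g x) ^ 2 ∂m =
      E m g (fun x => g x * h x) - E m (fun x => g x * g x) h / 2 := by
  set ε : ℕ → ℝ := fun n => 1 / ((n : ℝ) + 1) with hε
  have hεpos : ∀ n, 0 < ε n := fun n => by positivity
  have hε1 : ∀ n, ε n ≤ 1 := fun n => by
    simp only [hε]
    rw [div_le_one (by positivity)]
    have : (0 : ℝ) ≤ n := by positivity
    linarith
  have hεlim : Tendsto ε atTop (𝓝 0) := tendsto_one_div_add_atTop_nhds_zero_nat
  have hεlim' : Tendsto ε atTop (𝓝[>] 0) := by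
    rw [tendsto_nhdsWithin_iff]
    exact ⟨hεlim, Eventually.of_forall hεpos⟩
  -- the functions
  set P1 : ℕ → M → ℝ := fun n y => g y + ε n * (g y * h y) with hP1
  set P2 : ℕ → M → ℝ := fun n y => g y * g y + ε n * h y with hP2
  set P3 : M → ℝ := fun y => g y * g y with hP3
  have e1 : ∀ n, (fun y => (1 : ℝ) * g y + 0 * h y + ε n * (g y * h y) + 0 * (g y * g y)) =
      P1 n := by intro n; ext y; simp [hP1]
  have e2 : ∀ n, (fun y => (0 : ℝ) * g y + ε n * h y + 0 * (g y * h y) + 1 * (g y * g y)) =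
      P2 n := by intro n; ext y; simp [hP2]; ring
  have e3 : (fun y => (0 : ℝ) * g y + 0 * h y + 0 * (g y * h y) + 1 * (g y * g y)) = P3 := by
    ext y; simp [hP3]
  have e4 : (fun y => (0 : ℝ) * g y + 0 * h y + 1 * (g y * h y) + 0 * (g y * g y)) =
      fun y => g y * h y := by
    ext y; simp
  have hp1 := fun n => mslope_poly hg hh hC hD hgC hhD 1 0 (ε n) 0
  have hp2 := fun n => mslope_poly hg hh hC hD hgC hhD 0 (ε n) 0 1
  have hp3 := mslope_poly hg hh hC hD hgC hhD 0 0 0 1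
  have hp4 := mslope_poly hg hh hC hD hgC hhD 0 0 1 0
  simp only [e1] at hp1
  simp only [e2] at hp2
  rw [e3] at hp3
  rw [e4] at hp4
  have hW1 : ∀ n, W12 m (P1 n) := fun n => (hp1 n).1
  have hW2 : ∀ n, W12 m (P2 n) := fun n => (hp2 n).1
  have hW3 : W12 m P3 := hp3.1
  have hW4 : W12 m (fun y => g y * h y) := hp4.1
  have hae1 : ∀ᵐ x ∂m, ∀ n, ∀ N : ℝ → ℝ → ℝ, IsSemi2 N →
      (∀ p q : ℚ, N p q = mslope m (fun y => (p : ℝ) * g y + (q : ℝ) * h y) x) →
      mslope m (P1 n) x = N (1 + ε n * h x) (ε n * g x) := by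
    rw [ae_all_iff]; intro n
    filter_upwards [(hp1 n).2] with x hx N hN hNe
    rw [hx N hN hNe]
    congr 1 <;> ring
  have hae2 : ∀ᵐ x ∂m, ∀ n, ∀ N : ℝ → ℝ → ℝ, IsSemi2 N →
      (∀ p q : ℚ, N p q = mslope m (fun y => (p : ℝ) * g y + (q : ℝ) * h y) x) →
      mslope m (P2 n) x = N (2 * g x) (ε n) := by
    rw [ae_all_iff]; intro n
    filter_upwards [(hp2 n).2] with x hx N hN hNe
    rw [hx N hN hNe]
    congr 1 <;> ring
  have hae3 : ∀ᵐ x ∂m, ∀ N : ℝ → ℝ → ℝ, IsSemi2 N →
      (∀ p q : ℚ, N p q = mslope m (fun y => (p : ℝ) * g y + (q : ℝ) * h y) x) →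
      mslope m P3 x = N (2 * g x) 0 := by
    filter_upwards [hp3.2] with x hx N hN hNe
    rw [hx N hN hNe]
    congr 1 <;> ring
  -- the integrands
  set a : ℕ → M → ℝ := fun n x => (mslope m (P1 n) x ^ 2 - mslope m g x ^ 2) / (2 * ε n) with ha
  set b : ℕ → M → ℝ := fun n x => (mslope m (P2 n) x ^ 2 - mslope m P3 x ^ 2) / (4 * ε n) with hb
  have hsq : ∀ {f : M → ℝ}, W12 m f → Integrable (fun x => mslope m f x ^ 2) m := fun hf =>
    hf.memLp_mslope.integrable_sq
  have hia : ∀ n, Integrable (a n) m := fun n => ((hsq (hW1 n)).sub (hsq hg)).div_const _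
  have hib : ∀ n, Integrable (b n) m := fun n => ((hsq (hW2 n)).sub (hsq hW3)).div_const _
  have hlimab : Tendsto (fun n => ∫ x, (a n x - b n x) ∂m) atTop
      (𝓝 (∫ x, h x * (mslope m g x) ^ 2 ∂m)) := by
    refine tendsto_integral_of_dominated_convergence
      (fun x => (D * mslope m g x + C * mslope m h x) *
        (2 * mslope m g x + (D * mslope m g x + C * mslope m h x)) +
        mslope m h x * (4 * C * mslope m g x + mslope m h x)) ?_ ?_ ?_ ?_
    · intro n
      exact ((hia n).sub (hib n)).aestronglyMeasurable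
    · have hA := hg.memLp_mslope
      have hB := hh.memLp_mslope
      have i1 : MemLp (fun x => D * mslope m g x + C * mslope m h x) 2 m :=
        (hA.const_mul D).add (hB.const_mul C)
      have i2 : MemLp (fun x => 2 * mslope m g x + (D * mslope m g x + C * mslope m h x)) 2 m :=
        (hA.const_mul 2).add i1
      have i3 : MemLp (fun x => 4 * C * mslope m g x + mslope m h x) 2 m :=
        (hA.const_mul (4 * C)).add hB
      exact (i1.integrable_mul i2).add (hB.integrable_mul i3)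
    · intro n
      filter_upwards [exists_semi hg hh, hae1, hae2, hae3, hgC, hhD] with x hx h1 h2 h3 hgx hhx
      obtain ⟨N, hN, hNe⟩ := hx
      have hA : N 1 0 = mslope m g x := by simpa using hNe 1 0
      have hB : N 0 1 = mslope m h x := by simpa using hNe 0 1
      have b1 := hN.bound_a (g x) (h x) (hεpos n) (hε1 n)
      have b2 := hN.bound_b (g x) (hεpos n) (hε1 n)
      rw [← h1 n N hN hNe, hA, hB] at b1
      rw [← h2 n N hN hNe, ← h3 N hN hNe, hA, hB] at b2
      have hA0 : 0 ≤ mslope m g x := hA ▸ hN.nonneg _ _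
      have hB0 : 0 ≤ mslope m h x := hB ▸ hN.nonneg _ _
      rw [Real.norm_eq_abs]
      refine (abs_sub _ _).trans (add_le_add (b1.trans ?_) (b2.trans ?_))
      · gcongr
      · gcongr
    · filter_upwards [exists_semi hg hh, hae1, hae2, hae3] with x hx h1 h2 h3
      obtain ⟨N, hN, hNe⟩ := hx
      have hA : N 1 0 = mslope m g x := by simpa using hNe 1 0
      have h4 := (hN.key (g x) (h x)).comp hεlim'
      rw [hA] at h4
      refine h4.congr fun n => ?_
      simp only [ha, hb, Function.comp_apply]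
      rw [h1 n N hN hNe, h2 n N hN hNe, h3 N hN hNe]
  have hval : ∀ n, ∫ x, (a n x - b n x) ∂m =
      E m g (fun x => g x * h x) + ε n / 2 * Q m (fun x => g x * h x) -
      (E m P3 h / 2 + ε n / 4 * Q m h) := by
    intro n
    rw [integral_sub (hia n) (hib n)]
    have i1 : ∫ x, a n x ∂m = (Q m (P1 n) - Q m g) / (2 * ε n) := by
      simp only [ha]
      rw [integral_div, integral_sub (hsq (hW1 n)) (hsq hg)]
      rfl
    have i2 : ∫ x, b n x ∂m = (Q m (P2 n) - Q m P3) / (4 * ε n) := by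
      simp only [hb]
      rw [integral_div, integral_sub (hsq (hW2 n)) (hsq hW3)]
      rfl
    have f1 : P1 n = g + fun x => (1 / ((n : ℝ) + 1)) * (g x * h x) := by
      ext y; simp [hP1, hε]
    have f2 : P2 n = P3 + fun x => (1 / ((n : ℝ) + 1)) * h x := by
      ext y; simp [hP2, hP3, hε]
    have q1 : Q m (P1 n) = Q m g + 2 * ε n * E m g (fun x => g x * h x) +
        ε n ^ 2 * Q m (fun x => g x * h x) := by
      rw [f1, Q_add_inv hQ hg hW4]
    have q2 : Q m (P2 n) = Q m P3 + 2 * ε n * E m P3 h + ε n ^ 2 * Q m h := by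
      rw [f2, Q_add_inv hQ hW3 hh]
    rw [i1, i2, q1, q2]
    have := (hεpos n).ne'
    field_simp
    ring
  have hlim2 : Tendsto (fun n => E m g (fun x => g x * h x) + ε n / 2 * Q m (fun x => g x * h x) -
      (E m P3 h / 2 + ε n / 4 * Q m h)) atTop
      (𝓝 (E m g (fun x => g x * h x) - E m P3 h / 2)) := by
    have h5 := (((hεlim.div_const 2).mul_const (Q m (fun x => g x * h x))).const_add
      (E m g (fun x => g x * h x))).sub (((hεlim.div_const 4).mul_const (Q m h)).const_add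
      (E m P3 h / 2))
    simpa using h5
  simp only [hval] at hlimab
  exact tendsto_nhds_unique hlimab hlim2

end Vale.Agent.P233.Met
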