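import Vale.Agent.P233.MetPar

open MeasureTheory Filter Topology Set
open scoped ENNReal NNReal

namespace Vale.Agent.P233.Met

variable {M : Type*} [MetricSpace M] [MeasurableSpace M] {m : Measure M}

set_option linter.unusedSectionVars false

/-- the polarization of `|Df|²` -/
noncomputable def gam (m : Measure M) (f g : M → ℝ) (x : M) : ℝ :=
  (mslope m (f + g) x ^ 2 - mslope m (f - g) x ^ 2) / 4

variable [BorelSpace M]

theorem gam_congr {f g f' g' : M → ℝ} (hf : W12 m f) (hg : W12 m g) (hff' : f =ᵐ[m] f')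
    (hgg' : g =ᵐ[m] g') : gam m f g =ᵐ[m] gam m f' g' := by
  have h1 : f + g =ᵐ[m] f' + g' := hff'.add hgg'
  have h2 : f - g =ᵐ[m] f' - g' := hff'.sub hgg'
  filter_upwards [mslope_congr h1 (hf.add hg), mslope_congr h2 (hf.sub hg)] with x hx hy
  unfold gam
  rw [hx, hy]

theorem gam_self {f : M → ℝ} (hf : W12 m f) : ∀ᵐ x ∂m, gam m f f x = mslope m f x ^ 2 := by
  have e1 : f + f = fun x => 2 * f x := by ext x; simp; ring
  filter_upwards [mslope_const_mul 2 hf, mslope_zero (m := m)] with x hx hy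
  unfold gam
  rw [sub_self, hy, e1, hx]
  simp
  ring

theorem gam_symm {f g : M → ℝ} (hf : W12 m f) (hg : W12 m g) :
    ∀ᵐ x ∂m, gam m f g x = gam m g f x := by
  filter_upwards [mslope_neg (hf.sub hg)] with x hx
  rw [neg_sub] at hx
  unfold gam
  rw [add_comm g f, hx]

theorem abs_gam_le {f g : M → ℝ} (hf : W12 m f) (hg : W12 m g) :
    ∀ᵐ x ∂m, |gam m f g x| ≤ mslope m f x * mslope m g x := by
  have h5 := abs_mslope_sub_le hf hg.neg
  rw [sub_neg_eq_add] at h5
  filter_upwards [mslope_add_le hf hg, mslope_sub_le hf hg, abs_mslope_sub_le hf hg, h5,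
    mslope_neg hg, hf.mslope_nonneg, hg.mslope_nonneg, (hf.add hg).mslope_nonneg,
    (hf.sub hg).mslope_nonneg] with x a1 a2 a3 a4 a5 a6 a7 a8 a9
  rw [a5] at a4
  unfold gam
  have b1 : mslope m (f + g) x ^ 2 ≤ (mslope m f x + mslope m g x) ^ 2 := by gcongr
  have b2 : mslope m (f - g) x ^ 2 ≤ (mslope m f x + mslope m g x) ^ 2 := by gcongr
  have b3 : (mslope m f x - mslope m g x) ^ 2 ≤ mslope m (f - g) x ^ 2 := by
    rw [← sq_abs (mslope m f x - mslope m g x)]; gcongr
  have b4 : (mslope m f x - mslope m g x) ^ 2 ≤ mslope m (f + g) x ^ 2 := by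
    rw [← sq_abs (mslope m f x - mslope m g x)]; gcongr
  rw [abs_le]
  constructor <;> nlinarith

theorem mslope_three (hfin : ∀ (x : M) (r : ℝ), m (Metric.ball x r) < ∞) (hQ : Quad m)
    {f g h : M → ℝ} (hf : W12 m f) (hg : W12 m g) (hh : W12 m h) :
    ∀ᵐ x ∂m, mslope m (f + g + h) x ^ 2 = mslope m (f + g) x ^ 2 + mslope m (g + h) x ^ 2 +
      mslope m (f + h) x ^ 2 - mslope m f x ^ 2 - mslope m g x ^ 2 - mslope m h x ^ 2 := by
  have h1 := parallelogram hfin hQ (hf.add hh) hg
  have h2 := parallelogram hfin hQ (hg.add hh) hf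
  have h3 := parallelogram hfin hQ (hf.sub hg) hh
  have h4 := parallelogram hfin hQ hf hg
  have e1 : f + h + g = f + g + h := by abel
  have e2 : g + h + f = f + g + h := by abel
  have e3 : f + h - g = f - g + h := by abel
  have e4 : f - g - h = -(g + h - f) := by abel
  rw [e1, e3] at h1
  rw [e2] at h2
  rw [e4] at h3
  filter_upwards [h1, h2, h3, h4, mslope_neg ((hg.add hh).sub hf)] with x a1 a2 a3 a4 a5
  rw [a5] at a3
  linarith

theorem gam_add_left (hfin : ∀ (x : M) (r : ℝ), m (Metric.ball x r) < ∞) (hQ : Quad m)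
    {f g h : M → ℝ} (hf : W12 m f) (hg : W12 m g) (hh : W12 m h) :
    ∀ᵐ x ∂m, gam m (f + g) h x = gam m f h x + gam m g h x := by
  have h2 := mslope_three hfin hQ hf hg hh.neg
  have e1 : f + g + -h = f + g - h := by abel
  have e2 : g + -h = g - h := by abel
  have e3 : f + -h = f - h := by abel
  rw [e1, e2, e3] at h2
  filter_upwards [mslope_three hfin hQ hf hg hh, h2, mslope_neg hh] with x a1 a2 a3
  unfold gam
  rw [a3] at a2
  rw [a1, a2]
  ring

theorem gam_neg_left {f g : M → ℝ} (hf : W12 m f) (hg : W12 m g) :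
    ∀ᵐ x ∂m, gam m (-f) g x = -gam m f g x := by
  have e1 : -f + g = -(f - g) := by abel
  have e2 : -f - g = -(f + g) := by abel
  filter_upwards [mslope_neg (hf.sub hg), mslope_neg (hf.add hg)] with x a1 a2
  unfold gam
  rw [e1, e2, a1, a2]
  ring

theorem gam_nat_mul (hfin : ∀ (x : M) (r : ℝ), m (Metric.ball x r) < ∞) (hQ : Quad m)
    {f g : M → ℝ} (hf : W12 m f) (hg : W12 m g) (n : ℕ) :
    ∀ᵐ x ∂m, gam m (fun y => (n : ℝ) * f y) g x = n * gam m f g x := by
  induction n with
  | zero =>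
    have e : (fun y => ((0 : ℕ) : ℝ) * f y) = 0 := by ext y; simp
    rw [e]
    filter_upwards [mslope_neg hg] with x hx
    unfold gam
    rw [zero_add, zero_sub, hx]
    simp
  | succ n ih =>
    have e : (fun y => ((n + 1 : ℕ) : ℝ) * f y) = (fun y => (n : ℝ) * f y) + f := by
      ext y; simp; ring
    rw [e]
    filter_upwards [ih, gam_add_left hfin hQ (hf.const_mul (n : ℝ)) hf hg] with x hx hy
    rw [hy, hx]
    push_cast; ring

theorem gam_rat_mul (hfin : ∀ (x : M) (r : ℝ), m (Metric.ball x r) < ∞) (hQ : Quad m)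
    {f g : M → ℝ} (hf : W12 m f) (hg : W12 m g) (q : ℚ) :
    ∀ᵐ x ∂m, gam m (fun y => (q : ℝ) * f y) g x = q * gam m f g x := by
  -- nonnegative case
  have key : ∀ q : ℚ, 0 ≤ q → ∀ᵐ x ∂m, gam m (fun y => (q : ℝ) * f y) g x = q * gam m f g x := by
    intro q hq
    have hden : (q.den : ℝ) ≠ 0 := by exact_mod_cast q.den_nz
    obtain ⟨k, hk⟩ : ∃ k : ℕ, q.num = k := Int.eq_ofNat_of_zero_le (Rat.num_nonneg.2 hq)
    have hqk : (q : ℝ) * q.den = k := by
      have h1 : q * q.den = q.num := Rat.mul_den_eq_num q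
      rw [hk] at h1
      exact_mod_cast h1
    have h1 := gam_nat_mul hfin hQ (hf.const_mul (q : ℝ)) hg q.den
    have h2 := gam_nat_mul hfin hQ hf hg k
    have e : (fun y => ((q.den : ℕ) : ℝ) * ((q : ℝ) * f y)) = fun y => (k : ℝ) * f y := by
      ext y
      rw [← hqk]; ring
    rw [e] at h1
    filter_upwards [h1, h2] with x a1 a2
    rw [a1] at a2
    have : (q.den : ℝ) * gam m (fun y => (q : ℝ) * f y) g x = (q.den : ℝ) * (q * gam m f g x) := by
      rw [a2, ← hqk]; ring
    exact mul_left_cancel₀ hden this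
  rcases le_total 0 q with hq | hq
  · exact key q hq
  · have h1 := key (-q) (by linarith)
    have e : (fun y => (q : ℝ) * f y) = -(fun y => ((-q : ℚ) : ℝ) * f y) := by
      ext y; simp
    rw [e]
    filter_upwards [h1, gam_neg_left (hf.const_mul ((-q : ℚ) : ℝ)) hg] with x a1 a2
    rw [a2, a1]
    push_cast; ring

theorem gam_const_mul (hfin : ∀ (x : M) (r : ℝ), m (Metric.ball x r) < ∞) (hQ : Quad m)
    {f g : M → ℝ} (hf : W12 m f) (hg : W12 m g) (c : ℝ) :
    ∀ᵐ x ∂m, gam m (fun y => c * f y) g x = c * gam m f g x := by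
  have h1 : ∀ᵐ x ∂m, ∀ q : ℚ, gam m (fun y => (q : ℝ) * f y) g x = q * gam m f g x := by
    rw [ae_all_iff]; intro q; exact gam_rat_mul hfin hQ hf hg q
  have h2 : ∀ᵐ x ∂m, ∀ q : ℚ, |gam m (fun y => (c - q) * f y) g x| ≤
      |c - q| * mslope m f x * mslope m g x := by
    rw [ae_all_iff]; intro q
    filter_upwards [abs_gam_le (hf.const_mul (c - q)) hg, mslope_const_mul (c - q) hf]
      with x a1 a2
    rwa [a2] at a1
  have h3 : ∀ᵐ x ∂m, ∀ q : ℚ, gam m (fun y => c * f y) g x =
      gam m (fun y => (c - q) * f y) g x + gam m (fun y => (q : ℝ) * f y) g x := by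
    rw [ae_all_iff]; intro q
    have e : (fun y => c * f y) = (fun y => (c - q) * f y) + (fun y => (q : ℝ) * f y) := by
      ext y; simp; ring
    rw [e]
    exact gam_add_left hfin hQ (hf.const_mul _) (hf.const_mul _) hg
  filter_upwards [h1, h2, h3, hf.mslope_nonneg, hg.mslope_nonneg] with x a1 a2 a3 a4 a5
  set G := gam m f g x
  set K := mslope m f x * mslope m g x + |G| with hK
  have hK0 : 0 ≤ K := by positivity
  have h0 : |gam m (fun y => c * f y) g x - c * G| ≤ 0 := by
    refine le_of_forall_pos_le_add fun ε hε => ?_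
    obtain ⟨q, hq1, hq2⟩ := exists_rat_btwn (show c - ε / (K + 1) < c by
      have : 0 < ε / (K + 1) := by positivity
      linarith)
    have hcq : |c - q| ≤ ε / (K + 1) := by rw [abs_le]; constructor <;> linarith
    have e : gam m (fun y => c * f y) g x - c * G =
        gam m (fun y => (c - q) * f y) g x - (c - q) * G := by
      rw [a3 q, a1 q]; ring
    rw [e]
    refine (abs_sub _ _).trans ?_
    rw [abs_mul]
    have h6 := a2 q
    calc _ ≤ |c - q| * mslope m f x * mslope m g x + |c - q| * |G| := by gcongr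
      _ = |c - q| * K := by rw [hK]; ring
      _ ≤ ε / (K + 1) * K := by gcongr
      _ = ε * (K / (K + 1)) := by ring
      _ ≤ ε * 1 := by
        gcongr
        rw [div_le_one (by positivity)]; linarith
      _ = 0 + ε := by ring
  have := abs_nonpos_iff.1 h0
  linarith

/-- chain rule -/
theorem gam_comp (hfin : ∀ (x : M) (r : ℝ), m (Metric.ball x r) < ∞) (hQ : Quad m)
    {f g : M → ℝ} (hf : W12 m f) (hg : W12 m g) {φ : ℝ → ℝ} (hφ : ContDiff ℝ 1 φ)
    (hφ0 : φ 0 = 0) {L : ℝ≥0} (hL : ∀ t, |deriv φ t| ≤ L) :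
    ∀ᵐ x ∂m, gam m (fun y => φ (f y)) g x = deriv φ (f x) * gam m f g x := by
  have hφf := hf.comp hφ hφ0 hL
  have h1 : ∀ᵐ x ∂m, ∀ q : ℚ, gam m (fun y => (q : ℝ) * f y) g x = q * gam m f g x := by
    rw [ae_all_iff]; intro q; exact gam_rat_mul hfin hQ hf hg q
  have hψ : ∀ q : ℚ, ContDiff ℝ 1 (fun t => φ t - q * t) := fun q =>
    hφ.sub (contDiff_const.mul contDiff_id)
  have hψd : ∀ (q : ℚ) t, deriv (fun t => φ t - q * t) t = deriv φ t - q := by
    intro q t
    have h1 : HasDerivAt (fun t : ℝ => (q : ℝ) * t) ((q : ℝ) * 1) t :=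
      (hasDerivAt_id t).const_mul (q : ℝ)
    have h2 : HasDerivAt φ (deriv φ t) t := (hφ.differentiable (by norm_num) t).hasDerivAt
    have h3 := (h2.sub h1).deriv
    rw [mul_one] at h3
    exact h3
  have hψL : ∀ (q : ℚ) t, |deriv (fun t => φ t - q * t) t| ≤ (L + Real.toNNReal |(q : ℝ)| : ℝ≥0) := by
    intro q t
    rw [hψd]
    refine (abs_sub _ _).trans ?_
    push_cast
    rw [Real.coe_toNNReal _ (abs_nonneg _)]
    gcongr
    exact hL t
  have hψ0 : ∀ q : ℚ, (fun t => φ t - q * t) 0 = 0 := by intro q; simp [hφ0]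
  have h2 : ∀ᵐ x ∂m, ∀ q : ℚ, |gam m (fun y => φ (f y) - q * f y) g x| ≤
      |deriv φ (f x) - q| * mslope m f x * mslope m g x := by
    rw [ae_all_iff]; intro q
    have hw := hf.comp (hψ q) (hψ0 q) (hψL q)
    filter_upwards [abs_gam_le hw hg, mslope_comp hf (hψ q) (hψ0 q) (hψL q)] with x a1 a2
    rw [hψd] at a2
    rw [a2] at a1
    exact a1
  have h3 : ∀ᵐ x ∂m, ∀ q : ℚ, gam m (fun y => φ (f y)) g x =
      gam m (fun y => φ (f y) - q * f y) g x + gam m (fun y => (q : ℝ) * f y) g x := by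
    rw [ae_all_iff]; intro q
    have e : (fun y => φ (f y)) = (fun y => φ (f y) - q * f y) + (fun y => (q : ℝ) * f y) := by
      ext y; simp
    have hw := hf.comp (hψ q) (hψ0 q) (hψL q)
    have := gam_add_left hfin hQ hw (hf.const_mul (q : ℝ)) hg
    rw [← e] at this
    exact this
  filter_upwards [h1, h2, h3, hf.mslope_nonneg, hg.mslope_nonneg] with x a1 a2 a3 a4 a5
  set G := gam m f g x
  set c := deriv φ (f x)
  set K := mslope m f x * mslope m g x + |G| with hK
  have hK0 : 0 ≤ K := by positivity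
  have h0 : |gam m (fun y => φ (f y)) g x - c * G| ≤ 0 := by
    refine le_of_forall_pos_le_add fun ε hε => ?_
    obtain ⟨q, hq1, hq2⟩ := exists_rat_btwn (show c - ε / (K + 1) < c by
      have : 0 < ε / (K + 1) := by positivity
      linarith)
    have hcq : |c - q| ≤ ε / (K + 1) := by rw [abs_le]; constructor <;> linarith
    have e : gam m (fun y => φ (f y)) g x - c * G =
        gam m (fun y => φ (f y) - q * f y) g x - (c - q) * G := by
      rw [a3 q, a1 q]; ring
    rw [e]
    refine (abs_sub _ _).trans ?_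
    rw [abs_mul]
    have h6 := a2 q
    calc _ ≤ |c - q| * mslope m f x * mslope m g x + |c - q| * |G| := by gcongr
      _ = |c - q| * K := by rw [hK]; ring
      _ ≤ ε / (K + 1) * K := by gcongr
      _ = ε * (K / (K + 1)) := by ring
      _ ≤ ε * 1 := by
        gcongr
        rw [div_le_one (by positivity)]; linarith
      _ = 0 + ε := by ring
  have := abs_nonpos_iff.1 h0
  linarith

end Vale.Agent.P233.Met
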