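import Vale.Agent.P233.MetRelaxed

open MeasureTheory Filter Topology Set
open scoped ENNReal NNReal

namespace Vale.Agent.P233.Met

variable {M : Type*} [MetricSpace M] [MeasurableSpace M] {m : Measure M}

set_option linter.unusedSectionVars false

/-- truncation at height `n` -/
def trunc (n : ℝ) (t : ℝ) : ℝ := max (min t n) (-n)

theorem trunc_lip (n : ℝ) : LipschitzWith 1 (trunc n) := by
  unfold trunc
  exact (LipschitzWith.id.min_const n).max_const (-n)

theorem abs_trunc_sub_le (n s t : ℝ) : |trunc n s - trunc n t| ≤ |s - t| := by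
  have := (trunc_lip n).dist_le_mul s t
  simpa [Real.dist_eq] using this

theorem abs_trunc_le {n : ℝ} (hn : 0 ≤ n) (t : ℝ) : |trunc n t| ≤ n := by
  unfold trunc
  rw [abs_le]
  constructor
  · exact le_max_right _ _
  · exact max_le (min_le_right _ _) (by linarith)

theorem trunc_of_abs_le {n t : ℝ} (h : |t| ≤ n) : trunc n t = t := by
  unfold trunc
  rw [abs_le] at h
  rw [min_eq_left h.2, max_eq_left h.1]

theorem abs_trunc_le_abs {n : ℝ} (hn : 0 ≤ n) (t : ℝ) : |trunc n t| ≤ |t| := by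
  have h0 : trunc n 0 = 0 := trunc_of_abs_le (by simpa using hn)
  have := abs_trunc_sub_le n t 0
  simpa [h0] using this

theorem LipBd.trunc {f : M → ℝ} {x : M} {a : ℝ} (n : ℝ) (hf : LipBd f x a) :
    LipBd (fun y => trunc n (f y)) x a := by
  intro c hc
  filter_upwards [hf c hc] with y hy
  exact (abs_trunc_sub_le n _ _).trans hy

theorem Good.trunc {u g : M → ℝ} {n : ℝ} (hn : 0 ≤ n) (h : Good m u g) :
    Good m (fun x => trunc n (u x)) g := by
  refine Good.mk' (h.1.comp (trunc_lip n)) ?_ h.2.2.1 ?_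
  · refine h.2.1.mono ((trunc_lip n).continuous.comp_aestronglyMeasurable h.2.1.1) ?_
    filter_upwards with x
    simpa using abs_trunc_le_abs hn (u x)
  · filter_upwards [h.lipBd] with x hx
    exact ⟨hx.1, hx.2.trunc n⟩

theorem tendsto_trunc {f : M → ℝ} (hf : MemLp f 2 m) :
    Tendsto (fun k : ℕ => eLpNorm ((fun x => trunc k (f x)) - f) 2 m) atTop (𝓝 0) := by
  refine tendsto_eLpNorm_zero_of_dominated (B := fun x => 2 * |f x|) (hf.abs.const_mul 2) ?_ ?_ ?_
  · intro k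
    exact ((trunc_lip k).continuous.comp_aestronglyMeasurable hf.1).sub hf.1
  · intro k
    filter_upwards with x
    simp only [Pi.sub_apply]
    have h1 := abs_trunc_le_abs (n := (k : ℝ)) (by positivity) (f x)
    have h2 := abs_sub (trunc (k : ℝ) (f x)) (f x)
    linarith
  · filter_upwards with x
    obtain ⟨N, hN⟩ := exists_nat_ge |f x|
    refine tendsto_const_nhds.congr' ?_
    filter_upwards [eventually_ge_atTop N] with k hk
    have : |f x| ≤ (k : ℝ) := hN.trans (by exact_mod_cast hk)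
    simp [trunc_of_abs_le this]

/-- bounded approximating pairs -/
theorem RSlope.exists_bdd {f G : M → ℝ} (h : RSlope m f G) {ε : ℝ≥0∞}
    (hε : ε ≠ 0) : ∃ u g : M → ℝ, Good m u g ∧ (∃ C, ∀ x, |u x| ≤ C) ∧
      eLpNorm (u - f) 2 m ≤ ε ∧ eLpNorm (g - G) 2 m ≤ ε := by
  have hε2 : ε / 2 ≠ 0 := by simpa using hε
  obtain ⟨u, g, h1, h2, h3⟩ := (rSlope_iff_eps.1 h).2.2 (ε / 2) hε2
  have e1 := ((tendsto_trunc h1.2.1).eventually (ge_mem_nhds (pos_iff_ne_zero.2 hε2)))
  obtain ⟨k, hk⟩ := e1.exists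
  refine ⟨fun x => Met.trunc k (u x), g, h1.trunc (by positivity),
    ⟨k, fun x => abs_trunc_le (by positivity) _⟩, ?_, h3.trans ENNReal.half_le_self⟩
  have : (fun x => Met.trunc k (u x)) - f = ((fun x => Met.trunc k (u x)) - u) + (u - f) := by
    simp
  rw [this]
  refine (eLpNorm_add_le
    (((trunc_lip k).continuous.comp_aestronglyMeasurable h1.2.1.1).sub h1.2.1.1)
    (h1.2.1.1.sub h.1.1) (by norm_num)).trans ?_
  calc _ ≤ ε / 2 + ε / 2 := by gcongr
    _ = ε := ENNReal.add_halves ε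

theorem LipBd.glue {u v χ : M → ℝ} {x : M} {a b K : ℝ} (ha : 0 ≤ a) (hb : 0 ≤ b) (hK : 0 ≤ K)
    (hχ0 : ∀ y, 0 ≤ χ y) (hχ1 : ∀ y, χ y ≤ 1) (hχc : ContinuousAt χ x) (hχ : LipBd χ x K)
    (hu : LipBd u x a) (hv : LipBd v x b) :
    LipBd (fun y => χ y * u y + (1 - χ y) * v y) x
      (χ x * a + (1 - χ x) * b + K * |u x - v x|) := by
  intro c hc
  obtain ⟨η, hη, hηb⟩ : ∃ η > 0, (χ x + η) * (a + η) + (1 - χ x + η) * (b + η) +
      (K + η) * |u x - v x| < c := by
    have hcont : Continuous (fun η : ℝ => (χ x + η) * (a + η) + (1 - χ x + η) * (b + η) +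
      (K + η) * |u x - v x|) := by fun_prop
    have h0 : (fun η : ℝ => (χ x + η) * (a + η) + (1 - χ x + η) * (b + η) +
      (K + η) * |u x - v x|) 0 < c := by simpa using hc
    have := (hcont.continuousAt (x := 0)).eventually_lt continuousAt_const h0
    rw [Metric.eventually_nhds_iff] at this
    obtain ⟨ε, hε, h⟩ := this
    refine ⟨ε / 2, by positivity, h ?_⟩
    simp [abs_of_pos hε, hε]
  have h1 := hu (a + η) (by linarith)
  have h2 := hv (b + η) (by linarith)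
  have h3 := hχ (K + η) (by linarith)
  have h4 : ∀ᶠ y in 𝓝 x, |χ y - χ x| < η := by
    filter_upwards [hχc (Metric.ball_mem_nhds _ hη)] with y hy
    simpa [Real.dist_eq] using hy
  filter_upwards [h1, h2, h3, h4] with y hy1 hy2 hy3 hy4
  have e : χ y * u y + (1 - χ y) * v y - (χ x * u x + (1 - χ x) * v x) =
    χ y * (u y - u x) + (1 - χ y) * (v y - v x) + (χ y - χ x) * (u x - v x) := by ring
  rw [e]
  have hy5 := abs_lt.1 hy4
  have h1y : 0 ≤ 1 - χ y := by linarith [hχ1 y]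
  refine (abs_add_three _ _ _).trans ?_
  rw [abs_mul, abs_mul, abs_mul, abs_of_nonneg (hχ0 y), abs_of_nonneg h1y]
  calc χ y * |u y - u x| + (1 - χ y) * |v y - v x| + |χ y - χ x| * |u x - v x|
      ≤ (χ x + η) * ((a + η) * dist y x) + (1 - χ x + η) * ((b + η) * dist y x) +
        ((K + η) * dist y x) * |u x - v x| := by
        gcongr
        · linarith [hχ0 x]
        · linarith
        · linarith [hχ1 x]
        · linarith
    _ = ((χ x + η) * (a + η) + (1 - χ x + η) * (b + η) +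
      (K + η) * |u x - v x|) * dist y x := by ring
    _ ≤ c * dist y x := by gcongr

theorem Good.glue {u g v h χ : M → ℝ} {K : ℝ≥0} (hχ : LipschitzWith K χ)
    (hχ0 : ∀ y, 0 ≤ χ y) (hχ1 : ∀ y, χ y ≤ 1) [BorelSpace M]
    (hu : Good m u g) (hv : Good m v h) (hub : ∃ C, ∀ x, |u x| ≤ C) (hvb : ∃ C, ∀ x, |v x| ≤ C) :
    Good m (fun x => χ x * u x + (1 - χ x) * v x)
      (fun x => χ x * g x + (1 - χ x) * h x + K * |u x - v x|) := by
  have hχL : IsLip χ := ⟨K, hχ⟩
  have hχm : AEStronglyMeasurable χ m := hχ.continuous.measurable.aestronglyMeasurable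
  have hχm' : AEStronglyMeasurable (fun x => 1 - χ x) m :=
    (continuous_const.sub hχ.continuous).measurable.aestronglyMeasurable
  have hχb : ∃ C, ∀ x, |χ x| ≤ C := ⟨1, fun x => abs_le.2 ⟨by linarith [hχ0 x], hχ1 x⟩⟩
  have hχL' : IsLip (fun x => 1 - χ x) := by
    refine ⟨K, LipschitzWith.of_dist_le_mul fun x y => ?_⟩
    have := hχ.dist_le_mul y x
    rw [Real.dist_eq] at this ⊢
    rw [dist_comm]
    have e : 1 - χ x - (1 - χ y) = χ y - χ x := by ring
    rwa [e]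
  have hχb' : ∃ C, ∀ x, |1 - χ x| ≤ C :=
    ⟨1, fun x => abs_le.2 ⟨by linarith [hχ1 x], by linarith [hχ0 x]⟩⟩
  have mulmem : ∀ {w c : M → ℝ}, MemLp w 2 m → AEStronglyMeasurable c m → (∀ x, |c x| ≤ 1) →
      MemLp (fun x => c x * w x) 2 m := by
    intro w c hw hc hc1
    refine hw.mono (hc.mul hw.1) ?_
    filter_upwards with x
    rw [norm_mul, Real.norm_eq_abs (c x)]
    calc |c x| * ‖w x‖ ≤ 1 * ‖w x‖ := by gcongr; exact hc1 x
      _ = _ := one_mul _
  have hc1 : ∀ x, |χ x| ≤ 1 := fun x => abs_le.2 ⟨by linarith [hχ0 x], hχ1 x⟩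
  have hc2 : ∀ x, |1 - χ x| ≤ 1 := fun x => abs_le.2 ⟨by linarith [hχ1 x], by linarith [hχ0 x]⟩
  refine Good.mk' ?_ ?_ ?_ ?_
  · exact (hχL.mul hu.1 hχb hub).add (hχL'.mul hv.1 hχb' hvb)
  · exact (mulmem hu.2.1 hχm hc1).add (mulmem hv.2.1 hχm' hc2)
  · exact ((mulmem hu.2.2.1 hχm hc1).add (mulmem hv.2.2.1 hχm' hc2)).add
      ((hu.2.1.sub hv.2.1).abs.const_mul (K : ℝ))
  · filter_upwards [hu.lipBd, hv.lipBd] with x hx hy
    refine ⟨?_, LipBd.glue hx.1 hy.1 K.2 hχ0 hχ1 hχ.continuous.continuousAt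
      (LipBd.of_lipschitz hχ x) hx.2 hy.2⟩
    have := hχ0 x
    have h1 : 0 ≤ 1 - χ x := by linarith [hχ1 x]
    have := hx.1
    have := hy.1
    positivity

/-- gluing with Lipschitz weights -/
theorem RSlope.glue [BorelSpace M] {f G H χ : M → ℝ} {K : ℝ≥0} (hχ : LipschitzWith K χ)
    (hχ0 : ∀ y, 0 ≤ χ y) (hχ1 : ∀ y, χ y ≤ 1)
    (hG : RSlope m f G) (hH : RSlope m f H) :
    RSlope m f (fun x => χ x * G x + (1 - χ x) * H x) := by
  have hχm : AEStronglyMeasurable χ m := hχ.continuous.measurable.aestronglyMeasurable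
  have hχm' : AEStronglyMeasurable (fun x => 1 - χ x) m :=
    (continuous_const.sub hχ.continuous).measurable.aestronglyMeasurable
  have hc1 : ∀ x, |χ x| ≤ 1 := fun x => abs_le.2 ⟨by linarith [hχ0 x], hχ1 x⟩
  have hc2 : ∀ x, |1 - χ x| ≤ 1 := fun x => abs_le.2 ⟨by linarith [hχ1 x], by linarith [hχ0 x]⟩
  have mulmem : ∀ {w c : M → ℝ}, MemLp w 2 m → AEStronglyMeasurable c m → (∀ x, |c x| ≤ 1) →
      MemLp (fun x => c x * w x) 2 m := by
    intro w c hw hc hc1
    refine hw.mono (hc.mul hw.1) ?_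
    filter_upwards with x
    rw [norm_mul, Real.norm_eq_abs (c x)]
    calc |c x| * ‖w x‖ ≤ 1 * ‖w x‖ := by gcongr; exact hc1 x
      _ = _ := one_mul _
  have mulnorm : ∀ {w c : M → ℝ}, (∀ x, |c x| ≤ 1) →
      eLpNorm (fun x => c x * w x) 2 m ≤ eLpNorm w 2 m := by
    intro w c hc1
    refine eLpNorm_mono fun x => ?_
    rw [norm_mul, Real.norm_eq_abs (c x)]
    calc |c x| * ‖w x‖ ≤ 1 * ‖w x‖ := by gcongr; exact hc1 x
      _ = _ := one_mul _
  refine RSlope.of_eps hG.1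
    ((mulmem hG.2.1 hχm hc1).add (mulmem hH.2.1 hχm' hc2)) fun ε hε => ?_
  set δ : ℝ≥0∞ := ε / (2 * (K + 2)) with hδ
  have hden : (2 * ((K : ℝ≥0∞) + 2)) ≠ ∞ := by
    refine ENNReal.mul_ne_top (by norm_num) (by simp)
  have hδ0 : δ ≠ 0 := by
    rw [hδ, ne_eq, ENNReal.div_eq_zero_iff]
    push Not
    exact ⟨hε, hden⟩
  have hδε : (2 * ((K : ℝ≥0∞) + 2)) * δ ≤ ε := ENNReal.mul_div_le
  obtain ⟨u, g, h1, hub, h2, h3⟩ := hG.exists_bdd hδ0
  obtain ⟨v, h, h1', hvb, h2', h3'⟩ := hH.exists_bdd hδ0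
  have hgl := Good.glue hχ hχ0 hχ1 h1 h1' hub hvb
  refine ⟨_, _, hgl.rSlope, ?_, ?_⟩
  · have e : (fun x => χ x * u x + (1 - χ x) * v x) - f =
        (fun x => χ x * (u - f) x) + (fun x => (1 - χ x) * (v - f) x) := by
      ext x; simp; ring
    rw [e]
    refine (eLpNorm_add_le (hχm.mul (h1.2.1.1.sub hG.1.1)) (hχm'.mul (h1'.2.1.1.sub hG.1.1))
      (by norm_num)).trans ?_
    calc _ ≤ δ + δ := by
          gcongr
          · exact (mulnorm hc1).trans h2
          · exact (mulnorm hc2).trans h2'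
      _ = 2 * (1 * δ) := by rw [one_mul, two_mul]
      _ ≤ 2 * (((K : ℝ≥0∞) + 2) * δ) := by
          gcongr
          calc (1 : ℝ≥0∞) ≤ 2 := by norm_num
            _ ≤ _ := le_add_self
      _ = (2 * ((K : ℝ≥0∞) + 2)) * δ := by ring
      _ ≤ ε := hδε
  · have e : (fun x => χ x * g x + (1 - χ x) * h x + K * |u x - v x|) -
        (fun x => χ x * G x + (1 - χ x) * H x) =
        ((fun x => χ x * (g - G) x) + (fun x => (1 - χ x) * (h - H) x)) +
          (K : ℝ) • (fun x => |u x - v x|) := by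
      ext x; simp; ring
    rw [e]
    have huv : eLpNorm (fun x => |u x - v x|) 2 m ≤ δ + δ := by
      have e1 : eLpNorm (fun x => |u x - v x|) 2 m = eLpNorm (u - v) 2 m :=
        eLpNorm_congr_norm_ae (by filter_upwards with x; simp)
      rw [e1]
      have e2 : u - v = (u - f) + (f - v) := by abel
      rw [e2]
      refine (eLpNorm_add_le (h1.2.1.1.sub hG.1.1) (hG.1.1.sub h1'.2.1.1) (by norm_num)).trans ?_
      gcongr
      rw [← eLpNorm_neg, neg_sub]
      exact h2'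
    have hm3 : AEStronglyMeasurable ((K : ℝ) • (fun x => |u x - v x|)) m :=
      (h1.2.1.1.sub h1'.2.1.1).norm.const_smul (K : ℝ)
    refine (eLpNorm_add_le ((hχm.mul (h1.2.2.1.1.sub hG.2.1.1)).add
      (hχm'.mul (h1'.2.2.1.1.sub hH.2.1.1))) hm3 (by norm_num)).trans ?_
    refine (add_le_add_left (eLpNorm_add_le (hχm.mul (h1.2.2.1.1.sub hG.2.1.1))
      (hχm'.mul (h1'.2.2.1.1.sub hH.2.1.1)) (by norm_num)) _).trans ?_
    rw [eLpNorm_const_smul]
    have hKe : ‖(K : ℝ)‖ₑ = (K : ℝ≥0∞) := by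
      rw [Real.enorm_eq_ofReal K.coe_nonneg, ENNReal.ofReal_coe_nnreal]
    rw [hKe]
    calc _ ≤ δ + δ + K * (δ + δ) := by
          gcongr
          · exact (mulnorm hc1).trans h3
          · exact (mulnorm hc2).trans h3'
      _ = (2 * (K + 1)) * δ := by ring
      _ ≤ (2 * ((K : ℝ≥0∞) + 2)) * δ := by
          gcongr
          norm_num
      _ ≤ ε := hδε

end Vale.Agent.P233.Met
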