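import Mathlib

open MeasureTheory Filter Topology Set
open scoped ENNReal NNReal

namespace Vale.Agent.P233.Met

variable {M : Type*} [MeasurableSpace M] {m : Measure M}

/-- dominated convergence in `L²` -/
theorem tendsto_eLpNorm_zero_of_dominated {F : ℕ → M → ℝ} {B : M → ℝ} (hB : MemLp B 2 m)
    (hF : ∀ k, AEStronglyMeasurable (F k) m) (hFB : ∀ k, ∀ᵐ x ∂m, |F k x| ≤ B x)
    (hlim : ∀ᵐ x ∂m, Tendsto (fun k => F k x) atTop (𝓝 0)) :
    Tendsto (fun k => eLpNorm (F k) 2 m) atTop (𝓝 0) := by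
  have h2 : (2 : ℝ≥0∞) ≠ 0 := by norm_num
  have h2' : (2 : ℝ≥0∞) ≠ ∞ := by norm_num
  have key : Tendsto (fun k => ∫⁻ x, ‖F k x‖ₑ ^ (2 : ℝ) ∂m) atTop (𝓝 (∫⁻ _, 0 ∂m)) := by
    refine tendsto_lintegral_of_dominated_convergence' (fun x => ‖B x‖ₑ ^ (2 : ℝ)) ?_ ?_ ?_ ?_
    · intro k
      exact (hF k).enorm.pow_const _
    · intro k
      filter_upwards [hFB k] with x hx
      have : ‖F k x‖ₑ ≤ ‖B x‖ₑ := by
        rw [Real.enorm_eq_ofReal_abs, Real.enorm_eq_ofReal_abs]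
        exact ENNReal.ofReal_le_ofReal (hx.trans (le_abs_self _))
      gcongr
    · have := hB.eLpNorm_lt_top
      have h3 := (eLpNorm_lt_top_iff_lintegral_rpow_enorm_lt_top h2 h2').1 this
      simpa using h3.ne
    · filter_upwards [hlim] with x hx
      have h3 : Tendsto (fun k => ‖F k x‖ₑ) atTop (𝓝 0) := by
        have := (continuous_enorm.tendsto (0 : ℝ)).comp hx
        simpa [Function.comp_def] using this
      have h4 := (ENNReal.continuous_rpow_const (y := (2 : ℝ))).tendsto 0 |>.comp h3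
      simpa [Function.comp_def] using h4
  simp only [lintegral_const, zero_mul] at key
  have h5 : ∀ k, eLpNorm (F k) 2 m = (∫⁻ x, ‖F k x‖ₑ ^ (2 : ℝ) ∂m) ^ (1 / 2 : ℝ) := by
    intro k
    rw [eLpNorm_eq_lintegral_rpow_enorm_toReal h2 h2']
    simp
  simp_rw [h5]
  have h6 := (ENNReal.continuous_rpow_const (y := (1 / 2 : ℝ))).tendsto 0 |>.comp key
  simpa [Function.comp_def] using h6

/-- a subsequence converging almost everywhere -/
theorem exists_subseq_ae {u : ℕ → M → ℝ} {f : M → ℝ}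
    (hu : ∀ k, AEStronglyMeasurable (u k) m) (hf : AEStronglyMeasurable f m)
    (h : Tendsto (fun k => eLpNorm (u k - f) 2 m) atTop (𝓝 0)) :
    ∃ ns : ℕ → ℕ, StrictMono ns ∧ ∀ᵐ x ∂m, Tendsto (fun k => u (ns k) x) atTop (𝓝 (f x)) := by
  have h1 : TendstoInMeasure m u atTop f :=
    tendstoInMeasure_of_tendsto_eLpNorm (by norm_num) hu hf h
  exact h1.exists_seq_tendsto_ae

/-- `L²` limits of nonnegative functions are nonnegative -/
theorem nonneg_of_tendsto_L2 {g : ℕ → M → ℝ} {G : M → ℝ}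
    (hg : ∀ k, AEStronglyMeasurable (g k) m) (hG : AEStronglyMeasurable G m)
    (h : Tendsto (fun k => eLpNorm (g k - G) 2 m) atTop (𝓝 0)) (h0 : ∀ k, ∀ᵐ x ∂m, 0 ≤ g k x) :
    ∀ᵐ x ∂m, 0 ≤ G x := by
  obtain ⟨ns, -, hns⟩ := exists_subseq_ae hg hG h
  have h0' : ∀ᵐ x ∂m, ∀ k, 0 ≤ g k x := ae_all_iff.2 h0
  filter_upwards [hns, h0'] with x hx hx0
  exact ge_of_tendsto' hx (fun k => hx0 _)

end Vale.Agent.P233.Met
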