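import Vale.Agent.P233.MetWeak

open MeasureTheory Filter Topology Set
open scoped ENNReal NNReal

namespace Vale.Agent.P233.Met

variable {M : Type*} [MetricSpace M] [MeasurableSpace M] {m : Measure M}

set_option linter.unusedSectionVars false

/-- Lipschitz contraction -/
theorem RSlope.comp_lip {f G : M → ℝ} (h : RSlope m f G) {φ : ℝ → ℝ} {L : ℝ≥0}
    (hφ : LipschitzWith L φ) (hφ0 : φ 0 = 0) :
    RSlope m (fun x => φ (f x)) (fun x => L * G x) := by
  have habs : ∀ w : M → ℝ, MemLp w 2 m → MemLp (fun x => φ (w x)) 2 m := by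
    intro w hw
    refine (hw.const_mul (L : ℝ)).mono (hφ.continuous.comp_aestronglyMeasurable hw.1) ?_
    filter_upwards with x
    have := hφ.dist_le_mul (w x) 0
    rw [hφ0, dist_zero_right, dist_zero_right] at this
    rw [norm_mul, NNReal.norm_eq]
    exact this
  obtain ⟨hf, hG, u, g, hug, h1, h2⟩ := h
  refine RSlope.of_tendsto (F := fun k x => φ (u k x))
    (H := fun k x => L * g k x) (habs f hf) (hG.const_mul _) ?_ ?_ ?_
  · intro k
    obtain ⟨hu1, hu2, hg, -⟩ := hug k
    refine (Good.mk' (hu1.comp hφ) (habs _ hu2) (hg.const_mul _) ?_).rSlope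
    filter_upwards [(hug k).lipBd] with x hx
    refine ⟨mul_nonneg L.coe_nonneg hx.1, fun c hc => ?_⟩
    -- choose an intermediate constant
    obtain ⟨η, hη, hηb⟩ : ∃ η > 0, (L : ℝ) * (g k x + η) < c := by
      have hcont : Continuous (fun η : ℝ => (L : ℝ) * (g k x + η)) := by fun_prop
      have h0 : (fun η : ℝ => (L : ℝ) * (g k x + η)) 0 < c := by simpa using hc
      have := (hcont.continuousAt (x := 0)).eventually_lt continuousAt_const h0
      rw [Metric.eventually_nhds_iff] at this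
      obtain ⟨ε, hε, h⟩ := this
      refine ⟨ε / 2, by positivity, h ?_⟩
      simp [abs_of_pos hε, hε]
    filter_upwards [hx.2 (g k x + η) (by linarith)] with y hy
    have h3 := hφ.dist_le_mul (u k y) (u k x)
    rw [Real.dist_eq, Real.dist_eq] at h3
    calc |φ (u k y) - φ (u k x)| ≤ L * |u k y - u k x| := h3
      _ ≤ L * ((g k x + η) * dist y x) := by gcongr
      _ = (L * (g k x + η)) * dist y x := by ring
      _ ≤ c * dist y x := by gcongr
  · have h3 : Tendsto (fun k => ‖(L : ℝ)‖ₑ * eLpNorm (u k - f) 2 m) atTop (𝓝 0) := by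
      have := ENNReal.Tendsto.const_mul (a := ‖(L : ℝ)‖ₑ) h1 (Or.inr (by simp))
      simpa using this
    refine tendsto_of_tendsto_of_tendsto_of_le_of_le tendsto_const_nhds h3
      (fun _ => zero_le) (fun k => ?_)
    rw [← eLpNorm_const_smul]
    refine eLpNorm_mono fun x => ?_
    have := hφ.dist_le_mul (u k x) (f x)
    rw [dist_eq_norm, dist_eq_norm] at this
    simp only [Pi.smul_apply, smul_eq_mul, Pi.sub_apply]
    rw [norm_mul, NNReal.norm_eq]
    exact this
  · have h3 : Tendsto (fun k => ‖(L : ℝ)‖ₑ * eLpNorm (g k - G) 2 m) atTop (𝓝 0) := by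
      have := ENNReal.Tendsto.const_mul (a := ‖(L : ℝ)‖ₑ) h2 (Or.inr (by simp))
      simpa using this
    refine h3.congr fun k => ?_
    rw [← eLpNorm_const_smul]
    congr 1
    ext x
    simp [mul_sub]

theorem W12.comp_lip {f : M → ℝ} (h : W12 m f) {φ : ℝ → ℝ} {L : ℝ≥0}
    (hφ : LipschitzWith L φ) (hφ0 : φ 0 = 0) : W12 m (fun x => φ (f x)) := by
  obtain ⟨F, hF⟩ := h
  exact ⟨_, hF.comp_lip hφ hφ0⟩

theorem mslope_comp_lip [BorelSpace M] {f : M → ℝ} (h : W12 m f) {φ : ℝ → ℝ} {L : ℝ≥0}
    (hφ : LipschitzWith L φ) (hφ0 : φ 0 = 0) :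
    ∀ᵐ x ∂m, mslope m (fun x => φ (f x)) x ≤ L * mslope m f x :=
  (h.rSlope.comp_lip hφ hφ0).mslope_le

/-- the auxiliary weight `ψ_n(s) = min 1 (n |s - c|)` -/
theorem exists_cut (c : ℝ) (n : ℕ) : ∃ φ : ℝ → ℝ, ContDiff ℝ 1 φ ∧ φ 0 = 0 ∧
    (∀ t, deriv φ t = min 1 (n * |t - c|)) ∧ ∀ t, |φ t - t| ≤ |t| := by
  set ψ : ℝ → ℝ := fun s => min 1 (n * |s - c|) with hψ
  have hψc : Continuous ψ := by fun_prop
  have hψ0 : ∀ s, 0 ≤ ψ s := fun s => le_min zero_le_one (by positivity)
  have hψ1 : ∀ s, ψ s ≤ 1 := fun s => min_le_left _ _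
  set φ : ℝ → ℝ := fun t => ∫ s in (0 : ℝ)..t, ψ s with hφ
  have hd : ∀ t, HasDerivAt φ (ψ t) t := fun t =>
    intervalIntegral.integral_hasDerivAt_right (hψc.intervalIntegrable _ _)
      hψc.stronglyMeasurable.stronglyMeasurableAtFilter hψc.continuousAt
  refine ⟨φ, ?_, by simp [hφ], fun t => (hd t).deriv, ?_⟩
  · rw [contDiff_one_iff_deriv]
    refine ⟨fun t => (hd t).differentiableAt, ?_⟩
    have : deriv φ = ψ := by ext t; exact (hd t).deriv
    rw [this]; exact hψc
  · intro t
    have h1 : φ t - t = - ∫ s in (0 : ℝ)..t, (1 - ψ s) := by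
      rw [intervalIntegral.integral_sub (by simp) (hψc.intervalIntegrable _ _)]
      simp [hφ]
    rw [h1, abs_neg]
    have h2 := intervalIntegral.norm_integral_le_of_norm_le_const (a := (0 : ℝ)) (b := t)
      (f := fun s => 1 - ψ s) (C := 1) (fun s _ => by
        rw [Real.norm_eq_abs, abs_le]
        constructor <;> linarith [hψ0 s, hψ1 s])
    simpa using h2

/-- quantitative convergence of the auxiliary functions -/
theorem exists_cut' (c : ℝ) : ∃ φ : ℕ → ℝ → ℝ, (∀ n, ContDiff ℝ 1 (φ n)) ∧ (∀ n, φ n 0 = 0) ∧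
    (∀ n t, deriv (φ n) t = min 1 (n * |t - c|)) ∧ (∀ n t, |φ n t - t| ≤ |t|) ∧
    ∀ t, Tendsto (fun n => φ n t) atTop (𝓝 t) := by
  choose φ h1 h2 h3 h4 using exists_cut c
  refine ⟨φ, h1, h2, h3, h4, fun t => ?_⟩
  have h5 : ∀ n, φ n t = ∫ s in (0 : ℝ)..t, min 1 ((n : ℝ) * |s - c|) := by
    intro n
    have h6 := intervalIntegral.integral_eq_sub_of_hasDerivAt (a := (0 : ℝ)) (b := t)
      (f := φ n) (f' := deriv (φ n))
      (fun s _ => ((h1 n).differentiable (by norm_num) s).hasDerivAt)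
      (((h1 n).continuous_deriv (by norm_num)).intervalIntegrable _ _)
    rw [h2 n, sub_zero] at h6
    rw [← h6]
    refine intervalIntegral.integral_congr fun s _ => ?_
    exact h3 n s
  have h7 : Tendsto (fun n : ℕ => ∫ s in (0 : ℝ)..t, min 1 ((n : ℝ) * |s - c|)) atTop
      (𝓝 (∫ _ in (0 : ℝ)..t, (1 : ℝ))) := by
    refine intervalIntegral.tendsto_integral_filter_of_dominated_convergence (fun _ => 1) ?_ ?_
      ?_ ?_
    · filter_upwards with n
      exact (by fun_prop : Continuous fun s : ℝ => min 1 ((n : ℝ) * |s - c|)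
        ).aestronglyMeasurable
    · filter_upwards with n
      filter_upwards with s _
      rw [Real.norm_eq_abs, abs_le]
      have : 0 ≤ (n : ℝ) * |s - c| := by positivity
      constructor
      · have := le_min zero_le_one this
        linarith
      · exact min_le_left _ _
    · simp
    · have hne : ∀ᵐ s : ℝ, s ≠ c := by
        rw [ae_iff]
        simp
      filter_upwards [hne] with s hs _
      have hpos : 0 < |s - c| := abs_pos.2 (sub_ne_zero.2 hs)
      obtain ⟨N, hN⟩ := exists_nat_ge (1 / |s - c|)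
      refine tendsto_const_nhds.congr' ?_
      filter_upwards [eventually_ge_atTop N] with k hk
      have h8 : 1 / |s - c| ≤ (k : ℝ) := hN.trans (by exact_mod_cast hk)
      rw [div_le_iff₀ hpos] at h8
      rw [min_eq_left h8]
  simp only [intervalIntegral.integral_const, sub_zero, smul_eq_mul, mul_one] at h7
  simpa [h5] using h7

/-- locality: `|Df| = 0` a.e. on `{f = c}` -/
theorem mslope_eq_zero_of_eq_const [BorelSpace M] {f : M → ℝ} (hf : W12 m f) (c : ℝ) :
    ∀ᵐ x ∂m, f x = c → mslope m f x = 0 := by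
  obtain ⟨φ, h1, h2, h3, h4, h5⟩ := exists_cut' c
  obtain ⟨f', hf'm, hff'⟩ := hf.memLp.1
  have hB : MeasurableSet {x | f' x = c} := hf'm.measurable (measurableSet_singleton c)
  have hL : ∀ n t, |deriv (φ n) t| ≤ (1 : ℝ≥0) := by
    intro n t
    rw [h3, abs_le]
    have h6 : 0 ≤ (n : ℝ) * |t - c| := by positivity
    have h7 := le_min zero_le_one h6
    have h8 : min 1 ((n : ℝ) * |t - c|) ≤ 1 := min_le_left _ _
    simp only [NNReal.coe_one]
    constructor <;> linarith
  -- candidate slope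
  have hG : MemLp ({x | f' x = c}ᶜ.indicator (mslope m f)) 2 m :=
    hf.memLp_mslope.indicator hB.compl
  have key : RSlope m f ({x | f' x = c}ᶜ.indicator (mslope m f)) := by
    refine RSlope.of_tendsto (F := fun n x => φ n (f x))
      (H := fun _ => {x | f' x = c}ᶜ.indicator (mslope m f)) hf.memLp hG ?_ ?_ (by simp)
    · intro n
      refine (hf.rSlope.comp (h1 n) (h2 n) (hL n)).mono hG ?_
      filter_upwards [hff', hf.mslope_nonneg] with x hx h0
      by_cases hxc : f' x = c
      · have : x ∉ {x | f' x = c}ᶜ := by simp [hxc]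
        rw [indicator_of_notMem this, hx, h3, hxc]
        simp
      · have : x ∈ {x | f' x = c}ᶜ := by simp [hxc]
        rw [indicator_of_mem this]
        have := hL n (f x)
        simp only [NNReal.coe_one] at this
        calc _ ≤ 1 * mslope m f x := by gcongr
          _ = _ := one_mul _
    · refine tendsto_eLpNorm_zero_of_dominated (B := fun x => |f x|) hf.memLp.abs ?_ ?_ ?_
      · intro n
        exact ((h1 n).continuous.comp_aestronglyMeasurable hf.memLp.1).sub hf.memLp.1
      · intro n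
        filter_upwards with x
        exact h4 n (f x)
      · filter_upwards with x
        have := (h5 (f x)).sub_const (f x)
        simpa using this
  filter_upwards [key.mslope_le, hf.mslope_nonneg, hff'] with x hx h0 hx2 hxc
  have : x ∉ {x | f' x = c}ᶜ := by simp [← hx2, hxc]
  rw [indicator_of_notMem this] at hx
  exact le_antisymm hx h0

/-- locality: `|Df| = |Dg|` a.e. on `{f - g = c}` -/
theorem mslope_eq_of_sub_eq_const [BorelSpace M] {f g : M → ℝ} (hf : W12 m f) (hg : W12 m g)
    (c : ℝ) : ∀ᵐ x ∂m, f x - g x = c → mslope m f x = mslope m g x := by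
  filter_upwards [abs_mslope_sub_le hf hg, mslope_eq_zero_of_eq_const (hf.sub hg) c]
    with x hx hy hc
  have h1 := hy hc
  rw [h1] at hx
  have := abs_nonpos_iff.1 hx
  linarith

theorem W12.trunc {f : M → ℝ} (hf : W12 m f) {n : ℝ} (hn : 0 ≤ n) :
    W12 m (fun x => trunc n (f x)) :=
  hf.comp_lip (trunc_lip n) (trunc_of_abs_le (by simpa using hn))

theorem mslope_trunc_le [BorelSpace M] {f : M → ℝ} (hf : W12 m f) {n : ℝ} (hn : 0 ≤ n) :
    ∀ᵐ x ∂m, mslope m (fun x => Met.trunc n (f x)) x ≤ mslope m f x := by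
  have := mslope_comp_lip hf (trunc_lip n) (trunc_of_abs_le (by simpa using hn))
  filter_upwards [this] with x hx
  simpa using hx

theorem mslope_trunc_eq [BorelSpace M] {f : M → ℝ} (hf : W12 m f) {n : ℝ} (hn : 0 ≤ n) :
    ∀ᵐ x ∂m, |f x| ≤ n → mslope m (fun x => Met.trunc n (f x)) x = mslope m f x := by
  filter_upwards [mslope_eq_of_sub_eq_const (hf.trunc hn) hf 0] with x hx hxn
  refine hx ?_
  simp [trunc_of_abs_le hxn]

end Vale.Agent.P233.Met
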