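import Vale.Agent.P233.MetMin

open MeasureTheory Filter Topology Set
open scoped ENNReal NNReal

namespace Vale.Agent.P233.Met

variable {M : Type*} [MetricSpace M] [MeasurableSpace M] {m : Measure M}

set_option linter.unusedSectionVars false

/-- monotone family of convex sets in a Hilbert space: the minimal norm points of the closures
converge -/
theorem exists_limit_min_norm {H : Type*} [NormedAddCommGroup H] [InnerProductSpace ℝ H]
    [CompleteSpace H] (S : ℕ → Set H) (hS : ∀ n, S (n + 1) ⊆ S n) (hconv : ∀ n, Convex ℝ (S n))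
    {C : ℝ} (hne : ∀ n, ∃ g ∈ S n, ‖g‖ ≤ C) :
    ∃ p : H, ∃ g : ℕ → H, (∀ n, g n ∈ S n) ∧ Tendsto g atTop (𝓝 p) ∧ ‖p‖ ≤ C := by
  have hex : ∀ n, ∃ v ∈ closure (S n), ‖(0 : H) - v‖ = ⨅ w : closure (S n), ‖(0 : H) - w‖ := by
    intro n
    obtain ⟨g, hg, -⟩ := hne n
    exact exists_norm_eq_iInf_of_complete_convex ⟨g, subset_closure hg⟩
      isClosed_closure.isComplete (hconv n).closure 0
  choose p hpS hp using hex
  simp only [zero_sub, norm_neg] at hp
  have hmin : ∀ n, ∀ w ∈ closure (S n), ‖p n‖ ≤ ‖w‖ := by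
    intro n w hw
    rw [hp n]
    exact ciInf_le (f := fun w : closure (S n) => ‖(w : H)‖)
      ⟨0, by rintro _ ⟨w, rfl⟩; exact norm_nonneg _⟩ ⟨w, hw⟩
  have hanti : Antitone S := antitone_nat_of_succ_le hS
  have hmono : Monotone (fun n => ‖p n‖) := by
    intro a b hab
    exact hmin a _ (closure_mono (hanti hab) (hpS b))
  have hbdd : ∀ n, ‖p n‖ ≤ C := by
    intro n
    obtain ⟨g, hg, hgC⟩ := hne n
    exact (hmin n g (subset_closure hg)).trans hgC
  have hconvg : ∃ L, Tendsto (fun n => ‖p n‖) atTop (𝓝 L) :=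
    ⟨_, tendsto_atTop_ciSup hmono ⟨C, by rintro _ ⟨n, rfl⟩; exact hbdd n⟩⟩
  obtain ⟨L, hL⟩ := hconvg
  have hpL : ∀ n, ‖p n‖ ≤ L := fun n => hmono.ge_of_tendsto hL n
  have hest : ∀ a b, a ≤ b → ‖p a - p b‖ ^ 2 ≤ 2 * (L ^ 2 - ‖p a‖ ^ 2) := by
    intro a b hab
    have hmid : (1 / 2 : ℝ) • p a + (1 / 2 : ℝ) • p b ∈ closure (S a) := by
      refine (hconv a).closure (hpS a) (closure_mono (hanti hab) (hpS b)) (by norm_num)
        (by norm_num) (by norm_num)
    have h1 := hmin a _ hmid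
    have h2 : ‖p a + p b‖ ^ 2 ≥ 4 * ‖p a‖ ^ 2 := by
      have h3 : (1 / 2 : ℝ) • p a + (1 / 2 : ℝ) • p b = (1 / 2 : ℝ) • (p a + p b) := by
        rw [smul_add]
      rw [h3, norm_smul] at h1
      have h4 : ‖(1 / 2 : ℝ)‖ = 1 / 2 := by norm_num
      rw [h4] at h1
      have h5 : 2 * ‖p a‖ ≤ ‖p a + p b‖ := by linarith
      have h6 := norm_nonneg (p a)
      nlinarith
    have h7 := parallelogram_law_with_norm ℝ (p a) (p b)
    have h8 : ‖p b‖ ^ 2 ≤ L ^ 2 := by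
      have := hpL b
      have := norm_nonneg (p b)
      gcongr
    nlinarith
  have hcauchy : CauchySeq p := by
    rw [Metric.cauchySeq_iff']
    intro ε hε
    have h1 : Tendsto (fun n => 2 * (L ^ 2 - ‖p n‖ ^ 2)) atTop (𝓝 (2 * (L ^ 2 - L ^ 2))) :=
      (tendsto_const_nhds.sub (hL.pow 2)).const_mul 2
    rw [sub_self, mul_zero] at h1
    obtain ⟨N, hN⟩ := (h1.eventually (gt_mem_nhds (show (0 : ℝ) < ε ^ 2 by positivity))).exists
    refine ⟨N, fun n hn => ?_⟩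
    rw [dist_comm, dist_eq_norm]
    have h2 := hest N n hn
    have h3 : ‖p N - p n‖ ^ 2 < ε ^ 2 := lt_of_le_of_lt h2 hN
    exact lt_of_pow_lt_pow_left₀ 2 hε.le h3
  obtain ⟨q, hq⟩ := cauchySeq_tendsto_of_complete hcauchy
  have hg : ∀ n, ∃ g ∈ S n, dist (p n) g < 1 / ((n : ℝ) + 1) := by
    intro n
    exact Metric.mem_closure_iff.1 (hpS n) _ (by positivity)
  choose g hgS hg using hg
  refine ⟨q, g, hgS, ?_, ?_⟩
  · have h1 : Tendsto (fun n => dist (p n) (g n)) atTop (𝓝 0) :=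
      squeeze_zero (fun _ => dist_nonneg) (fun n => (hg n).le)
        tendsto_one_div_add_atTop_nhds_zero_nat
    exact (tendsto_iff_of_dist h1).1 hq
  · exact le_of_tendsto hq.norm (Eventually.of_forall hbdd)

/-- lower semicontinuity: if `f` is an `L²` limit of functions with relaxed slopes bounded by `C`
in `L²`, then it has a relaxed slope bounded by `C` -/
theorem exists_rSlope_of_bounded {f : M → ℝ} (hf : MemLp f 2 m) {C : ℝ≥0}
    (h : ∀ ε : ℝ≥0∞, ε ≠ 0 → ∃ f' G' : M → ℝ, RSlope m f' G' ∧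
      eLpNorm (f' - f) 2 m ≤ ε ∧ eLpNorm G' 2 m ≤ C) :
    ∃ G, RSlope m f G ∧ eLpNorm G 2 m ≤ C := by
  set ε : ℕ → ℝ≥0∞ := fun n => ((n : ℝ≥0∞) + 1)⁻¹ with hε
  have hε0 : ∀ n, ε n ≠ 0 := fun n => by simp [hε, ENNReal.inv_eq_zero]
  have hεt : ∀ n, ε n ≠ ∞ := fun n => by simp [hε, ENNReal.inv_eq_top]
  have hεanti : ∀ n, ε (n + 1) ≤ ε n := fun n => by
    simp only [hε]
    gcongr
    push_cast
    exact le_self_add
  have hεlim : Tendsto ε atTop (𝓝 0) := by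
    have := ENNReal.tendsto_inv_nat_nhds_zero
    have h2 := this.comp (tendsto_add_atTop_nat 1)
    simpa [Function.comp_def] using h2
  set S : ℕ → Set (Lp ℝ 2 m) := fun n =>
    {g | ∃ f', RSlope m f' g ∧ eLpNorm (f' - f) 2 m ≤ ε n} with hS
  have hSmono : ∀ n, S (n + 1) ⊆ S n := by
    rintro n g ⟨f', h1, h2⟩
    exact ⟨f', h1, h2.trans (hεanti n)⟩
  have hconv : ∀ n, Convex ℝ (S n) := by
    rintro n g ⟨f1, hg1, hg2⟩ h' ⟨f2, hh1, hh2⟩ a b ha hb hab
    refine ⟨(fun x => a * f1 x) + (fun x => b * f2 x), ?_, ?_⟩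
    · refine ((RSlope.const_mul a hg1).add (RSlope.const_mul b hh1)).congr
        Filter.EventuallyEq.rfl ?_
      filter_upwards [Lp.coeFn_add (a • g) (b • h'), Lp.coeFn_smul a g, Lp.coeFn_smul b h']
        with x hx1 hx2 hx3
      rw [hx1]
      simp only [Pi.add_apply, hx2, hx3, Pi.smul_apply, smul_eq_mul, abs_of_nonneg ha,
        abs_of_nonneg hb]
    · have e : (fun x => a * f1 x) + (fun x => b * f2 x) - f = a • (f1 - f) + b • (f2 - f) := by
        ext x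
        simp only [Pi.sub_apply, Pi.add_apply, Pi.smul_apply, smul_eq_mul]
        have : f x = (a + b) * f x := by rw [hab, one_mul]
        linear_combination (-1 : ℝ) * this
      rw [e]
      refine (eLpNorm_add_le ((hg1.1.1.sub hf.1).const_smul a) ((hh1.1.1.sub hf.1).const_smul b)
        (by norm_num)).trans ?_
      rw [eLpNorm_const_smul, eLpNorm_const_smul]
      calc ‖a‖ₑ * eLpNorm (f1 - f) 2 m + ‖b‖ₑ * eLpNorm (f2 - f) 2 m
          ≤ ‖a‖ₑ * ε n + ‖b‖ₑ * ε n := by gcongr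
        _ = (‖a‖ₑ + ‖b‖ₑ) * ε n := by ring
        _ = ε n := by
          rw [Real.enorm_eq_ofReal ha, Real.enorm_eq_ofReal hb, ← ENNReal.ofReal_add ha hb, hab]
          simp
  have hne : ∀ n, ∃ g ∈ S n, ‖g‖ ≤ (C : ℝ) := by
    intro n
    obtain ⟨f', G', h1, h2, h3⟩ := h (ε n) (hε0 n)
    refine ⟨h1.2.1.toLp, ⟨f', h1.congr Filter.EventuallyEq.rfl (h1.2.1.coeFn_toLp).symm, h2⟩, ?_⟩
    rw [Lp.norm_toLp]
    have := ENNReal.toReal_mono (by simp) h3
    simpa using this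
  obtain ⟨p, g, hg, hgp, hpC⟩ := exists_limit_min_norm S hSmono hconv hne
  refine ⟨p, ?_, ?_⟩
  · choose f' hf'1 hf'2 using hg
    refine RSlope.of_tendsto (F := f') (H := fun n => g n) hf (Lp.memLp p) hf'1 ?_ ?_
    · exact tendsto_of_tendsto_of_tendsto_of_le_of_le tendsto_const_nhds hεlim
        (fun _ => zero_le) hf'2
    · rwa [Lp.tendsto_Lp_iff_tendsto_eLpNorm'] at hgp
  · rw [Lp.norm_def] at hpC
    have h1 : eLpNorm p 2 m ≠ ∞ := (Lp.memLp p).eLpNorm_lt_top.ne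
    rw [← ENNReal.ofReal_toReal h1, ← ENNReal.ofReal_coe_nnreal]
    exact ENNReal.ofReal_le_ofReal hpC

end Vale.Agent.P233.Met
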