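import Vale.Agent.P233.MetGlue

open MeasureTheory Filter Topology Set
open scoped ENNReal NNReal

namespace Vale.Agent.P233.Met

variable {M : Type*} [MetricSpace M] [MeasurableSpace M] {m : Measure M}

set_option linter.unusedSectionVars false

theorem RSlope.glue_closed [BorelSpace M] {f G H : M → ℝ} {F : Set M} (hF : IsClosed F)
    (hG : RSlope m f G) (hH : RSlope m f H) :
    RSlope m f (fun x => F.indicator (fun _ => (1 : ℝ)) x * G x +
      (1 - F.indicator (fun _ => (1 : ℝ)) x) * H x) := by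
  set δ : ℕ → ℝ := fun n => 1 / ((n : ℝ) + 1) with hδ
  have hδ0 : ∀ n, 0 < δ n := fun n => by positivity
  have hδl : Tendsto δ atTop (𝓝 0) := tendsto_one_div_add_atTop_nhds_zero_nat
  set χ : ℕ → M → ℝ := fun n x => (thickenedIndicator (hδ0 n) F x : ℝ) with hχ
  have hχ0 : ∀ n x, 0 ≤ χ n x := fun n x => NNReal.coe_nonneg _
  have hχ1 : ∀ n x, χ n x ≤ 1 := fun n x => by
    have := thickenedIndicator_le_one (hδ0 n) F x
    exact_mod_cast this
  have hχL : ∀ n, LipschitzWith (δ n).toNNReal⁻¹ (χ n) := fun n => by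
    have := lipschitzWith_thickenedIndicator (hδ0 n) F
    refine LipschitzWith.of_dist_le_mul fun x y => ?_
    have h2 := this.dist_le_mul x y
    rw [NNReal.dist_eq] at h2
    rw [Real.dist_eq]
    exact h2
  have hlim : ∀ x, Tendsto (fun n => χ n x) atTop (𝓝 (F.indicator (fun _ => (1 : ℝ)) x)) := by
    intro x
    have h1 := thickenedIndicator_tendsto_indicator_closure hδ0 hδl F
    rw [tendsto_pi_nhds] at h1
    have h2 := h1 x
    rw [hF.closure_eq] at h2
    have h3 := (NNReal.continuous_coe.tendsto _).comp h2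
    have h4 : ((F.indicator (fun _ => (1 : ℝ≥0)) x : ℝ≥0) : ℝ) =
        F.indicator (fun _ => (1 : ℝ)) x := by
      by_cases hx : x ∈ F <;> simp [hx]
    rw [h4] at h3
    exact h3
  have hind : AEStronglyMeasurable (F.indicator (fun _ => (1 : ℝ))) m :=
    (aestronglyMeasurable_const.indicator hF.measurableSet)
  have hi0 : ∀ x, 0 ≤ F.indicator (fun _ => (1 : ℝ)) x := fun x => by
    by_cases hx : x ∈ F <;> simp [hx]
  have hi1 : ∀ x, F.indicator (fun _ => (1 : ℝ)) x ≤ 1 := fun x => by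
    by_cases hx : x ∈ F <;> simp [hx]
  refine RSlope.of_tendsto (F := fun _ => f)
    (H := fun n => fun x => χ n x * G x + (1 - χ n x) * H x) hG.1 ?_ ?_ ?_ ?_
  · have e : (fun x => F.indicator (fun _ => (1 : ℝ)) x * G x +
      (1 - F.indicator (fun _ => (1 : ℝ)) x) * H x) =
      fun x => H x + F.indicator (fun _ => (1 : ℝ)) x * (G x - H x) := by
      ext x; ring
    rw [e]
    refine hH.2.1.add ((hG.2.1.sub hH.2.1).mono (hind.mul (hG.2.1.1.sub hH.2.1.1)) ?_)
    filter_upwards with x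
    rw [norm_mul, Real.norm_eq_abs, abs_of_nonneg (hi0 x)]
    calc _ ≤ 1 * ‖G x - H x‖ := by gcongr; exact hi1 x
      _ = _ := one_mul _
  · intro n
    exact RSlope.glue (hχL n) (hχ0 n) (hχ1 n) hG hH
  · simp
  · refine tendsto_eLpNorm_zero_of_dominated (B := fun x => |G x - H x|)
      (hG.2.1.sub hH.2.1).abs ?_ ?_ ?_
    · intro n
      have h1 : AEStronglyMeasurable (χ n) m :=
        (hχL n).continuous.measurable.aestronglyMeasurable
      have h2 : AEStronglyMeasurable (fun x => 1 - χ n x) m :=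
        (continuous_const.sub (hχL n).continuous).measurable.aestronglyMeasurable
      have h3 : AEStronglyMeasurable (fun x => 1 - F.indicator (fun _ => (1 : ℝ)) x) m :=
        aestronglyMeasurable_const.sub hind
      exact ((h1.mul hG.2.1.1).add (h2.mul hH.2.1.1)).sub
        ((hind.mul hG.2.1.1).add (h3.mul hH.2.1.1))
    · intro n
      filter_upwards with x
      simp only [Pi.sub_apply]
      have e : χ n x * G x + (1 - χ n x) * H x - (F.indicator (fun _ => (1 : ℝ)) x * G x +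
        (1 - F.indicator (fun _ => (1 : ℝ)) x) * H x) =
        (χ n x - F.indicator (fun _ => (1 : ℝ)) x) * (G x - H x) := by ring
      rw [e, abs_mul]
      have h1 : |χ n x - F.indicator (fun _ => (1 : ℝ)) x| ≤ 1 := by
        rw [abs_le]
        constructor <;> linarith [hχ0 n x, hχ1 n x, hi0 x, hi1 x]
      calc _ ≤ 1 * |G x - H x| := by gcongr
        _ = _ := one_mul _
    · filter_upwards with x
      simp only [Pi.sub_apply]
      have h1 := hlim x
      have h2 : Tendsto (fun n => χ n x * G x + (1 - χ n x) * H x) atTop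
          (𝓝 (F.indicator (fun _ => (1 : ℝ)) x * G x +
        (1 - F.indicator (fun _ => (1 : ℝ)) x) * H x)) :=
        (h1.mul_const _).add ((tendsto_const_nhds.sub h1).mul_const _)
      have h3 := h2.sub_const (F.indicator (fun _ => (1 : ℝ)) x * G x +
        (1 - F.indicator (fun _ => (1 : ℝ)) x) * H x)
      simpa using h3

/-- gluing of relaxed slopes along a Borel set -/
theorem RSlope.glue_measurable [BorelSpace M] {f G H : M → ℝ} {B : Set M}
    (hB : MeasurableSet B) (hG : RSlope m f G) (hH : RSlope m f H) :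
    RSlope m f (fun x => B.indicator (fun _ => (1 : ℝ)) x * G x +
      (1 - B.indicator (fun _ => (1 : ℝ)) x) * H x) := by
  have hi0 : ∀ (B : Set M) x, 0 ≤ B.indicator (fun _ => (1 : ℝ)) x := fun B x => by
    by_cases hx : x ∈ B <;> simp [hx]
  have hi1 : ∀ (B : Set M) x, B.indicator (fun _ => (1 : ℝ)) x ≤ 1 := fun B x => by
    by_cases hx : x ∈ B <;> simp [hx]
  have hindB : AEStronglyMeasurable (B.indicator (fun _ => (1 : ℝ))) m :=
    (aestronglyMeasurable_const.indicator hB)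
  set D : M → ℝ := fun x => G x - H x with hD
  have hDm : MemLp D 2 m := hG.2.1.sub hH.2.1
  have hmem : MemLp (fun x => B.indicator (fun _ => (1 : ℝ)) x * G x +
      (1 - B.indicator (fun _ => (1 : ℝ)) x) * H x) 2 m := by
    have e : (fun x => B.indicator (fun _ => (1 : ℝ)) x * G x +
      (1 - B.indicator (fun _ => (1 : ℝ)) x) * H x) =
      fun x => H x + B.indicator (fun _ => (1 : ℝ)) x * D x := by
      ext x; simp [hD]; ring
    rw [e]
    refine hH.2.1.add (hDm.mono (hindB.mul hDm.1) ?_)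
    filter_upwards with x
    rw [norm_mul, Real.norm_eq_abs, abs_of_nonneg (hi0 B x)]
    calc _ ≤ 1 * ‖D x‖ := by gcongr; exact hi1 B x
      _ = _ := one_mul _
  -- the finite measure with density D^2
  set ν : Measure M := m.withDensity (fun x => ‖D x‖ₑ ^ (2 : ℝ)) with hν
  have h2 : (2 : ℝ≥0∞) ≠ 0 := by norm_num
  have h2' : (2 : ℝ≥0∞) ≠ ∞ := by norm_num
  have hfin : ∫⁻ x, ‖D x‖ₑ ^ (2 : ℝ) ∂m < ∞ := by
    have := (eLpNorm_lt_top_iff_lintegral_rpow_enorm_lt_top h2 h2').1 hDm.eLpNorm_lt_top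
    simpa using this
  haveI : IsFiniteMeasure ν := by
    refine ⟨?_⟩
    rw [hν, withDensity_apply _ MeasurableSet.univ]
    simpa using hfin
  refine RSlope.of_eps hG.1 hmem fun ε hε => ?_
  have hε2 : ε ^ (2 : ℝ) ≠ 0 := by
    rw [ne_eq, ENNReal.rpow_eq_zero_iff]
    push Not
    exact ⟨fun h => absurd h hε, fun h => by norm_num⟩
  obtain ⟨F, hFB, hFc, hF⟩ := hB.exists_isClosed_sdiff_lt (μ := ν) (measure_ne_top ν B) hε2
  refine ⟨f, _, RSlope.glue_closed hFc hG hH, by simp, ?_⟩
  have e : (fun x => F.indicator (fun _ => (1 : ℝ)) x * G x +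
      (1 - F.indicator (fun _ => (1 : ℝ)) x) * H x) -
      (fun x => B.indicator (fun _ => (1 : ℝ)) x * G x +
      (1 - B.indicator (fun _ => (1 : ℝ)) x) * H x) =
      -((B \ F).indicator D) := by
    ext x
    by_cases hxF : x ∈ F
    · have hxB := hFB hxF
      simp [hxF, hxB]
    · by_cases hxB : x ∈ B
      · simp [hxF, hxB, hD]
      · simp [hxF, hxB]
  rw [e, eLpNorm_neg, eLpNorm_eq_lintegral_rpow_enorm_toReal h2 h2']
  have hmeas : MeasurableSet (B \ F) := hB.diff hFc.measurableSet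
  have e2 : ∫⁻ x, ‖(B \ F).indicator D x‖ₑ ^ (2 : ℝ≥0∞).toReal ∂m = ν (B \ F) := by
    rw [hν, withDensity_apply _ hmeas, ← lintegral_indicator hmeas]
    congr 1
    ext x
    by_cases hx : x ∈ B \ F
    · simp [hx]
    · simp [hx]
  rw [e2]
  have h3 : (ν (B \ F)) ^ (1 / (2 : ℝ≥0∞).toReal) ≤ (ε ^ (2 : ℝ)) ^ (1 / (2 : ℝ≥0∞).toReal) := by
    gcongr
  refine h3.trans ?_
  rw [← ENNReal.rpow_mul]
  simp

theorem RSlope.min [BorelSpace M] {f G H : M → ℝ}
    (hG : RSlope m f G) (hH : RSlope m f H) :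
    RSlope m f (fun x => min (G x) (H x)) := by
  obtain ⟨G', hG'm, hGG'⟩ := hG.2.1.1
  obtain ⟨H', hH'm, hHH'⟩ := hH.2.1.1
  have hG2 := hG.congr (Filter.EventuallyEq.rfl) hGG'
  have hH2 := hH.congr (Filter.EventuallyEq.rfl) hHH'
  have hB : MeasurableSet {x | G' x ≤ H' x} :=
    measurableSet_le hG'm.measurable hH'm.measurable
  refine (RSlope.glue_measurable hB hG2 hH2).congr Filter.EventuallyEq.rfl ?_
  filter_upwards [hGG', hHH'] with x hx hy
  by_cases h : G' x ≤ H' x
  · have : x ∈ {x | G' x ≤ H' x} := h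
    simp [this, hx, hy, h]
  · have h' : x ∉ {x | G' x ≤ H' x} := h
    simp [h', hx, hy, (not_le.1 h).le]

/-- the almost everywhere minimal relaxed slope -/
def RMin (m : Measure M) (f G : M → ℝ) : Prop :=
  RSlope m f G ∧ ∀ H, RSlope m f H → ∀ᵐ x ∂m, G x ≤ H x

theorem exists_rmin [BorelSpace M] {f H : M → ℝ} (hH : RSlope m f H) :
    ∃ G, RMin m f G := by
  set K : Set (Lp ℝ 2 m) := {g | RSlope m f g} with hK
  have hne : K.Nonempty := ⟨hH.2.1.toLp, hH.congr Filter.EventuallyEq.rfl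
    (hH.2.1.coeFn_toLp).symm⟩
  have hclosed : IsClosed K := by
    refine isClosed_of_closure_subset fun g hg => ?_
    rw [mem_closure_iff_seq_limit] at hg
    obtain ⟨s, hs, hlim⟩ := hg
    rw [Lp.tendsto_Lp_iff_tendsto_eLpNorm'] at hlim
    exact RSlope.of_tendsto (F := fun _ => f) (H := fun n => s n) hH.1 (Lp.memLp g)
      hs (by simp) hlim
  have hconv : Convex ℝ K := by
    intro g hg h hh a b ha hb hab
    have h1 := (RSlope.const_mul a hg).add (RSlope.const_mul b hh)
    refine h1.congr ?_ ?_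
    · filter_upwards with x
      simp only [Pi.add_apply]
      rw [← add_mul, hab, one_mul]
    · filter_upwards [Lp.coeFn_add (a • g) (b • h), Lp.coeFn_smul a g, Lp.coeFn_smul b h]
        with x hx1 hx2 hx3
      rw [hx1]
      simp only [Pi.add_apply, hx2, hx3, Pi.smul_apply, smul_eq_mul, abs_of_nonneg ha,
        abs_of_nonneg hb]
  obtain ⟨g, hgK, hg⟩ := exists_norm_eq_iInf_of_complete_convex hne hclosed.isComplete hconv 0
  simp only [zero_sub, norm_neg] at hg
  have hmin : ∀ h ∈ K, ‖g‖ ≤ ‖h‖ := by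
    intro h hh
    rw [hg]
    exact ciInf_le (f := fun w : K => ‖(w : Lp ℝ 2 m)‖)
      ⟨0, by rintro _ ⟨w, rfl⟩; exact norm_nonneg _⟩ ⟨h, hh⟩
  refine ⟨g, hgK, fun H hH' => ?_⟩
  have h1 := RSlope.min hgK hH'
  have h2 : h1.2.1.toLp ∈ K := h1.congr Filter.EventuallyEq.rfl (h1.2.1.coeFn_toLp).symm
  have h3 := hmin _ h2
  -- compare the squares
  have hg0 := RSlope.nonneg hgK
  have hH0 := RSlope.nonneg hH'
  have hint1 : Integrable (fun x => (g x) ^ 2) m := (Lp.memLp g).integrable_sq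
  have hint2 : Integrable (fun x => (Min.min (g x) (H x)) ^ 2) m := h1.2.1.integrable_sq
  have h4 : ∫ x, (g x) ^ 2 ∂m ≤ ∫ x, (Min.min (g x) (H x)) ^ 2 ∂m := by
    have e1 : ‖g‖ ^ 2 = ∫ x, (g x) ^ 2 ∂m := by
      rw [← real_inner_self_eq_norm_sq, L2.inner_def]
      simp [sq]
    have e2 : ‖h1.2.1.toLp‖ ^ 2 = ∫ x, (Min.min (g x) (H x)) ^ 2 ∂m := by
      rw [← real_inner_self_eq_norm_sq, L2.inner_def]
      refine integral_congr_ae ?_
      filter_upwards [h1.2.1.coeFn_toLp] with x hx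
      simp [hx, sq]
    rw [← e1, ← e2]
    gcongr
  have h5 : ∀ᵐ x ∂m, 0 ≤ (g x) ^ 2 - (Min.min (g x) (H x)) ^ 2 := by
    filter_upwards [hg0, hH0] with x hx hy
    have h6 : 0 ≤ Min.min (g x) (H x) := le_min hx hy
    have h7 : Min.min (g x) (H x) ≤ g x := min_le_left _ _
    nlinarith
  have h6 : ∫ x, ((g x) ^ 2 - (Min.min (g x) (H x)) ^ 2) ∂m = 0 := by
    have h7 : ∫ x, ((g x) ^ 2 - (Min.min (g x) (H x)) ^ 2) ∂m ≤ 0 := by
      rw [integral_sub hint1 hint2]; linarith
    exact le_antisymm h7 (integral_nonneg_of_ae h5)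
  have h7 := (integral_eq_zero_iff_of_nonneg_ae h5 (hint1.sub hint2)).1 h6
  filter_upwards [h7, hg0, hH0] with x hx hy hz
  simp only [Pi.zero_apply] at hx
  have h8 : 0 ≤ Min.min (g x) (H x) := le_min hy hz
  have h9 : g x = Min.min (g x) (H x) := by
    have := sq_eq_sq₀ hy h8
    exact this.1 (by linarith)
  rw [h9]
  exact min_le_right _ _

end Vale.Agent.P233.Met
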