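import Vale.Agent.P233.MetEnergy

open MeasureTheory Filter Topology Set
open scoped ENNReal NNReal

namespace Vale.Agent.P233.Met

variable {M : Type*} [MetricSpace M] [MeasurableSpace M] {m : Measure M}

set_option linter.unusedSectionVars false

variable [BorelSpace M]

theorem sq_integrable {f : M → ℝ} (hf : W12 m f) : Integrable (fun x => mslope m f x ^ 2) m :=
  hf.memLp_mslope.integrable_sq

/-- an integrable function that annihilates all bounded Lipschitz functions with bounded support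
vanishes -/
theorem ae_eq_zero_of_forall_lip (hfin : ∀ (x : M) (r : ℝ), m (Metric.ball x r) < ∞)
    {F : M → ℝ} (hF : Integrable F m)
    (h : ∀ φ : M → ℝ, W12 m φ → (∀ x, 0 ≤ φ x) → (∀ x, φ x ≤ 1) → ∫ x, φ x * F x ∂m = 0) :
    F =ᵐ[m] 0 := by
  refine ae_eq_zero_of_forall_setIntegral_isClosed_eq_zero hF fun s hs => ?_
  rcases isEmpty_or_nonempty M with hM | ⟨⟨x₀⟩⟩
  · have : m = 0 := by
      ext t _
      rw [Set.eq_empty_of_isEmpty t]; simp
    rw [this]; simp
  set d : ℕ → ℝ := fun k => 1 / ((k : ℝ) + 1) with hd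
  have hd0 : ∀ k, 0 < d k := fun k => by positivity
  have hdl : Tendsto d atTop (𝓝 0) := tendsto_one_div_add_atTop_nhds_zero_nat
  set φ : ℕ → M → ℝ := fun k x => cutoff x₀ k x * (thickenedIndicator (hd0 k) s x : ℝ) with hφ
  have ht0 : ∀ k x, 0 ≤ (thickenedIndicator (hd0 k) s x : ℝ) := fun k x => NNReal.coe_nonneg _
  have ht1 : ∀ k x, (thickenedIndicator (hd0 k) s x : ℝ) ≤ 1 := fun k x => by
    exact_mod_cast thickenedIndicator_le_one (hd0 k) s x
  have hφ0 : ∀ k x, 0 ≤ φ k x := fun k x => mul_nonneg (cutoff_nonneg _ _ _) (ht0 k x)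
  have hφ1 : ∀ k x, φ k x ≤ 1 := fun k x =>
    mul_le_one₀ (cutoff_le_one _ _ _) (ht0 k x) (ht1 k x)
  have htL : ∀ k, IsLip (fun x => (thickenedIndicator (hd0 k) s x : ℝ)) := fun k => by
    have h3 := lipschitzWith_thickenedIndicator (hd0 k) s
    refine ⟨(d k).toNNReal⁻¹, LipschitzWith.of_dist_le_mul fun x y => ?_⟩
    have h5 := h3.dist_le_mul x y
    rw [NNReal.dist_eq] at h5
    rw [Real.dist_eq]
    exact h5
  have hφL : ∀ k, IsLip (φ k) := fun k =>
    IsLip.mul ⟨1, cutoff_lip x₀ k⟩ (htL k)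
      ⟨1, fun x => abs_le.2 ⟨by linarith [cutoff_nonneg x₀ k x], cutoff_le_one x₀ k x⟩⟩
      ⟨1, fun x => abs_le.2 ⟨by linarith [ht0 k x], ht1 k x⟩⟩
  have hφW : ∀ k, W12 m (φ k) := fun k => by
    obtain ⟨K, hK⟩ := hφL k
    refine ⟨_, (good_of_bounded_support hfin hK (x₀ := x₀) (R := (k : ℝ) + 1) fun x hx => ?_).rSlope⟩
    simp only [hφ]
    rw [cutoff_eq_zero hx, zero_mul]
  have hz : ∀ k, ∫ x, φ k x * F x ∂m = 0 := fun k => h _ (hφW k) (hφ0 k) (hφ1 k)
  have hlim : Tendsto (fun k => ∫ x, φ k x * F x ∂m) atTop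
      (𝓝 (∫ x, s.indicator (fun _ => (1 : ℝ)) x * F x ∂m)) := by
    refine tendsto_integral_of_dominated_convergence (fun x => |F x|) ?_ hF.abs ?_ ?_
    · intro k
      exact ((hφL k).continuous.measurable.aestronglyMeasurable).mul hF.1
    · intro k
      filter_upwards with x
      rw [norm_mul, Real.norm_eq_abs, Real.norm_eq_abs, abs_of_nonneg (hφ0 k x)]
      calc _ ≤ 1 * |F x| := by gcongr; exact hφ1 k x
        _ = _ := one_mul _
    · filter_upwards with x
      refine Tendsto.mul_const _ ?_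
      have h3 := thickenedIndicator_tendsto_indicator_closure hd0 hdl s
      rw [tendsto_pi_nhds] at h3
      have h4 := h3 x
      rw [hs.closure_eq] at h4
      have h5 := (tendsto_cutoff x₀ x).mul ((NNReal.continuous_coe.tendsto _).comp h4)
      have h6 : (1 : ℝ) * ((s.indicator (fun _ => (1 : ℝ≥0)) x : ℝ≥0) : ℝ) =
          s.indicator (fun _ => (1 : ℝ)) x := by
        by_cases hx : x ∈ s <;> simp [hx]
      rw [h6] at h5
      exact h5
  simp only [hz] at hlim
  have h1 := tendsto_nhds_unique hlim tendsto_const_nhds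
  rw [← integral_indicator hs.measurableSet, ← h1]
  congr 1
  ext x
  by_cases hx : x ∈ s <;> simp [hx]

/-- pointwise parallelogram law, bounded functions -/
theorem parallelogram_bdd (hfin : ∀ (x : M) (r : ℝ), m (Metric.ball x r) < ∞) (hQ : Quad m)
    {f g : M → ℝ} (hf : W12 m f) (hg : W12 m g) {C D : ℝ}
    (hC : 0 ≤ C) (hD : 0 ≤ D) (hfC : ∀ᵐ x ∂m, |f x| ≤ C) (hgD : ∀ᵐ x ∂m, |g x| ≤ D) :
    ∀ᵐ x ∂m, mslope m (f + g) x ^ 2 + mslope m (f - g) x ^ 2 =
      2 * mslope m f x ^ 2 + 2 * mslope m g x ^ 2 := by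
  set F : M → ℝ := fun x => mslope m (f + g) x ^ 2 + mslope m (f - g) x ^ 2 -
    (2 * mslope m f x ^ 2 + 2 * mslope m g x ^ 2) with hF
  have i1 := sq_integrable (hf.add hg)
  have i2 := sq_integrable (hf.sub hg)
  have i3 := sq_integrable hf
  have i4 := sq_integrable hg
  have hFi : Integrable F m := (i1.add i2).sub ((i3.const_mul 2).add (i4.const_mul 2))
  have key : F =ᵐ[m] 0 := by
    refine ae_eq_zero_of_forall_lip hfin hFi fun h hh h0 h1 => ?_
    have hh1 : ∀ᵐ x ∂m, |h x| ≤ 1 := Eventually.of_forall fun x =>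
      abs_le.2 ⟨by linarith [h0 x], h1 x⟩
    have hb1 : ∀ᵐ x ∂m, |(f + g) x| ≤ C + D := by
      filter_upwards [hfC, hgD] with x hx hy
      exact (abs_add_le _ _).trans (add_le_add hx hy)
    have hb2 : ∀ᵐ x ∂m, |(f - g) x| ≤ C + D := by
      filter_upwards [hfC, hgD] with x hx hy
      exact (abs_sub _ _).trans (add_le_add hx hy)
    have d1 := energy_density hQ (hf.add hg) hh (add_nonneg hC hD) zero_le_one hb1 hh1
    have d2 := energy_density hQ (hf.sub hg) hh (add_nonneg hC hD) zero_le_one hb2 hh1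
    have d3 := energy_density hQ hf hh hC zero_le_one hfC hh1
    have d4 := energy_density hQ hg hh hD zero_le_one hgD hh1
    -- products are Sobolev
    have w1 : W12 m (fun x => f x * h x) :=
      ⟨_, RSlope.mul hf.rSlope hh.rSlope hC zero_le_one hfC hh1⟩
    have w2 : W12 m (fun x => g x * h x) :=
      ⟨_, RSlope.mul hg.rSlope hh.rSlope hD zero_le_one hgD hh1⟩
    have w3 : W12 m (fun x => f x * f x) := ⟨_, RSlope.mul hf.rSlope hf.rSlope hC hC hfC hfC⟩
    have w4 : W12 m (fun x => g x * g x) := ⟨_, RSlope.mul hg.rSlope hg.rSlope hD hD hgD hgD⟩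
    have w5 : W12 m (fun x => f x * g x) := ⟨_, RSlope.mul hf.rSlope hg.rSlope hC hD hfC hgD⟩
    have w5' : W12 m (fun x => 2 * (f x * g x)) := w5.const_mul 2
    -- linear algebra
    have e1 : (fun x => (f + g) x * h x) = (fun x => f x * h x) + (fun x => g x * h x) := by
      ext x; simp; ring
    have e2 : (fun x => (f - g) x * h x) = (fun x => f x * h x) + -(fun x => g x * h x) := by
      ext x; simp; ring
    have e3 : (fun x => (f + g) x * (f + g) x) =
        ((fun x => f x * f x) + (fun x => g x * g x)) + (fun x => 2 * (f x * g x)) := by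
      ext x; simp; ring
    have e4 : (fun x => (f - g) x * (f - g) x) =
        ((fun x => f x * f x) + (fun x => g x * g x)) + -(fun x => 2 * (f x * g x)) := by
      ext x; simp; ring
    have n1 : ∀ {a b : M → ℝ}, W12 m a → W12 m b → E m a (-b) = - E m a b := fun ha hb =>
      E_neg_right hQ ha hb
    have n2 : ∀ {a b : M → ℝ}, W12 m a → W12 m b → E m (-a) b = - E m a b := fun ha hb => by
      rw [E_symm ha.neg hb, n1 hb ha, E_symm hb ha]
    rw [e1, e3, E_add_left hQ hf hg (w1.add w2), E_add_right hQ hf w1 w2,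
      E_add_right hQ hg w1 w2, E_add_left hQ (w3.add w4) w5' hh, E_add_left hQ w3 w4 hh] at d1
    rw [e2, e4, sub_eq_add_neg, E_add_left hQ hf hg.neg (w1.add w2.neg),
      E_add_right hQ hf w1 w2.neg, n2 hg (w1.add w2.neg),
      E_add_right hQ hg w1 w2.neg, n1 hf w2, n1 hg w2,
      E_add_left hQ (w3.add w4) w5'.neg hh, E_add_left hQ w3 w4 hh, n2 w5' hh] at d2
    have hbm : ∀ {G : M → ℝ}, Integrable G m → Integrable (fun x => h x * G x) m := by
      intro G hG
      refine hG.mono (hh.memLp.1.mul hG.1) ?_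
      filter_upwards [hh1] with x hx
      rw [norm_mul, Real.norm_eq_abs (h x)]
      calc _ ≤ 1 * ‖G x‖ := by gcongr
        _ = _ := one_mul _
    have eF : (fun x => h x * F x) = fun x =>
        (h x * mslope m (f + g) x ^ 2 + h x * mslope m (f + -g) x ^ 2) -
        (2 * (h x * mslope m f x ^ 2) + 2 * (h x * mslope m g x ^ 2)) := by
      ext x; simp only [hF, sub_eq_add_neg]; ring
    rw [eF, integral_sub, integral_add (hbm i1) (hbm (by rw [← sub_eq_add_neg]; exact i2)),
      integral_add ((hbm i3).const_mul 2) ((hbm i4).const_mul 2), integral_const_mul,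
      integral_const_mul, d1, d2, d3, d4]
    · ring
    · exact (hbm i1).add (hbm (by rw [← sub_eq_add_neg]; exact i2))
    · exact ((hbm i3).const_mul 2).add ((hbm i4).const_mul 2)
  filter_upwards [key] with x hx
  simp only [hF, Pi.zero_apply] at hx
  linarith

/-- pointwise parallelogram law -/
theorem parallelogram (hfin : ∀ (x : M) (r : ℝ), m (Metric.ball x r) < ∞) (hQ : Quad m)
    {f g : M → ℝ} (hf : W12 m f) (hg : W12 m g) :
    ∀ᵐ x ∂m, mslope m (f + g) x ^ 2 + mslope m (f - g) x ^ 2 =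
      2 * mslope m f x ^ 2 + 2 * mslope m g x ^ 2 := by
  set T : ℕ → (M → ℝ) → (M → ℝ) := fun n u x => trunc (n : ℝ) (u x) with hT
  have hn : ∀ n : ℕ, (0 : ℝ) ≤ n := fun n => Nat.cast_nonneg n
  have hWf : ∀ n, W12 m (T n f) := fun n => hf.trunc (hn n)
  have hWg : ∀ n, W12 m (T n g) := fun n => hg.trunc (hn n)
  have h1 : ∀ᵐ x ∂m, ∀ n : ℕ, mslope m (T n f + T n g) x ^ 2 + mslope m (T n f - T n g) x ^ 2 =
      2 * mslope m (T n f) x ^ 2 + 2 * mslope m (T n g) x ^ 2 := by
    rw [ae_all_iff]; intro n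
    exact parallelogram_bdd hfin hQ (hWf n) (hWg n) (hn n) (hn n)
      (Eventually.of_forall fun x => abs_trunc_le (hn n) _)
      (Eventually.of_forall fun x => abs_trunc_le (hn n) _)
  have h2 : ∀ᵐ x ∂m, ∀ n : ℕ, (T n f + T n g) x - (f + g) x = 0 →
      mslope m (T n f + T n g) x = mslope m (f + g) x := by
    rw [ae_all_iff]; intro n
    exact mslope_eq_of_sub_eq_const ((hWf n).add (hWg n)) (hf.add hg) 0
  have h3 : ∀ᵐ x ∂m, ∀ n : ℕ, (T n f - T n g) x - (f - g) x = 0 →
      mslope m (T n f - T n g) x = mslope m (f - g) x := by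
    rw [ae_all_iff]; intro n
    exact mslope_eq_of_sub_eq_const ((hWf n).sub (hWg n)) (hf.sub hg) 0
  have h4 : ∀ᵐ x ∂m, ∀ n : ℕ, (T n f) x - f x = 0 → mslope m (T n f) x = mslope m f x := by
    rw [ae_all_iff]; intro n
    exact mslope_eq_of_sub_eq_const (hWf n) hf 0
  have h5 : ∀ᵐ x ∂m, ∀ n : ℕ, (T n g) x - g x = 0 → mslope m (T n g) x = mslope m g x := by
    rw [ae_all_iff]; intro n
    exact mslope_eq_of_sub_eq_const (hWg n) hg 0
  filter_upwards [h1, h2, h3, h4, h5] with x a1 a2 a3 a4 a5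
  obtain ⟨n, hn1⟩ := exists_nat_ge (max |f x| |g x|)
  have b1 : T n f x = f x := trunc_of_abs_le ((le_max_left _ _).trans hn1)
  have b2 : T n g x = g x := trunc_of_abs_le ((le_max_right _ _).trans hn1)
  have c1 := a2 n (by simp [b1, b2])
  have c2 := a3 n (by simp [b1, b2])
  have c3 := a4 n (by simp [b1])
  have c4 := a5 n (by simp [b2])
  have := a1 n
  rwa [c1, c2, c3, c4] at this

end Vale.Agent.P233.Met
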