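import Vale.Agent.P233.MetDense

open MeasureTheory Filter Topology Set
open scoped ENNReal NNReal

namespace Vale.Agent.P233.Met

variable {M : Type*} [MetricSpace M] [MeasurableSpace M] {m : Measure M}

set_option linter.unusedSectionVars false

theorem LipBd.poly {u v : M → ℝ} {x : M} {a b : ℝ} (α β γ δ : ℝ)
    (huc : ContinuousAt u x) (hvc : ContinuousAt v x)
    (hu : LipBd u x a) (hv : LipBd v x b) :
    LipBd (fun y => α * u y + β * v y + γ * (u y * v y) + δ * (u y * u y)) x
      (|α + γ * v x + 2 * δ * u x| * a + |β + γ * u x| * b) := by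
  intro c hc
  set p : ℝ := |α + γ * v x + 2 * δ * u x| with hp
  set q : ℝ := |β + γ * u x| with hq
  obtain ⟨η, hη, hηb⟩ : ∃ η > 0, (p + η) * (a + η) + q * (b + η) < c := by
    have hcont : Continuous (fun η : ℝ => (p + η) * (a + η) + q * (b + η)) := by fun_prop
    have h0 : (fun η : ℝ => (p + η) * (a + η) + q * (b + η)) 0 < c := by simpa using hc
    have := (hcont.continuousAt (x := 0)).eventually_lt continuousAt_const h0
    rw [Metric.eventually_nhds_iff] at this
    obtain ⟨ε, hε, h⟩ := this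
    refine ⟨ε / 2, by positivity, h ?_⟩
    simp [abs_of_pos hε, hε]
  have h1 := hu (a + η) (by linarith)
  have h2 := hv (b + η) (by linarith)
  have h3 : ∀ᶠ y in 𝓝 x, |α + γ * v y + δ * (u y + u x)| < p + η := by
    have hc3 : ContinuousAt (fun y => |α + γ * v y + δ * (u y + u x)|) x := by fun_prop
    refine hc3.eventually_lt continuousAt_const ?_
    have e : α + γ * v x + δ * (u x + u x) = α + γ * v x + 2 * δ * u x := by ring
    rw [e]
    linarith
  filter_upwards [h1, h2, h3] with y hy1 hy2 hy3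
  have e : α * u y + β * v y + γ * (u y * v y) + δ * (u y * u y) -
      (α * u x + β * v x + γ * (u x * v x) + δ * (u x * u x)) =
      (α + γ * v y + δ * (u y + u x)) * (u y - u x) + (β + γ * u x) * (v y - v x) := by ring
  rw [e]
  refine (abs_add_le _ _).trans ?_
  rw [abs_mul, abs_mul]
  have hp0 : 0 ≤ p := abs_nonneg _
  calc _ ≤ (p + η) * ((a + η) * dist y x) + q * ((b + η) * dist y x) := by
        gcongr
    _ = ((p + η) * (a + η) + q * (b + η)) * dist y x := by ring
    _ ≤ c * dist y x := by gcongr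

/-- chain rule inequality for the polynomials `αu + βv + γuv + δu²` of bounded functions -/
theorem RSlope.poly [BorelSpace M] {f F g G : M → ℝ} (hf : RSlope m f F) (hg : RSlope m g G)
    {C D : ℝ} (hC : 0 ≤ C) (hD : 0 ≤ D) (hfC : ∀ᵐ x ∂m, |f x| ≤ C) (hgD : ∀ᵐ x ∂m, |g x| ≤ D)
    (α β γ δ : ℝ) :
    RSlope m (fun x => α * f x + β * g x + γ * (f x * g x) + δ * (f x * f x))
      (fun x => |α + γ * g x + 2 * δ * f x| * F x + |β + γ * f x| * G x) := by
  obtain ⟨u, p, hup, hu1, hu2, hu3⟩ := hf.exists_seq_bdd hC hfC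
  obtain ⟨v, q, hvq, hv1, hv2, hv3⟩ := hg.exists_seq_bdd hD hgD
  -- coefficients
  have m1 : ∀ {f g : M → ℝ}, AEStronglyMeasurable f m → AEStronglyMeasurable g m →
      AEStronglyMeasurable (fun x => α + γ * g x + δ * f x) m := fun hf hg =>
    (aestronglyMeasurable_const.add (hg.const_mul γ)).add (hf.const_mul δ)
  have m2 : ∀ {f g : M → ℝ}, AEStronglyMeasurable f m → AEStronglyMeasurable g m →
      AEStronglyMeasurable (fun x => |α + γ * g x + 2 * δ * f x|) m := fun hf hg =>
    ((aestronglyMeasurable_const.add (hg.const_mul γ)).add (hf.const_mul (2 * δ))).norm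
  have m3 : ∀ {f : M → ℝ}, AEStronglyMeasurable f m →
      AEStronglyMeasurable (fun x => |β + γ * f x|) m := fun hf =>
    (aestronglyMeasurable_const.add (hf.const_mul γ)).norm
  have b1 : ∀ {s t : ℝ}, |s| ≤ C → |t| ≤ D → |α + γ * t + δ * s| ≤ |α| + |γ| * D + |δ| * C := by
    intro s t hs ht
    refine (abs_add_three _ _ _).trans ?_
    rw [abs_mul, abs_mul]
    gcongr
  have b2 : ∀ {s t : ℝ}, |s| ≤ C → |t| ≤ D →
      |(|α + γ * t + 2 * δ * s|)| ≤ |α| + |γ| * D + |2 * δ| * C := by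
    intro s t hs ht
    rw [abs_abs]
    refine (abs_add_three _ _ _).trans ?_
    rw [abs_mul, abs_mul (2 * δ)]
    gcongr
  have b3 : ∀ {s : ℝ}, |s| ≤ C → |(|β + γ * s|)| ≤ |β| + |γ| * C := by
    intro s hs
    rw [abs_abs]
    refine (abs_add_le _ _).trans ?_
    rw [abs_mul]
    gcongr
  have ef : ∀ f g : M → ℝ, (fun x => α * f x + β * g x + γ * (f x * g x) + δ * (f x * f x)) =
      (fun x => (α + γ * g x + δ * f x) * f x) + (fun x => β * g x) := by
    intro f g; ext x; simp; ring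
  have memf : ∀ {f g : M → ℝ}, MemLp f 2 m → MemLp g 2 m → (∀ᵐ x ∂m, |f x| ≤ C) →
      (∀ᵐ x ∂m, |g x| ≤ D) →
      MemLp (fun x => α * f x + β * g x + γ * (f x * g x) + δ * (f x * f x)) 2 m := by
    intro f g hf hg hfC hgD
    rw [ef]
    refine (memLp_bdd_mul hf (m1 hf.1 hg.1) (C := |α| + |γ| * D + |δ| * C) ?_).add
      (hg.const_mul β)
    filter_upwards [hfC, hgD] with x hx hy using b1 hx hy
  have memg : ∀ {f g F G : M → ℝ}, MemLp f 2 m → MemLp g 2 m → (∀ᵐ x ∂m, |f x| ≤ C) →
      (∀ᵐ x ∂m, |g x| ≤ D) → MemLp F 2 m → MemLp G 2 m →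
      MemLp (fun x => |α + γ * g x + 2 * δ * f x| * F x + |β + γ * f x| * G x) 2 m := by
    intro f g F G hf hg hfC hgD hF hG
    refine (memLp_bdd_mul hF (m2 hf.1 hg.1) (C := |α| + |γ| * D + |2 * δ| * C) ?_).add
      (memLp_bdd_mul hG (m3 hf.1) (C := |β| + |γ| * C) ?_)
    · filter_upwards [hfC, hgD] with x hx hy using b2 hx hy
    · filter_upwards [hfC] with x hx using b3 hx
  refine RSlope.of_tendsto
    (F := fun k x => α * u k x + β * v k x + γ * (u k x * v k x) + δ * (u k x * u k x))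
    (H := fun k x => |α + γ * v k x + 2 * δ * u k x| * p k x + |β + γ * u k x| * q k x)
    (memf hf.1 hg.1 hfC hgD) (memg hf.1 hg.1 hfC hgD hf.2.1 hg.2.1) ?_ ?_ ?_
  · intro k
    obtain ⟨h1, h1b⟩ := hup k
    obtain ⟨h2, h2b⟩ := hvq k
    have hb1 : ∃ C, ∀ x, |u k x| ≤ C := ⟨C, h1b⟩
    have hb2 : ∃ C, ∀ x, |v k x| ≤ C := ⟨D, h2b⟩
    refine (Good.mk' ?_ (memf h1.2.1 h2.2.1 (Eventually.of_forall h1b)
      (Eventually.of_forall h2b)) (memg h1.2.1 h2.2.1 (Eventually.of_forall h1b)
      (Eventually.of_forall h2b) h1.2.2.1 h2.2.2.1) ?_).rSlope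
    · exact (((h1.1.const_mul α).add (h2.1.const_mul β)).add
        ((h1.1.mul h2.1 hb1 hb2).const_mul γ)).add ((h1.1.mul h1.1 hb1 hb1).const_mul δ)
    · filter_upwards [h1.lipBd, h2.lipBd] with x hx hy
      refine ⟨?_, LipBd.poly α β γ δ h1.1.continuous.continuousAt h2.1.continuous.continuousAt
        hx.2 hy.2⟩
      have := hx.1
      have := hy.1
      positivity
  · have h1 := tendsto_mul_L2 (a := fun k x => α + γ * v k x + δ * u k x)
      (A := fun x => α + γ * g x + δ * f x) (C := |α| + |γ| * D + |δ| * C)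
      (fun k => m1 (hup k).1.2.1.1 (hvq k).1.2.1.1) (m1 hf.1.1 hg.1.1)
      (fun k => Eventually.of_forall fun x => b1 ((hup k).2 x) ((hvq k).2 x))
      (by filter_upwards [hu3, hv3] with x hx hy
          exact (tendsto_const_nhds.add (hy.const_mul γ)).add (hx.const_mul δ))
      (fun k => (hup k).1.2.1) hf.1 hu1
    have h2 : Tendsto (fun k => ‖β‖ₑ * eLpNorm (v k - g) 2 m) atTop (𝓝 0) := by
      have := ENNReal.Tendsto.const_mul (a := ‖β‖ₑ) hv1 (Or.inr (by simp))
      simpa using this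
    have h3 := h1.add h2
    rw [add_zero] at h3
    refine tendsto_of_tendsto_of_tendsto_of_le_of_le tendsto_const_nhds h3
      (fun _ => zero_le) (fun k => ?_)
    have e : (fun x => α * u k x + β * v k x + γ * (u k x * v k x) + δ * (u k x * u k x)) -
        (fun x => α * f x + β * g x + γ * (f x * g x) + δ * (f x * f x)) =
        ((fun x => (α + γ * v k x + δ * u k x) * u k x) -
          (fun x => (α + γ * g x + δ * f x) * f x)) + β • (v k - g) := by
      ext x; simp; ring
    rw [e, ← eLpNorm_const_smul]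
    refine eLpNorm_add_le ?_ ?_ (by norm_num)
    · exact ((m1 (hup k).1.2.1.1 (hvq k).1.2.1.1).mul (hup k).1.2.1.1).sub
        ((m1 hf.1.1 hg.1.1).mul hf.1.1)
    · exact ((hvq k).1.2.1.1.sub hg.1.1).const_smul β
  · have h1 := tendsto_mul_L2 (a := fun k x => |α + γ * v k x + 2 * δ * u k x|)
      (A := fun x => |α + γ * g x + 2 * δ * f x|) (C := |α| + |γ| * D + |2 * δ| * C)
      (fun k => m2 (hup k).1.2.1.1 (hvq k).1.2.1.1) (m2 hf.1.1 hg.1.1)
      (fun k => Eventually.of_forall fun x => b2 ((hup k).2 x) ((hvq k).2 x))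
      (by filter_upwards [hu3, hv3] with x hx hy
          exact ((tendsto_const_nhds.add (hy.const_mul γ)).add (hx.const_mul (2 * δ))).abs)
      (fun k => (hup k).1.2.2.1) hf.2.1 hu2
    have h2 := tendsto_mul_L2 (a := fun k x => |β + γ * u k x|)
      (A := fun x => |β + γ * f x|) (C := |β| + |γ| * C)
      (fun k => m3 (hup k).1.2.1.1) (m3 hf.1.1)
      (fun k => Eventually.of_forall fun x => b3 ((hup k).2 x))
      (by filter_upwards [hu3] with x hx
          exact (tendsto_const_nhds.add (hx.const_mul γ)).abs)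
      (fun k => (hvq k).1.2.2.1) hg.2.1 hv2
    have h3 := h1.add h2
    rw [add_zero] at h3
    refine tendsto_of_tendsto_of_tendsto_of_le_of_le tendsto_const_nhds h3
      (fun _ => zero_le) (fun k => ?_)
    have e : (fun x => |α + γ * v k x + 2 * δ * u k x| * p k x + |β + γ * u k x| * q k x) -
        (fun x => |α + γ * g x + 2 * δ * f x| * F x + |β + γ * f x| * G x) =
        ((fun x => |α + γ * v k x + 2 * δ * u k x| * p k x) -
          (fun x => |α + γ * g x + 2 * δ * f x| * F x)) +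
        ((fun x => |β + γ * u k x| * q k x) - (fun x => |β + γ * f x| * G x)) := by
      ext x; simp; ring
    rw [e]
    refine eLpNorm_add_le ?_ ?_ (by norm_num)
    · exact ((m2 (hup k).1.2.1.1 (hvq k).1.2.1.1).mul (hup k).1.2.2.1.1).sub
        ((m2 hf.1.1 hg.1.1).mul hf.2.1.1)
    · exact ((m3 (hup k).1.2.1.1).mul (hvq k).1.2.2.1.1).sub ((m3 hf.1.1).mul hg.2.1.1)

end Vale.Agent.P233.Met
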