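import Vale.Agent.P233.MetSlope
import Vale.Agent.P233.MetL2

open MeasureTheory Filter Topology Set
open scoped ENNReal NNReal

namespace Vale.Agent.P233.Met

variable {M : Type*} [MetricSpace M] [MeasurableSpace M] {m : Measure M}

/-- admissible pair: Lipschitz function with an `L²` bound of its local Lipschitz constant -/
def Good (m : Measure M) (u g : M → ℝ) : Prop :=
  IsLip u ∧ MemLp u 2 m ∧ MemLp g 2 m ∧ ∀ᵐ x ∂m, 0 ≤ g x ∧ lipAt u x ≤ ENNReal.ofReal (g x)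

/-- `G` is a relaxed slope of `f` -/
def RSlope (m : Measure M) (f G : M → ℝ) : Prop :=
  MemLp f 2 m ∧ MemLp G 2 m ∧ ∃ u g : ℕ → M → ℝ, (∀ k, Good m (u k) (g k)) ∧
    Tendsto (fun k => eLpNorm (u k - f) 2 m) atTop (𝓝 0) ∧
    Tendsto (fun k => eLpNorm (g k - G) 2 m) atTop (𝓝 0)

theorem Good.lipBd {u g : M → ℝ} (h : Good m u g) : ∀ᵐ x ∂m, 0 ≤ g x ∧ LipBd u x (g x) := by
  filter_upwards [h.2.2.2] with x hx
  exact ⟨hx.1, (lipAt_le_ofReal_iff hx.1).1 hx.2⟩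

theorem Good.mk' {u g : M → ℝ} (h1 : IsLip u) (h2 : MemLp u 2 m) (h3 : MemLp g 2 m)
    (h4 : ∀ᵐ x ∂m, 0 ≤ g x ∧ LipBd u x (g x)) : Good m u g := by
  refine ⟨h1, h2, h3, ?_⟩
  filter_upwards [h4] with x hx
  exact ⟨hx.1, (lipAt_le_ofReal_iff hx.1).2 hx.2⟩

theorem rSlope_iff_eps {f G : M → ℝ} :
    RSlope m f G ↔ MemLp f 2 m ∧ MemLp G 2 m ∧ ∀ ε : ℝ≥0∞, ε ≠ 0 →
      ∃ u g : M → ℝ, Good m u g ∧ eLpNorm (u - f) 2 m ≤ ε ∧ eLpNorm (g - G) 2 m ≤ ε := by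
  constructor
  · rintro ⟨hf, hG, u, g, hug, h1, h2⟩
    refine ⟨hf, hG, fun ε hε => ?_⟩
    have e1 := (h1.eventually (ge_mem_nhds (pos_iff_ne_zero.2 hε)))
    have e2 := (h2.eventually (ge_mem_nhds (pos_iff_ne_zero.2 hε)))
    obtain ⟨k, hk1, hk2⟩ := (e1.and e2).exists
    exact ⟨u k, g k, hug k, hk1, hk2⟩
  · rintro ⟨hf, hG, h⟩
    have hex : ∀ k : ℕ, ∃ p : (M → ℝ) × (M → ℝ), Good m p.1 p.2 ∧
        eLpNorm (p.1 - f) 2 m ≤ ((k : ℝ≥0∞) + 1)⁻¹ ∧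
        eLpNorm (p.2 - G) 2 m ≤ ((k : ℝ≥0∞) + 1)⁻¹ := by
      intro k
      obtain ⟨u, g, h1, h2, h3⟩ := h ((k : ℝ≥0∞) + 1)⁻¹ (by
        simp [ENNReal.inv_eq_zero])
      exact ⟨(u, g), h1, h2, h3⟩
    choose p hp1 hp2 hp3 using hex
    have hlim : Tendsto (fun k : ℕ => ((k : ℝ≥0∞) + 1)⁻¹) atTop (𝓝 0) := by
      have := ENNReal.tendsto_inv_nat_nhds_zero
      have h2 := this.comp (tendsto_add_atTop_nat 1)
      simpa [Function.comp_def] using h2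
    refine ⟨hf, hG, fun k => (p k).1, fun k => (p k).2, hp1, ?_, ?_⟩
    · exact tendsto_of_tendsto_of_tendsto_of_le_of_le tendsto_const_nhds hlim
        (fun _ => zero_le) hp2
    · exact tendsto_of_tendsto_of_tendsto_of_le_of_le tendsto_const_nhds hlim
        (fun _ => zero_le) hp3

theorem Good.rSlope {u g : M → ℝ} (h : Good m u g) : RSlope m u g := by
  rw [rSlope_iff_eps]
  refine ⟨h.2.1, h.2.2.1, fun ε _ => ⟨u, g, h, ?_, ?_⟩⟩ <;> simp

theorem RSlope.memLp {f G : M → ℝ} (h : RSlope m f G) : MemLp f 2 m := h.1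
theorem RSlope.memLp' {f G : M → ℝ} (h : RSlope m f G) : MemLp G 2 m := h.2.1

theorem RSlope.congr {f G f' G' : M → ℝ} (h : RSlope m f G)
    (hf : f =ᵐ[m] f') (hG : G =ᵐ[m] G') : RSlope m f' G' := by
  rw [rSlope_iff_eps] at h ⊢
  refine ⟨h.1.ae_eq hf, h.2.1.ae_eq hG, fun ε hε => ?_⟩
  obtain ⟨u, g, h1, h2, h3⟩ := h.2.2 ε hε
  refine ⟨u, g, h1, ?_, ?_⟩
  · rwa [eLpNorm_congr_ae (g := u - f)]
    filter_upwards [hf] with x hx; simp [hx]
  · rwa [eLpNorm_congr_ae (g := g - G)]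
    filter_upwards [hG] with x hx; simp [hx]

theorem RSlope.nonneg {f G : M → ℝ} (h : RSlope m f G) : ∀ᵐ x ∂m, 0 ≤ G x := by
  obtain ⟨-, hG, u, g, hug, -, h2⟩ := h
  refine nonneg_of_tendsto_L2 (fun k => (hug k).2.2.1.1) hG.1 h2 (fun k => ?_)
  filter_upwards [(hug k).2.2.2] with x hx using hx.1

/-- closure under strong `L²` convergence -/
theorem RSlope.of_eps {f G : M → ℝ} (hf : MemLp f 2 m) (hG : MemLp G 2 m)
    (h : ∀ ε : ℝ≥0∞, ε ≠ 0 → ∃ f' G' : M → ℝ, RSlope m f' G' ∧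
      eLpNorm (f' - f) 2 m ≤ ε ∧ eLpNorm (G' - G) 2 m ≤ ε) : RSlope m f G := by
  rw [rSlope_iff_eps]
  refine ⟨hf, hG, fun ε hε => ?_⟩
  obtain ⟨f', G', hfG, h1, h2⟩ := h (ε / 2) (by simpa using hε)
  obtain ⟨u, g, hug, h3, h4⟩ := (rSlope_iff_eps.1 hfG).2.2 (ε / 2) (by simpa using hε)
  refine ⟨u, g, hug, ?_, ?_⟩
  · have : u - f = (u - f') + (f' - f) := by simp
    rw [this]
    refine (eLpNorm_add_le (hug.2.1.1.sub hfG.1.1) (hfG.1.1.sub hf.1) (by norm_num)).trans ?_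
    calc _ ≤ ε / 2 + ε / 2 := by gcongr
      _ = ε := ENNReal.add_halves ε
  · have : g - G = (g - G') + (G' - G) := by simp
    rw [this]
    refine (eLpNorm_add_le (hug.2.2.1.1.sub hfG.2.1.1) (hfG.2.1.1.sub hG.1) (by norm_num)).trans ?_
    calc _ ≤ ε / 2 + ε / 2 := by gcongr
      _ = ε := ENNReal.add_halves ε

theorem RSlope.of_tendsto {f G : M → ℝ} {F H : ℕ → M → ℝ} (hf : MemLp f 2 m)
    (hG : MemLp G 2 m) (h : ∀ k, RSlope m (F k) (H k))
    (h1 : Tendsto (fun k => eLpNorm (F k - f) 2 m) atTop (𝓝 0))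
    (h2 : Tendsto (fun k => eLpNorm (H k - G) 2 m) atTop (𝓝 0)) : RSlope m f G := by
  refine RSlope.of_eps hf hG fun ε hε => ?_
  have e1 := (h1.eventually (ge_mem_nhds (pos_iff_ne_zero.2 hε)))
  have e2 := (h2.eventually (ge_mem_nhds (pos_iff_ne_zero.2 hε)))
  obtain ⟨k, hk1, hk2⟩ := (e1.and e2).exists
  exact ⟨F k, H k, h k, hk1, hk2⟩

theorem Good.add {u g v h : M → ℝ} (h1 : Good m u g) (h2 : Good m v h) :
    Good m (u + v) (g + h) := by
  refine Good.mk' (h1.1.add h2.1) (h1.2.1.add h2.2.1) (h1.2.2.1.add h2.2.2.1) ?_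
  filter_upwards [h1.lipBd, h2.lipBd] with x hx hy
  exact ⟨add_nonneg hx.1 hy.1, hx.2.add hy.2⟩

theorem Good.const_mul {u g : M → ℝ} (c : ℝ) (h1 : Good m u g) :
    Good m (fun x => c * u x) (fun x => |c| * g x) := by
  refine Good.mk' (h1.1.const_mul c) (h1.2.1.const_mul c) (h1.2.2.1.const_mul |c|) ?_
  filter_upwards [h1.lipBd] with x hx
  exact ⟨mul_nonneg (abs_nonneg c) hx.1, hx.2.const_mul c⟩

theorem RSlope.add {f G f' G' : M → ℝ} (h : RSlope m f G)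
    (h' : RSlope m f' G') : RSlope m (f + f') (G + G') := by
  rw [rSlope_iff_eps] at *
  refine ⟨h.1.add h'.1, h.2.1.add h'.2.1, fun ε hε => ?_⟩
  obtain ⟨u, g, h1, h2, h3⟩ := h.2.2 (ε / 2) (by simpa using hε)
  obtain ⟨u', g', h1', h2', h3'⟩ := h'.2.2 (ε / 2) (by simpa using hε)
  refine ⟨u + u', g + g', h1.add h1', ?_, ?_⟩
  · have : u + u' - (f + f') = (u - f) + (u' - f') := by abel
    rw [this]
    refine (eLpNorm_add_le (h1.2.1.1.sub h.1.1) (h1'.2.1.1.sub h'.1.1) (by norm_num)).trans ?_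
    calc _ ≤ ε / 2 + ε / 2 := by gcongr
      _ = ε := ENNReal.add_halves ε
  · have : g + g' - (G + G') = (g - G) + (g' - G') := by abel
    rw [this]
    refine (eLpNorm_add_le (h1.2.2.1.1.sub h.2.1.1) (h1'.2.2.1.1.sub h'.2.1.1)
      (by norm_num)).trans ?_
    calc _ ≤ ε / 2 + ε / 2 := by gcongr
      _ = ε := ENNReal.add_halves ε

theorem RSlope.const_mul {f G : M → ℝ} (c : ℝ) (h : RSlope m f G) :
    RSlope m (fun x => c * f x) (fun x => |c| * G x) := by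
  rw [rSlope_iff_eps] at *
  refine ⟨h.1.const_mul c, h.2.1.const_mul |c|, fun ε hε => ?_⟩
  obtain ⟨u, g, h1, h2, h3⟩ := h.2.2 (ε / (ENNReal.ofReal |c| + 1)) (by
    rw [ne_eq, ENNReal.div_eq_zero_iff]
    push Not
    exact ⟨hε, by simp⟩)
  have hkey : ENNReal.ofReal |c| * (ε / (ENNReal.ofReal |c| + 1)) ≤ ε := by
    calc ENNReal.ofReal |c| * (ε / (ENNReal.ofReal |c| + 1))
        ≤ (ENNReal.ofReal |c| + 1) * (ε / (ENNReal.ofReal |c| + 1)) := by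
          gcongr; exact le_self_add
      _ ≤ ε := ENNReal.mul_div_le
  refine ⟨_, _, h1.const_mul c, ?_, ?_⟩
  · have : (fun x => c * u x) - (fun x => c * f x) = c • (u - f) := by
      ext x; simp [mul_sub]
    rw [this, eLpNorm_const_smul]
    rw [Real.enorm_eq_ofReal_abs]
    exact (by gcongr : _ ≤ _).trans hkey
  · have : (fun x => |c| * g x) - (fun x => |c| * G x) = |c| • (g - G) := by
      ext x; simp [mul_sub]
    rw [this, eLpNorm_const_smul]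
    rw [Real.enorm_eq_ofReal_abs, abs_abs]
    exact (by gcongr : _ ≤ _).trans hkey

/-- relaxed slopes are upward closed -/
theorem RSlope.mono {f G G' : M → ℝ} (h : RSlope m f G) (hG' : MemLp G' 2 m)
    (hle : ∀ᵐ x ∂m, G x ≤ G' x) : RSlope m f G' := by
  rw [rSlope_iff_eps] at *
  refine ⟨h.1, hG', fun ε hε => ?_⟩
  obtain ⟨u, g, h1, h2, h3⟩ := h.2.2 ε hε
  refine ⟨u, g + (G' - G), ?_, h2, ?_⟩
  · refine Good.mk' h1.1 h1.2.1 (h1.2.2.1.add (hG'.sub h.2.1)) ?_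
    filter_upwards [h1.lipBd, hle] with x hx hy
    simp only [Pi.add_apply, Pi.sub_apply]
    exact ⟨by linarith [hx.1], hx.2.mono (by linarith)⟩
  · have : g + (G' - G) - G' = g - G := by abel
    rwa [this]

theorem rSlope_zero : RSlope m (0 : M → ℝ) 0 := by
  apply Good.rSlope
  refine Good.mk' ⟨0, LipschitzWith.const 0⟩ MemLp.zero MemLp.zero ?_
  filter_upwards with x
  refine ⟨le_rfl, fun c hc => ?_⟩
  filter_upwards with y
  have := dist_nonneg (x := y) (y := x)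
  have hc' : 0 < c := hc
  simp only [Pi.zero_apply, sub_self, abs_zero]
  positivity

end Vale.Agent.P233.Met
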