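import Vale.Agent.P233.Defs

open MeasureTheory Filter Topology Set
open scoped ENNReal NNReal

namespace Vale.Agent.P233.Met

variable {M : Type*} [MetricSpace M]

/-- globally Lipschitz functions -/
def IsLip (f : M → ℝ) : Prop := ∃ K : ℝ≥0, LipschitzWith K f

/-- pointwise bound of the local Lipschitz constant, in real terms -/
def LipBd (f : M → ℝ) (x : M) (c : ℝ) : Prop :=
  ∀ c' > c, ∀ᶠ y in 𝓝 x, |f y - f x| ≤ c' * dist y x

theorem lipAt_le_ofReal_iff {f : M → ℝ} {x : M} {c : ℝ} (hc : 0 ≤ c) :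
    lipAt f x ≤ ENNReal.ofReal c ↔ LipBd f x c := by
  constructor
  · intro h c' hc'
    have h1 : lipAt f x < ENNReal.ofReal c' :=
      lt_of_le_of_lt h ((ENNReal.ofReal_lt_ofReal_iff (lt_of_le_of_lt hc hc')).2 hc')
    have h2 := eventually_lt_of_limsup_lt h1
    rw [eventually_nhdsWithin_iff] at h2
    filter_upwards [h2] with y hy
    by_cases hyx : y = x
    · subst hyx; simp
    · have hd : 0 < dist y x := dist_pos.2 hyx
      have h3 := hy hyx
      have h4 := (ENNReal.ofReal_lt_ofReal_iff (lt_of_le_of_lt hc hc')).1 h3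
      rw [div_lt_iff₀ hd] at h4
      exact h4.le
  · intro h
    refine le_of_forall_gt_imp_ge_of_dense ?_
    intro a ha
    by_cases hat : a = ∞
    · subst hat; exact le_top
    obtain ⟨a', rfl⟩ : ∃ a' : ℝ≥0, a = a' := ⟨a.toNNReal, (ENNReal.coe_toNNReal hat).symm⟩
    have h1 : c < a' := by
      have := (ENNReal.ofReal_lt_coe_iff hc).1 ha
      exact this
    unfold lipAt
    refine limsup_le_of_le (by isBoundedDefault) ?_
    rw [eventually_nhdsWithin_iff]
    filter_upwards [h _ h1] with y hy hyx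
    have hd : 0 < dist y x := dist_pos.2 hyx
    rw [← ENNReal.ofReal_coe_nnreal]
    apply ENNReal.ofReal_le_ofReal
    rw [div_le_iff₀ hd]
    exact hy

theorem LipBd.mono {f : M → ℝ} {x : M} {c d : ℝ} (h : LipBd f x c) (hcd : c ≤ d) :
    LipBd f x d := fun c' hc' => h c' (lt_of_le_of_lt hcd hc')

theorem LipBd.add {f g : M → ℝ} {x : M} {a b : ℝ} (hf : LipBd f x a) (hg : LipBd g x b) :
    LipBd (f + g) x (a + b) := by
  intro c hc
  have h1 := hf (a + (c - a - b) / 2) (by linarith)
  have h2 := hg (b + (c - a - b) / 2) (by linarith)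
  filter_upwards [h1, h2] with y hy1 hy2
  have : (f + g) y - (f + g) x = (f y - f x) + (g y - g x) := by simp; ring
  rw [this]
  refine (abs_add_le _ _).trans ?_
  have : c * dist y x = (a + (c - a - b) / 2) * dist y x + (b + (c - a - b) / 2) * dist y x := by
    ring
  linarith

theorem LipBd.const_mul {f : M → ℝ} {x : M} {a : ℝ} (c : ℝ) (hf : LipBd f x a) :
    LipBd (fun y => c * f y) x (|c| * a) := by
  intro b hb
  by_cases hc : c = 0
  · subst hc
    simp only [abs_zero, zero_mul] at hb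
    filter_upwards with y
    simp only [zero_mul, sub_self, abs_zero]
    have := dist_nonneg (x := y) (y := x)
    positivity
  · have hc' : 0 < |c| := abs_pos.2 hc
    have h1 := hf (b / |c|) (by rw [gt_iff_lt, lt_div_iff₀ hc']; linarith [mul_comm |c| a])
    filter_upwards [h1] with y hy
    rw [← mul_sub, abs_mul]
    calc |c| * |f y - f x| ≤ |c| * (b / |c| * dist y x) := by gcongr
      _ = b * dist y x := by field_simp

theorem LipBd.of_lipschitz {f : M → ℝ} {K : ℝ≥0} (hf : LipschitzWith K f) (x : M) :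
    LipBd f x K := by
  intro c hc
  filter_upwards with y
  have := hf.dist_le_mul y x
  rw [Real.dist_eq] at this
  refine this.trans ?_
  have := dist_nonneg (x := y) (y := x)
  gcongr

theorem LipBd.comp {f : M → ℝ} {x : M} {a : ℝ} {φ : ℝ → ℝ} (hφ : ContDiff ℝ 1 φ)
    (hfc : ContinuousAt f x) (hf : LipBd f x a) :
    LipBd (fun y => φ (f y)) x (|deriv φ (f x)| * a) := by
  intro b hb
  -- choose η with (|φ'|+η)(a+η) < b
  set p := |deriv φ (f x)| with hp
  have hp0 : 0 ≤ p := abs_nonneg _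
  obtain ⟨η, hη, hηb⟩ : ∃ η > 0, (p + η) * (a + η) < b := by
    have hcont : Continuous (fun η : ℝ => (p + η) * (a + η)) := by fun_prop
    have h0 : (fun η : ℝ => (p + η) * (a + η)) 0 < b := by simpa using hb
    have := (hcont.continuousAt (x := 0)).eventually_lt continuousAt_const h0
    rw [Metric.eventually_nhds_iff] at this
    obtain ⟨ε, hε, h⟩ := this
    refine ⟨ε / 2, by positivity, h ?_⟩
    simp [abs_of_pos hε, hε]
  -- derivative bound near f x
  have hd : HasStrictDerivAt φ (deriv φ (f x)) (f x) :=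
    (hφ.contDiffAt.hasStrictDerivAt (by norm_num))
  have h1 : ∀ᶠ t in 𝓝 (f x), |φ t - φ (f x)| ≤ (p + η) * |t - f x| := by
    have h2 := hd.hasDerivAt.isLittleO.def hη
    filter_upwards [h2] with t ht
    rw [Real.norm_eq_abs, Real.norm_eq_abs] at ht
    have h3 : φ t - φ (f x) = (φ t - φ (f x) - (t - f x) • deriv φ (f x)) +
        (t - f x) * deriv φ (f x) := by simp
    rw [h3]
    refine (abs_add_le _ _).trans ?_
    rw [abs_mul]
    have : |t - f x| * |deriv φ (f x)| = p * |t - f x| := by rw [hp]; ring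
    nlinarith
  have h3 := hf (a + η) (by linarith)
  filter_upwards [h3, hfc.eventually h1] with y hy1 hy2
  refine hy2.trans ?_
  calc (p + η) * |f y - f x| ≤ (p + η) * ((a + η) * dist y x) := by gcongr
    _ = ((p + η) * (a + η)) * dist y x := by ring
    _ ≤ b * dist y x := by gcongr

theorem LipBd.mul {f g : M → ℝ} {x : M} {a b : ℝ}
    (hfc : ContinuousAt f x)
    (hf : LipBd f x a) (hg : LipBd g x b) :
    LipBd (fun y => f y * g y) x (|f x| * b + |g x| * a) := by
  intro c hc
  obtain ⟨η, hη, hηb⟩ : ∃ η > 0, (|f x| + η) * (b + η) + |g x| * (a + η) < c := by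
    have hcont : Continuous (fun η : ℝ => (|f x| + η) * (b + η) + |g x| * (a + η)) := by fun_prop
    have h0 : (fun η : ℝ => (|f x| + η) * (b + η) + |g x| * (a + η)) 0 < c := by simpa using hc
    have := (hcont.continuousAt (x := 0)).eventually_lt continuousAt_const h0
    rw [Metric.eventually_nhds_iff] at this
    obtain ⟨ε, hε, h⟩ := this
    refine ⟨ε / 2, by positivity, h ?_⟩
    simp [abs_of_pos hε, hε]
  have h1 := hf (a + η) (by linarith)
  have h2 := hg (b + η) (by linarith)
  have h3 : ∀ᶠ y in 𝓝 x, |f y| < |f x| + η := by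
    have : ContinuousAt (fun y => |f y|) x := hfc.abs
    exact this.eventually_lt continuousAt_const (by simpa using hη)
  filter_upwards [h1, h2, h3] with y hy1 hy2 hy3
  have : f y * g y - f x * g x = f y * (g y - g x) + g x * (f y - f x) := by ring
  rw [this]
  refine (abs_add_le _ _).trans ?_
  rw [abs_mul, abs_mul]
  calc |f y| * |g y - g x| + |g x| * |f y - f x|
      ≤ (|f x| + η) * ((b + η) * dist y x) + |g x| * ((a + η) * dist y x) := by gcongr
    _ = ((|f x| + η) * (b + η) + |g x| * (a + η)) * dist y x := by ring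
    _ ≤ c * dist y x := by gcongr

theorem IsLip.continuous {f : M → ℝ} (hf : IsLip f) : Continuous f := by
  obtain ⟨K, hK⟩ := hf; exact hK.continuous

theorem IsLip.add {f g : M → ℝ} (hf : IsLip f) (hg : IsLip g) : IsLip (f + g) := by
  obtain ⟨K, hK⟩ := hf; obtain ⟨L, hL⟩ := hg; exact ⟨K + L, hK.add hL⟩

theorem IsLip.const_mul {f : M → ℝ} (c : ℝ) (hf : IsLip f) : IsLip (fun y => c * f y) := by
  obtain ⟨K, hK⟩ := hf
  refine ⟨Real.toNNReal |c| * K, LipschitzWith.of_dist_le_mul fun x y => ?_⟩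
  rw [Real.dist_eq, ← mul_sub, abs_mul, NNReal.coe_mul, Real.coe_toNNReal _ (abs_nonneg c),
    mul_assoc]
  gcongr
  have := hK.dist_le_mul x y
  rwa [Real.dist_eq] at this

theorem IsLip.neg {f : M → ℝ} (hf : IsLip f) : IsLip (-f) := by
  obtain ⟨K, hK⟩ := hf; exact ⟨K, hK.neg⟩

theorem IsLip.sub {f g : M → ℝ} (hf : IsLip f) (hg : IsLip g) : IsLip (f - g) := by
  rw [sub_eq_add_neg]; exact hf.add hg.neg

theorem IsLip.mul {f g : M → ℝ} (hf : IsLip f) (hg : IsLip g)
    (hfb : ∃ C, ∀ x, |f x| ≤ C) (hgb : ∃ C, ∀ x, |g x| ≤ C) : IsLip (fun x => f x * g x) := by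
  obtain ⟨K, hK⟩ := hf; obtain ⟨L, hL⟩ := hg
  obtain ⟨C, hC⟩ := hfb; obtain ⟨D, hD⟩ := hgb
  refine ⟨Real.toNNReal (|C| * L + |D| * K), LipschitzWith.of_dist_le_mul fun x y => ?_⟩
  have h1 := hK.dist_le_mul x y
  have h2 := hL.dist_le_mul x y
  rw [Real.dist_eq] at h1 h2
  rw [Real.coe_toNNReal _ (by positivity), Real.dist_eq]
  have : f x * g x - f y * g y = f x * (g x - g y) + g y * (f x - f y) := by ring
  rw [this]
  refine (abs_add_le _ _).trans ?_
  rw [abs_mul, abs_mul]
  have h3 : |f x| ≤ |C| := (hC x).trans (le_abs_self C)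
  have h4 : |g y| ≤ |D| := (hD y).trans (le_abs_self D)
  calc |f x| * |g x - g y| + |g y| * |f x - f y|
      ≤ |C| * (L * dist x y) + |D| * (K * dist x y) := by gcongr
    _ = _ := by ring

theorem IsLip.comp {f : M → ℝ} (hf : IsLip f) {φ : ℝ → ℝ} {L : ℝ≥0} (hφ : LipschitzWith L φ) :
    IsLip (fun x => φ (f x)) := by
  obtain ⟨K, hK⟩ := hf
  exact ⟨L * K, hφ.comp hK⟩

end Vale.Agent.P233.Met
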