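import Vale.Agent.P233.MetChain

open MeasureTheory Filter Topology Set
open scoped ENNReal NNReal

namespace Vale.Agent.P233.Met

variable {M : Type*} [MetricSpace M] [MeasurableSpace M] {m : Measure M}

set_option linter.unusedSectionVars false

/-- the Sobolev class `W^{1,2}` -/
def W12 (m : Measure M) (f : M → ℝ) : Prop := ∃ G, RSlope m f G

open Classical in
/-- the minimal relaxed slope `|Df|` -/
noncomputable def mslope (m : Measure M) (f : M → ℝ) : M → ℝ :=
  if h : ∃ G, RMin m f G then h.choose else 0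

theorem W12.memLp {f : M → ℝ} (h : W12 m f) : MemLp f 2 m := by
  obtain ⟨G, hG⟩ := h; exact hG.1

theorem W12.spec [BorelSpace M] {f : M → ℝ} (h : W12 m f) : RMin m f (mslope m f) := by
  obtain ⟨G, hG⟩ := h
  have h1 := exists_rmin hG
  unfold mslope
  rw [dif_pos h1]
  exact h1.choose_spec

theorem W12.rSlope [BorelSpace M] {f : M → ℝ} (h : W12 m f) :
    RSlope m f (mslope m f) := h.spec.1

theorem W12.memLp_mslope [BorelSpace M] {f : M → ℝ} (h : W12 m f) :
    MemLp (mslope m f) 2 m := h.spec.1.2.1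

theorem W12.mslope_nonneg [BorelSpace M] {f : M → ℝ} (h : W12 m f) :
    ∀ᵐ x ∂m, 0 ≤ mslope m f x := h.spec.1.nonneg

theorem RSlope.mslope_le [BorelSpace M] {f G : M → ℝ} (h : RSlope m f G) :
    ∀ᵐ x ∂m, mslope m f x ≤ G x := (W12.spec ⟨G, h⟩).2 G h

theorem RMin.eq [BorelSpace M] {f G : M → ℝ} (h : RMin m f G) :
    mslope m f =ᵐ[m] G := by
  filter_upwards [h.1.mslope_le, h.2 _ (W12.rSlope ⟨G, h.1⟩)] with x hx hy
  exact le_antisymm hx hy

theorem W12.congr {f g : M → ℝ} (h : W12 m f) (hfg : f =ᵐ[m] g) : W12 m g := by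
  obtain ⟨G, hG⟩ := h
  exact ⟨G, hG.congr hfg Filter.EventuallyEq.rfl⟩

theorem mslope_congr [BorelSpace M] {f g : M → ℝ} (hfg : f =ᵐ[m] g) (h : W12 m f) :
    mslope m f =ᵐ[m] mslope m g := by
  have hg := h.congr hfg
  filter_upwards [(hg.rSlope.congr hfg.symm Filter.EventuallyEq.rfl).mslope_le,
    (h.rSlope.congr hfg Filter.EventuallyEq.rfl).mslope_le] with x hx hy
  exact le_antisymm hx hy

theorem W12.add {f g : M → ℝ} (hf : W12 m f) (hg : W12 m g) : W12 m (f + g) := by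
  obtain ⟨F, hF⟩ := hf; obtain ⟨G, hG⟩ := hg
  exact ⟨_, hF.add hG⟩

theorem W12.const_mul {f : M → ℝ} (c : ℝ) (hf : W12 m f) : W12 m (fun x => c * f x) := by
  obtain ⟨F, hF⟩ := hf
  exact ⟨_, hF.const_mul c⟩

theorem W12.neg {f : M → ℝ} (hf : W12 m f) : W12 m (-f) := by
  have := hf.const_mul (-1)
  exact this.congr (by filter_upwards with x; simp)

theorem W12.sub {f g : M → ℝ} (hf : W12 m f) (hg : W12 m g) : W12 m (f - g) := by
  rw [sub_eq_add_neg]; exact hf.add hg.neg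

theorem W12.zero : W12 m (0 : M → ℝ) := ⟨0, rSlope_zero⟩

theorem mslope_add_le [BorelSpace M] {f g : M → ℝ} (hf : W12 m f) (hg : W12 m g) :
    ∀ᵐ x ∂m, mslope m (f + g) x ≤ mslope m f x + mslope m g x :=
  (hf.rSlope.add hg.rSlope).mslope_le

theorem mslope_const_mul_le [BorelSpace M] {f : M → ℝ} (c : ℝ) (hf : W12 m f) :
    ∀ᵐ x ∂m, mslope m (fun x => c * f x) x ≤ |c| * mslope m f x :=
  (hf.rSlope.const_mul c).mslope_le

theorem mslope_zero [BorelSpace M] : mslope m (0 : M → ℝ) =ᵐ[m] 0 := by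
  filter_upwards [(rSlope_zero (m := m)).mslope_le, (W12.zero (m := m)).mslope_nonneg]
    with x hx hy
  exact le_antisymm hx hy

theorem mslope_const_mul [BorelSpace M] {f : M → ℝ} (c : ℝ) (hf : W12 m f) :
    ∀ᵐ x ∂m, mslope m (fun x => c * f x) x = |c| * mslope m f x := by
  by_cases hc : c = 0
  · subst hc
    have h1 : (fun x => (0 : ℝ) * f x) = 0 := by ext x; simp
    rw [h1]
    filter_upwards [mslope_zero (m := m)] with x hx
    simp [hx]
  · have h1 := mslope_const_mul_le c⁻¹ (hf.const_mul c)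
    have h2 : (fun x => c⁻¹ * (c * f x)) = f := by
      ext x; field_simp
    rw [h2] at h1
    filter_upwards [h1, mslope_const_mul_le c hf] with x hx hy
    refine le_antisymm hy ?_
    have hc' : 0 < |c| := abs_pos.2 hc
    rw [abs_inv] at hx
    have := mul_le_mul_of_nonneg_left hx hc'.le
    rwa [← mul_assoc, mul_inv_cancel₀ hc'.ne', one_mul] at this

theorem mslope_neg [BorelSpace M] {f : M → ℝ} (hf : W12 m f) :
    ∀ᵐ x ∂m, mslope m (-f) x = mslope m f x := by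
  have h1 := mslope_const_mul (-1) hf
  have h2 : (fun x => (-1 : ℝ) * f x) = -f := by ext x; simp
  rw [h2] at h1
  filter_upwards [h1] with x hx
  simpa using hx

theorem mslope_sub_le [BorelSpace M] {f g : M → ℝ} (hf : W12 m f) (hg : W12 m g) :
    ∀ᵐ x ∂m, mslope m (f - g) x ≤ mslope m f x + mslope m g x := by
  rw [sub_eq_add_neg]
  filter_upwards [mslope_add_le hf hg.neg, mslope_neg hg] with x hx hy
  rwa [hy] at hx

/-- reverse triangle inequality -/
theorem abs_mslope_sub_le [BorelSpace M] {f g : M → ℝ} (hf : W12 m f) (hg : W12 m g) :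
    ∀ᵐ x ∂m, |mslope m f x - mslope m g x| ≤ mslope m (f - g) x := by
  have h1 := mslope_add_le (hf.sub hg) hg
  have h2 := mslope_sub_le hf (hf.sub hg)
  have e1 : f - g + g = f := by abel
  have e2 : f - (f - g) = g := by abel
  rw [e1] at h1
  rw [e2] at h2
  filter_upwards [h1, h2] with x hx hy
  rw [abs_le]
  constructor <;> linarith

theorem W12.comp {f : M → ℝ} (hf : W12 m f) {φ : ℝ → ℝ} (hφ : ContDiff ℝ 1 φ)
    (hφ0 : φ 0 = 0) {L : ℝ≥0} (hL : ∀ t, |deriv φ t| ≤ L) : W12 m (fun x => φ (f x)) := by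
  obtain ⟨F, hF⟩ := hf
  exact ⟨_, hF.comp hφ hφ0 hL⟩

theorem mslope_comp_le [BorelSpace M] {f : M → ℝ} (hf : W12 m f) {φ : ℝ → ℝ}
    (hφ : ContDiff ℝ 1 φ) (hφ0 : φ 0 = 0) {L : ℝ≥0} (hL : ∀ t, |deriv φ t| ≤ L) :
    ∀ᵐ x ∂m, mslope m (fun x => φ (f x)) x ≤ |deriv φ (f x)| * mslope m f x :=
  (hf.rSlope.comp hφ hφ0 hL).mslope_le

/-- chain rule `|D(φ∘f)| = |φ'(f)| |Df|` -/
theorem mslope_comp [BorelSpace M] {f : M → ℝ} (hf : W12 m f) {φ : ℝ → ℝ}
    (hφ : ContDiff ℝ 1 φ) (hφ0 : φ 0 = 0) {L : ℝ≥0} (hL : ∀ t, |deriv φ t| ≤ L) :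
    ∀ᵐ x ∂m, mslope m (fun x => φ (f x)) x = |deriv φ (f x)| * mslope m f x := by
  have hφf := hf.comp hφ hφ0 hL
  -- general inequality `(s φ')(f) |Df| ≤ |D(φ∘f)|` for `s = ±1`
  have key : ∀ ψ : ℝ → ℝ, ContDiff ℝ 1 ψ → ψ 0 = 0 → (∀ t, |deriv ψ t| ≤ L) →
      ∀ᵐ x ∂m, deriv ψ (f x) * mslope m f x ≤ mslope m (fun x => ψ (f x)) x := by
    intro ψ hψ hψ0 hψL
    set χ : ℝ → ℝ := fun t => L * t - ψ t with hχ
    have hχc : ContDiff ℝ 1 χ := (contDiff_const.mul contDiff_id).sub hψ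
    have hχ0 : χ 0 = 0 := by simp [hχ, hψ0]
    have hχd : ∀ t, deriv χ t = L - deriv ψ t := by
      intro t
      have h1 : HasDerivAt (fun t : ℝ => (L : ℝ) * t) ((L : ℝ) * 1) t :=
        (hasDerivAt_id t).const_mul (L : ℝ)
      have h2 : HasDerivAt ψ (deriv ψ t) t :=
        (hψ.differentiable (by norm_num) t).hasDerivAt
      have h3 := (h1.sub h2).deriv
      rw [mul_one] at h3
      exact h3
    have hχL : ∀ t, |deriv χ t| ≤ (2 * L : ℝ≥0) := by
      intro t
      rw [hχd]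
      have := abs_le.1 (hψL t)
      rw [abs_le]
      push_cast
      constructor <;> linarith [L.coe_nonneg]
    have hψf := hf.comp hψ hψ0 hψL
    have hχf := hf.comp hχc hχ0 hχL
    have h1 := mslope_add_le hψf hχf
    have e : (fun x => ψ (f x)) + (fun x => χ (f x)) = fun x => (L : ℝ) * f x := by
      ext x; simp [hχ]
    rw [e] at h1
    filter_upwards [h1, mslope_const_mul (L : ℝ) hf, mslope_comp_le hf hχc hχ0 hχL,
      hf.mslope_nonneg] with x hx hy hz h0
    rw [hy, NNReal.abs_eq] at hx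
    rw [hχd, abs_of_nonneg (by linarith [abs_le.1 (hψL (f x))])] at hz
    nlinarith
  have h1 := key φ hφ hφ0 hL
  have h2 := key (fun t => - φ t) hφ.neg (by simp [hφ0]) (fun t => by
    rw [deriv.fun_neg, abs_neg]; exact hL t)
  have e : (fun x => - φ (f x)) = -(fun x => φ (f x)) := rfl
  rw [e] at h2
  filter_upwards [h1, h2, mslope_neg hφf, mslope_comp_le hf hφ hφ0 hL] with x hx hy hz hw
  refine le_antisymm hw ?_
  rw [hz, deriv.fun_neg] at hy
  rcases abs_cases (deriv φ (f x)) with ⟨h, -⟩ | ⟨h, -⟩ <;> rw [h] <;> linarith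

end Vale.Agent.P233.Met
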