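import Vale.Agent.P233.Gamma
import Vale.Agent.P233.MetDense

open MeasureTheory Filter Topology
open scoped ENNReal NNReal

namespace Vale.Agent.P233

section
variable {M : Type*} [MetricSpace M] [MeasurableSpace M] {m : Measure M}

theorem relaxed_iff {f G : M →ₘ[m] ℝ} : IsRelaxedSlope f G ↔ Met.RSlope m f G := Iff.rfl

theorem isMinSlope_iff {f G : M →ₘ[m] ℝ} : IsMinSlope f G ↔ Met.RMin m f G := by
  constructor
  · rintro ⟨h1, h2⟩
    refine ⟨h1, fun H hH => ?_⟩
    have h3 : IsRelaxedSlope f (AEEqFun.mk H hH.2.1.1) :=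
      relaxed_iff.2 (hH.congr Filter.EventuallyEq.rfl (AEEqFun.coeFn_mk H _).symm)
    filter_upwards [le_iff_ae.1 (h2 _ h3), AEEqFun.coeFn_mk H hH.2.1.1] with x hx hy
    rwa [hy] at hx
  · rintro ⟨h1, h2⟩
    exact ⟨h1, fun G' hG' => le_iff_ae.2 (h2 _ hG')⟩

theorem mem_sob_iff {f : M →ₘ[m] ℝ} : f ∈ (sob m).W ↔ Met.W12 m f := by
  constructor
  · rintro ⟨G, hG⟩
    exact ⟨G, hG⟩
  · rintro ⟨G, hG⟩
    exact ⟨AEEqFun.mk G hG.2.1.1,
      relaxed_iff.2 (hG.congr Filter.EventuallyEq.rfl (AEEqFun.coeFn_mk G _).symm)⟩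

variable [BorelSpace M]

theorem exists_minSlope' {f : M →ₘ[m] ℝ} (hf : f ∈ (sob m).W) : IsMinSlope f (slope f) := by
  have h1 := mem_sob_iff.1 hf
  obtain ⟨G, hG⟩ := Met.exists_rmin (m := m) h1.choose_spec
  have h2 : IsMinSlope f (AEEqFun.mk G hG.1.2.1.1) := by
    rw [isMinSlope_iff]
    have hae := AEEqFun.coeFn_mk G hG.1.2.1.1
    refine ⟨hG.1.congr Filter.EventuallyEq.rfl hae.symm, fun H hH => ?_⟩
    filter_upwards [hG.2 H hH, hae] with x hx hy
    rwa [hy]
  have h3 : ∃ G, IsMinSlope f G := ⟨_, h2⟩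
  unfold slope
  rw [dif_pos h3]
  exact h3.choose_spec

theorem slope_ae {f : M →ₘ[m] ℝ} (hf : f ∈ (sob m).W) : ⇑(slope f) =ᵐ[m] Met.mslope m f :=
  (isMinSlope_iff.1 (exists_minSlope' hf)).eq.symm

end

variable {M : Type*} [MetricSpace M] [MeasurableSpace M] [BorelSpace M]
  [SecondCountableTopology M] {m : Measure M}

/-! ### relaxed slopes; no assumption on `m` except finiteness on balls -/

theorem exists_minSlope (_hfin : ∀ (x : M) (r : ℝ), m (Metric.ball x r) < ∞) {f : M →ₘ[m] ℝ}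
    (hf : f ∈ (sob m).W) : IsMinSlope f (slope f) := exists_minSlope' hf

/-- `L²` convergence in terms of `I` -/
theorem eLpNorm_eq_I {f : M →ₘ[m] ℝ} (hf : MemLp f 2 m) :
    eLpNorm f 2 m = ENNReal.ofReal (Real.sqrt (I (f ^ 2))) := by
  have h1 : I (f ^ 2) = (eLpNorm f 2 m).toReal ^ 2 := by
    have h2 : (eLpNorm f 2 m).toReal = ‖hf.toLp‖ := (Lp.norm_toLp _ hf).symm
    rw [h2, ← real_inner_self_eq_norm_sq, L2.inner_def]
    unfold I
    refine integral_congr_ae ?_
    filter_upwards [hf.coeFn_toLp, sq_ae f] with x hx hy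
    rw [hy, hx]
    simp [sq]
  rw [h1, Real.sqrt_sq ENNReal.toReal_nonneg, ENNReal.ofReal_toReal hf.eLpNorm_lt_top.ne]

theorem tendsto_eLpNorm_of_I {u : ℕ → M →ₘ[m] ℝ} {f : M →ₘ[m] ℝ}
    (hu : ∀ n, MemLp (u n) 2 m) (hf : MemLp f 2 m)
    (h : Tendsto (fun n => I ((u n - f) ^ 2)) atTop (𝓝 0)) :
    Tendsto (fun n => eLpNorm ((⇑(u n) : M → ℝ) - ⇑f) 2 m) atTop (𝓝 0) := by
  have h1 : ∀ n, eLpNorm ((⇑(u n) : M → ℝ) - ⇑f) 2 m =
      ENNReal.ofReal (Real.sqrt (I ((u n - f) ^ 2))) := by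
    intro n
    rw [← eLpNorm_eq_I (mem_sub (hu n) hf)]
    exact eLpNorm_congr_ae (AEEqFun.coeFn_sub (u n) f).symm
  simp_rw [h1]
  have h2 := ENNReal.tendsto_ofReal ((Real.continuous_sqrt.tendsto 0).comp h)
  simpa [Function.comp_def] using h2

/-- closedness -/
theorem slope_closed (_hfin : ∀ (x : M) (r : ℝ), m (Metric.ball x r) < ∞) {u g : ℕ → M →ₘ[m] ℝ}
    {f G : M →ₘ[m] ℝ} (h : ∀ n, IsRelaxedSlope (u n) (g n)) (hf : MemLp f 2 m) (hG : MemLp G 2 m)
    (hu : Tendsto (fun n => I ((u n - f) ^ 2)) atTop (𝓝 0))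
    (hg : Tendsto (fun n => I ((g n - G) ^ 2)) atTop (𝓝 0)) : IsRelaxedSlope f G :=
  relaxed_iff.2 (Met.RSlope.of_tendsto (F := fun n => ⇑(u n)) (H := fun n => ⇑(g n)) hf hG
    (fun n => relaxed_iff.1 (h n))
    (tendsto_eLpNorm_of_I (fun n => (h n).1) hf hu)
    (tendsto_eLpNorm_of_I (fun n => (h n).2.1) hG hg))

theorem dense_L2_sob (hfin : ∀ (x : M) (r : ℝ), m (Metric.ball x r) < ∞) (f : M →ₘ[m] ℝ)
    (hf : MemLp f 2 m) (ε : ℝ) (hε : 0 < ε) : ∃ g ∈ (sob m).W, I ((f - g) ^ 2) < ε := by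
  have hε' : ENNReal.ofReal (Real.sqrt (ε / 2)) ≠ 0 := by
    rw [ne_eq, ENNReal.ofReal_eq_zero, not_le]
    exact Real.sqrt_pos.2 (by linarith)
  obtain ⟨g, hg1, hg2⟩ := Met.dense_W12 hfin hf hε'
  have hae := AEEqFun.coeFn_mk g hg2.memLp.1
  refine ⟨AEEqFun.mk g hg2.memLp.1, mem_sob_iff.2 (hg2.congr hae.symm), ?_⟩
  have hgm : MemLp (AEEqFun.mk g hg2.memLp.1) 2 m := (memLp_congr_ae hae).2 hg2.memLp
  have h1 := eLpNorm_eq_I (mem_sub hf hgm)
  have h2 : eLpNorm (f - AEEqFun.mk g hg2.memLp.1 : M →ₘ[m] ℝ) 2 m = eLpNorm (⇑f - g) 2 m := by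
    refine eLpNorm_congr_ae ?_
    filter_upwards [AEEqFun.coeFn_sub f (AEEqFun.mk g hg2.memLp.1), hae] with x hx hy
    rw [hx]
    simp [hy]
  rw [h2] at h1
  rw [h1] at hg1
  have h3 := (ENNReal.ofReal_le_ofReal_iff (Real.sqrt_nonneg _)).1 hg1
  have h4 := (Real.sqrt_le_sqrt_iff (by linarith)).1 h3
  linarith

/-- if `u` is Lipschitz then `|Du| ≤ lip u` -/
theorem slope_le_of_lipschitz (hfin : ∀ (x : M) (r : ℝ), m (Metric.ball x r) < ∞)
    {f : M →ₘ[m] ℝ} (hf : f ∈ (sob m).W) {u : M → ℝ} (hfu : f =ᵐ[m] u) {K : ℝ≥0}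
    (hu : LipschitzWith K u) : slope f ≤ (K : ℝ) • (1 : M →ₘ[m] ℝ) := by
  have hf' := mem_sob_iff.1 hf
  rw [le_iff_ae]
  rcases isEmpty_or_nonempty M with hM | ⟨⟨x₀⟩⟩
  · filter_upwards with x
    exact (hM.false x).elim
  have key : ∀ n : ℕ, ∀ᵐ x ∂m, dist x x₀ < n → Met.mslope m f x ≤ K := by
    intro n
    -- localized function
    set C : ℝ := |u x₀| + K * (n + 1) with hC
    have hC0 : 0 ≤ C := by positivity
    set w : M → ℝ := fun x => Met.cutoff x₀ n x * Met.trunc C (u x) with hw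
    have hcl : Met.IsLip (Met.cutoff x₀ n) := ⟨1, Met.cutoff_lip x₀ n⟩
    have htl : Met.IsLip (fun x => Met.trunc C (u x)) :=
      Met.IsLip.comp ⟨K, hu⟩ (Met.trunc_lip C)
    obtain ⟨L, hL⟩ : Met.IsLip w := hcl.mul htl
      ⟨1, fun x => abs_le.2 ⟨by linarith [Met.cutoff_nonneg x₀ n x], Met.cutoff_le_one x₀ n x⟩⟩
      ⟨C, fun x => Met.abs_trunc_le hC0 _⟩
    have hsupp : ∀ x, x ∉ Metric.ball x₀ ((n : ℝ) + 1) → w x = 0 := by
      intro x hx
      simp only [hw]
      rw [Met.cutoff_eq_zero hx, zero_mul]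
    have hgood := Met.good_of_bounded_support hfin hL hsupp
    have heq : ∀ x, dist x x₀ < n → w x = u x := by
      intro x hx
      simp only [hw]
      rw [Met.cutoff_eq_one hx.le, one_mul, Met.trunc_of_abs_le]
      have h1 := hu.dist_le_mul x x₀
      rw [Real.dist_eq] at h1
      have h3 : |u x| ≤ |u x₀| + |u x - u x₀| := by
        have := abs_add_le (u x₀) (u x - u x₀)
        simpa using this
      have h4 : (K : ℝ) * dist x x₀ ≤ K * (n + 1) := by
        gcongr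
        linarith
      linarith
    -- improved bound
    set b : M → ℝ := fun x => if dist x x₀ < n then (K : ℝ) else
      (Metric.ball x₀ ((n : ℝ) + 1 + 1)).indicator (fun _ => (L : ℝ)) x with hb
    have hbm : MeasurableSet {x : M | dist x x₀ < n} :=
      (isOpen_lt (by fun_prop) (by fun_prop)).measurableSet
    have hbmeas : Measurable b :=
      Measurable.ite hbm measurable_const
        (measurable_const.indicator Metric.isOpen_ball.measurableSet)
    have hgood2 : Met.Good m w b := by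
      refine Met.Good.mk' hgood.1 hgood.2.1 ?_ ?_
      · have h1 : MemLp ((Metric.ball x₀ ((n : ℝ) + 1 + 1)).indicator fun _ => (K + L : ℝ)) 2 m :=
          memLp_indicator_const 2 Metric.isOpen_ball.measurableSet _ (Or.inr (hfin x₀ _).ne)
        refine h1.mono hbmeas.aestronglyMeasurable ?_
        filter_upwards with x
        simp only [hb]
        split_ifs with hx
        · have : x ∈ Metric.ball x₀ ((n : ℝ) + 1 + 1) := by
            rw [Metric.mem_ball]; linarith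
          rw [Set.indicator_of_mem this, Real.norm_eq_abs, Real.norm_eq_abs]
          rw [abs_of_nonneg K.coe_nonneg, abs_of_nonneg (by positivity)]
          linarith [L.coe_nonneg]
        · by_cases hx2 : x ∈ Metric.ball x₀ ((n : ℝ) + 1 + 1)
          · rw [Set.indicator_of_mem hx2, Set.indicator_of_mem hx2, Real.norm_eq_abs,
              Real.norm_eq_abs, abs_of_nonneg L.coe_nonneg, abs_of_nonneg (by positivity)]
            linarith [K.coe_nonneg]
          · rw [Set.indicator_of_notMem hx2, Set.indicator_of_notMem hx2]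
      · filter_upwards [hgood.lipBd] with x hx
        simp only [hb]
        split_ifs with hxn
        · refine ⟨K.coe_nonneg, ?_⟩
          have h1 := Met.LipBd.of_lipschitz hu x
          intro c hc
          have h2 : ∀ᶠ y in 𝓝 x, dist y x₀ < n :=
            (continuous_id.dist continuous_const).continuousAt.eventually_lt_const hxn
          filter_upwards [h1 c hc, h2] with y hy hy2
          rwa [heq y hy2, heq x hxn]
        · exact hx
    have h1 : Met.W12 m w := ⟨_, hgood2.rSlope⟩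
    filter_upwards [hgood2.rSlope.mslope_le, Met.mslope_eq_of_sub_eq_const hf' h1 0, hfu]
      with x hx hy hz hxn
    have h2 : Met.mslope m f x = Met.mslope m w x := hy (by rw [hz, heq x hxn, sub_self])
    rw [h2]
    refine hx.trans ?_
    simp only [hb]
    rw [if_pos hxn]
  have key' := ae_all_iff.2 key
  filter_upwards [key', slope_ae hf, smul_ae (1 : M →ₘ[m] ℝ) (K : ℝ), one_ae (M := M) (m := m)]
    with x h1 h2 h3 h4
  obtain ⟨n, hn⟩ := exists_nat_gt (dist x x₀)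
  rw [h2, h3, h4, mul_one]
  exact h1 n hn

end Vale.Agent.P233
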