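import Vale.Agent.P233.Basic

open MeasureTheory Filter Topology
open scoped ENNReal NNReal InnerProductSpace

namespace Vale.Agent.P233

variable {M : Type*} [MeasurableSpace M] {m : Measure M} {C : Calc m}

namespace IsDir

variable (hC : IsDir C)

/-- `W` as a subspace -/
def hsub (hC : IsDir C) : Submodule ℝ (M →ₘ[m] ℝ) where
  carrier := C.W
  add_mem' := fun {a b} ha hb => hC.add_mem a ha b hb
  zero_mem' := hC.zero_mem
  smul_mem' := fun c x hx => hC.smul_mem c x hx

/-- `W` as a type -/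
def HS (hC : IsDir C) : Type _ := hC.hsub

noncomputable instance : AddCommGroup hC.HS := inferInstanceAs (AddCommGroup hC.hsub)
noncomputable instance : Module ℝ hC.HS := inferInstanceAs (Module ℝ hC.hsub)

/-- the function class -/
def HS.val {hC : IsDir C} (x : hC.HS) : M →ₘ[m] ℝ := (x : hC.hsub).1

def HS.mk {hC : IsDir C} (f : M →ₘ[m] ℝ) (hf : f ∈ C.W) : hC.HS := (⟨f, hf⟩ : hC.hsub)

theorem HS.mem {hC : IsDir C} (x : hC.HS) : x.val ∈ C.W := (x : hC.hsub).2
@[simp] theorem HS.val_mk {hC : IsDir C} (f : M →ₘ[m] ℝ) (hf : f ∈ C.W) :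
  (HS.mk f hf : hC.HS).val = f := rfl
@[simp] theorem HS.val_add {hC : IsDir C} (x y : hC.HS) : (x + y).val = x.val + y.val := rfl
@[simp] theorem HS.val_sub {hC : IsDir C} (x y : hC.HS) : (x - y).val = x.val - y.val := rfl
@[simp] theorem HS.val_smul {hC : IsDir C} (c : ℝ) (x : hC.HS) : (c • x).val = c • x.val := rfl
theorem HS.ext {hC : IsDir C} {x y : hC.HS} (h : x.val = y.val) : x = y := Subtype.ext h

/-- inner product with weight -/
noncomputable def core (hC : IsDir C) {lam : ℝ} (hl : 0 < lam) : InnerProductSpace.Core ℝ hC.HS where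
  inner x y := I (x.val * y.val) + lam * I (C.Γ x.val y.val)
  conj_inner_symm x y := by
    simp only [conj_trivial]
    rw [mul_comm y.val, hC.symm y.val y.mem x.val x.mem]
  re_inner_nonneg x := by
    simp only [RCLike.re_to_real]
    have h1 := I_sq_nonneg x.val
    have h2 := I_nonneg (hC.nonneg x.val x.mem)
    rw [sq] at h1
    positivity
  add_left x y z := by
    simp only [HS.val_add]
    rw [hC.add_left _ x.mem _ y.mem _ z.mem, add_mul,
      I_add (mem_mul_22 (hC.memLp _ x.mem) (hC.memLp _ z.mem))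
        (mem_mul_22 (hC.memLp _ y.mem) (hC.memLp _ z.mem)),
      I_add (hC.Γ_mem1 x.mem z.mem) (hC.Γ_mem1 y.mem z.mem)]
    ring
  smul_left x y r := by
    simp only [HS.val_smul, conj_trivial]
    rw [hC.smul_left _ _ x.mem _ y.mem, smul_mul_assoc, I_smul, I_smul]
    ring
  definite x h := by
    have h1 := I_sq_nonneg x.val
    have h2 := I_nonneg (hC.nonneg x.val x.mem)
    have h3 : I (x.val * x.val) + lam * I (C.Γ x.val x.val) = 0 := h
    rw [← sq] at h3
    have h4 : I (x.val ^ 2) = 0 := by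
      have : 0 ≤ lam * I (C.Γ x.val x.val) := by positivity
      linarith
    exact HS.ext (I_sq_eq_zero (hC.memLp _ x.mem) h4)

theorem exists_riesz (hC : IsDir C) {lam : ℝ} (hl : 0 < lam) {f : M →ₘ[m] ℝ} (hf : MemLp f 2 m) :
    ∃ u ∈ C.W, ∀ g ∈ C.W, I (u * g) + lam * I (C.Γ u g) = I (f * g) := by
  letI cI : InnerProductSpace.Core ℝ hC.HS := hC.core hl
  letI nI : NormedAddCommGroup hC.HS := cI.toNormedAddCommGroup
  letI iI : InnerProductSpace ℝ hC.HS := InnerProductSpace.ofCore cI.toCore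
  have hin : ∀ x y : hC.HS, ⟪x, y⟫_ℝ = I (x.val * y.val) + lam * I (C.Γ x.val y.val) :=
    fun x y => rfl
  have hnorm : ∀ x : hC.HS, ‖x‖ ^ 2 = I (x.val ^ 2) + lam * I (C.Γ x.val x.val) := fun x => by
    rw [← real_inner_self_eq_norm_sq, hin, sq]
  have hE0 : ∀ x : hC.HS, 0 ≤ I (C.Γ x.val x.val) := fun x => I_nonneg (hC.nonneg _ x.mem)
  have hL0 : ∀ x : hC.HS, 0 ≤ I (x.val ^ 2) := fun x => I_sq_nonneg _
  -- completeness
  haveI : CompleteSpace hC.HS := by
    refine Metric.complete_of_cauchySeq_tendsto fun u hu => ?_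
    set K : ℝ := 1 + lam⁻¹ with hK
    have hK1 : 1 ≤ K := by rw [hK]; linarith [inv_pos.2 hl]
    have hKl : 1 ≤ K * lam := by
      rw [hK, add_mul, inv_mul_cancel₀ hl.ne']; linarith
    have hle : ∀ x : hC.HS, C.nrm2 x.val ≤ K * ‖x‖ ^ 2 := by
      intro x
      rw [hnorm]
      unfold Calc.nrm2
      nlinarith [hE0 x, hL0 x]
    have hge : ∀ x : hC.HS, ‖x‖ ^ 2 ≤ (1 + lam) * C.nrm2 x.val := by
      intro x
      rw [hnorm]
      unfold Calc.nrm2
      nlinarith [hE0 x, hL0 x]
    obtain ⟨f, hf, hlim⟩ := hC.complete (fun n => (u n).val) (fun n => (u n).mem) (by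
      intro ε hε
      rw [Metric.cauchySeq_iff] at hu
      obtain ⟨N, hN⟩ := hu (Real.sqrt (ε / K)) (Real.sqrt_pos.2 (by positivity))
      refine ⟨N, fun n hn k hk => ?_⟩
      have h1 := hN n hn k hk
      rw [dist_eq_norm] at h1
      have h2 : ‖u n - u k‖ ^ 2 < ε / K := by
        rw [← Real.sq_sqrt (show 0 ≤ ε / K by positivity)]
        have := norm_nonneg (u n - u k)
        gcongr
      have h3 := hle (u n - u k)
      rw [HS.val_sub] at h3
      calc C.nrm2 ((u n).val - (u k).val) ≤ K * ‖u n - u k‖ ^ 2 := h3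
        _ < K * (ε / K) := by gcongr
        _ = ε := by field_simp)
    refine ⟨HS.mk f hf, ?_⟩
    rw [tendsto_iff_norm_sub_tendsto_zero]
    have h1 : Tendsto (fun n => ‖u n - HS.mk f hf‖ ^ 2) atTop (𝓝 0) := by
      refine squeeze_zero (fun n => sq_nonneg _) (fun n => hge _) ?_
      simpa using hlim.const_mul (1 + lam)
    have h2 := (Real.continuous_sqrt.tendsto 0).comp h1
    simpa [Function.comp_def, Real.sqrt_sq (norm_nonneg _)] using h2
  -- the functional
  let ℓ0 : hC.HS →ₗ[ℝ] ℝ :=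
    { toFun := fun g => I (f * g.val)
      map_add' := fun x y => by
        rw [HS.val_add, mul_add, I_add (mem_mul_22 hf (hC.memLp _ x.mem))
          (mem_mul_22 hf (hC.memLp _ y.mem))]
      map_smul' := fun c x => by
        rw [HS.val_smul, mul_smul_comm, I_smul]; rfl }
  let ℓ : hC.HS →L[ℝ] ℝ := ℓ0.mkContinuous (Real.sqrt (I (f ^ 2))) (by
    intro x
    show |I (f * x.val)| ≤ _
    refine (I_abs_le hf (hC.memLp _ x.mem)).trans ?_
    refine mul_le_mul_of_nonneg_left ?_ (Real.sqrt_nonneg _)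
    rw [← Real.sqrt_sq (norm_nonneg x)]
    refine Real.sqrt_le_sqrt ?_
    rw [hnorm]
    have := hE0 x
    have : 0 ≤ lam * I (C.Γ x.val x.val) := by positivity
    linarith)
  refine ⟨((InnerProductSpace.toDual ℝ hC.HS).symm ℓ).val, HS.mem _, fun g hg => ?_⟩
  have h1 : ⟪(InnerProductSpace.toDual ℝ hC.HS).symm ℓ, HS.mk g hg⟫_ℝ = ℓ (HS.mk g hg) :=
    InnerProductSpace.toDual_symm_apply
  rw [hin] at h1
  exact h1

end IsDir

end Vale.Agent.P233
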