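import Vale.Agent.P233.ResHilb

open MeasureTheory Filter Topology
open scoped ENNReal NNReal

namespace Vale.Agent.P233

variable {M : Type*} [MeasurableSpace M] {m : Measure M}

/-- `u` solves `u - lam Δu = f` weakly. -/
def Calc.IsRes (C : Calc m) (lam : ℝ) (f u : M →ₘ[m] ℝ) : Prop :=
  u ∈ C.W ∧ ∀ g ∈ C.W, I (u * g) + lam * I (C.Γ u g) = I (f * g)

open Classical in
/-- the resolvent `J_lam = (1 - lam Δ)⁻¹` -/
noncomputable def Calc.J (C : Calc m) (lam : ℝ) (f : M →ₘ[m] ℝ) : M →ₘ[m] ℝ :=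
  if h : ∃ u, C.IsRes lam f u then h.choose else 0

variable {C : Calc m}

theorem tendsto_inv_succ : Tendsto (fun n : ℕ => ((n : ℝ) + 1)⁻¹) atTop (𝓝 0) := by
  have := tendsto_one_div_add_atTop_nhds_zero_nat (𝕜 := ℝ)
  simpa using this

namespace IsDir

variable (hC : IsDir C)
include hC
variable {lam : ℝ} {f g h : M →ₘ[m] ℝ}

theorem exists_res (hl : 0 < lam) (hf : MemLp f 2 m) : ∃ u, C.IsRes lam f u := by
  obtain ⟨u, h1, h2⟩ := hC.exists_riesz hl hf
  exact ⟨u, h1, h2⟩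

theorem res_unique (hl : 0 < lam) (h1 : C.IsRes lam f g) (h2 : C.IsRes lam f h) : g = h := by
  have hgh := hC.sub_mem h1.1 h2.1
  have e1 := h1.2 _ hgh
  have e2 := h2.2 _ hgh
  have m1 := hC.memLp _ h1.1
  have m2 := hC.memLp _ h2.1
  have m3 := hC.memLp _ hgh
  have k1 : I ((g - h) * (g - h)) = I (g * (g - h)) - I (h * (g - h)) := by
    rw [sub_mul, I_sub (mem_mul_22 m1 m3) (mem_mul_22 m2 m3)]
  have k2 : I (C.Γ (g - h) (g - h)) = I (C.Γ g (g - h)) - I (C.Γ h (g - h)) := by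
    rw [hC.Γ_sub_left h1.1 h2.1 hgh, I_sub (hC.Γ_mem1 h1.1 hgh) (hC.Γ_mem1 h2.1 hgh)]
  have k3 := I_nonneg (hC.nonneg _ hgh)
  have k4 := I_sq_nonneg (g - h)
  rw [sq] at k4
  have k5 : 0 ≤ lam * I (C.Γ (g - h) (g - h)) := by positivity
  have k6 : I ((g - h) ^ 2) = 0 := by
    rw [sq]
    have : I ((g - h) * (g - h)) + lam * I (C.Γ (g - h) (g - h)) = 0 := by
      rw [k1, k2]; linarith
    linarith
  exact sub_eq_zero.1 (I_sq_eq_zero m3 k6)

theorem J_spec (hl : 0 < lam) (hf : MemLp f 2 m) : C.IsRes lam f (C.J lam f) := by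
  have h := hC.exists_res hl hf
  unfold Calc.J
  rw [dif_pos h]
  exact h.choose_spec

theorem J_eq (hl : 0 < lam) (h1 : C.IsRes lam f g) : C.J lam f = g := by
  have h : ∃ u, C.IsRes lam f u := ⟨g, h1⟩
  have h2 : C.IsRes lam f (C.J lam f) := by
    unfold Calc.J
    rw [dif_pos h]
    exact h.choose_spec
  exact hC.res_unique hl h2 h1

theorem J_mem (hl : 0 < lam) (hf : MemLp f 2 m) : C.J lam f ∈ C.W := (hC.J_spec hl hf).1

theorem J_mem2 (hl : 0 < lam) (hf : MemLp f 2 m) : MemLp (C.J lam f) 2 m :=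
  hC.memLp _ (hC.J_mem hl hf)

theorem J_add (hl : 0 < lam) (hf : MemLp f 2 m) (hg : MemLp g 2 m) :
    C.J lam (f + g) = C.J lam f + C.J lam g := by
  refine hC.J_eq hl ⟨hC.add_mem _ (hC.J_mem hl hf) _ (hC.J_mem hl hg), fun k hk => ?_⟩
  have a1 := (hC.J_spec hl hf).2 k hk
  have a2 := (hC.J_spec hl hg).2 k hk
  have hk2 := hC.memLp k hk
  rw [add_mul, add_mul, I_add (mem_mul_22 (hC.J_mem2 hl hf) hk2)
    (mem_mul_22 (hC.J_mem2 hl hg) hk2), I_add (mem_mul_22 hf hk2) (mem_mul_22 hg hk2),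
    hC.add_left _ (hC.J_mem hl hf) _ (hC.J_mem hl hg) k hk,
    I_add (hC.Γ_mem1 (hC.J_mem hl hf) hk) (hC.Γ_mem1 (hC.J_mem hl hg) hk)]
  linarith

theorem J_smul (hl : 0 < lam) (c : ℝ) (hf : MemLp f 2 m) :
    C.J lam (c • f) = c • C.J lam f := by
  refine hC.J_eq hl ⟨hC.smul_mem c _ (hC.J_mem hl hf), fun k hk => ?_⟩
  have a1 := (hC.J_spec hl hf).2 k hk
  rw [smul_mul_assoc, smul_mul_assoc, I_smul, I_smul, hC.smul_left c _ (hC.J_mem hl hf) k hk,
    I_smul, ← a1]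
  ring

theorem J_neg (hl : 0 < lam) (hf : MemLp f 2 m) : C.J lam (-f) = -C.J lam f := by
  have := hC.J_smul hl (-1) hf
  simpa using this

theorem J_sub (hl : 0 < lam) (hf : MemLp f 2 m) (hg : MemLp g 2 m) :
    C.J lam (f - g) = C.J lam f - C.J lam g := by
  rw [sub_eq_add_neg, hC.J_add hl hf (mem_neg hg), hC.J_neg hl hg, ← sub_eq_add_neg]

theorem J_isLap (hl : 0 < lam) (hf : MemLp f 2 m) :
    C.IsLap (C.J lam f) (lam⁻¹ • (C.J lam f - f)) := by
  refine ⟨hC.J_mem hl hf, mem_smul _ (mem_sub (hC.J_mem2 hl hf) hf), fun g hg => ?_⟩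
  have a1 := (hC.J_spec hl hf).2 g hg
  have hg2 := hC.memLp g hg
  show I (C.Γ (C.J lam f) g) = -I (lam⁻¹ • (C.J lam f - f) * g)
  rw [smul_mul_assoc, I_smul, sub_mul, I_sub (mem_mul_22 (hC.J_mem2 hl hf) hg2)
    (mem_mul_22 hf hg2), ← a1]
  field_simp
  ring

/-- the energy estimate -/
theorem J_energy (hl : 0 < lam) (hf : MemLp f 2 m) :
    I (C.J lam f ^ 2) + lam * I (C.Γ (C.J lam f) (C.J lam f)) = I (f * C.J lam f) := by
  have a1 := (hC.J_spec hl hf).2 _ (hC.J_mem hl hf)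
  rw [← sq] at a1
  exact a1

theorem J_contr (hl : 0 < lam) (hf : MemLp f 2 m) :
    I (C.J lam f ^ 2) + lam * I (C.Γ (C.J lam f) (C.J lam f)) ≤ I (f ^ 2) := by
  have a1 := hC.J_energy hl hf
  have a2 := I_nonneg (hC.nonneg _ (hC.J_mem hl hf))
  have a3 : 0 ≤ lam * I (C.Γ (C.J lam f) (C.J lam f)) := by positivity
  have a4 := I_cs hf (hC.J_mem2 hl hf)
  have a5 := I_sq_nonneg f
  have a6 := I_sq_nonneg (C.J lam f)
  rw [← a1] at a4
  rw [a1]
  rw [← a1]
  set A := I (C.J lam f ^ 2)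
  set B := lam * I (C.Γ (C.J lam f) (C.J lam f))
  set D := I (f ^ 2)
  -- (A + B)² ≤ D A
  by_contra hcon
  push Not at hcon
  nlinarith

theorem J_sq_le (hl : 0 < lam) (hf : MemLp f 2 m) : I (C.J lam f ^ 2) ≤ I (f ^ 2) := by
  have a1 := hC.J_contr hl hf
  have a2 := I_nonneg (hC.nonneg _ (hC.J_mem hl hf))
  have a3 : 0 ≤ lam * I (C.Γ (C.J lam f) (C.J lam f)) := by positivity
  linarith

/-- the maximum principle -/
theorem J_le (hl : 0 < lam) (hf : MemLp f 2 m) {K : ℝ} (hK : 0 ≤ K)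
    (h0 : f ≤ K • (1 : M →ₘ[m] ℝ)) : C.J lam f ≤ K • (1 : M →ₘ[m] ℝ) := by
  set u := C.J lam f with hu
  have huW : u ∈ C.W := hC.J_mem hl hf
  -- test function
  set s : ℝ → ℝ := fun t => max (t - K) 0 with hs
  set φ : ℝ → ℝ := fun t => s t - Real.arctan (s t) with hφ
  set φ' : ℝ → ℝ := fun t => s t ^ 2 / (1 + s t ^ 2) with hφ'
  have hsc : Continuous s := (continuous_id.sub continuous_const).max continuous_const
  have hφc : Continuous φ := hsc.sub (Real.continuous_arctan.comp hsc)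
  have hφ'c : Continuous φ' := (hsc.pow 2).div (continuous_const.add (hsc.pow 2))
    (fun t => by positivity)
  -- auxiliary function
  have hbase : ∀ r : ℝ, HasDerivAt (fun r : ℝ => r - Real.arctan r) (r ^ 2 / (1 + r ^ 2)) r := by
    intro r
    have h1 := (hasDerivAt_id' r).sub (Real.hasDerivAt_arctan r)
    refine h1.congr_deriv ?_
    have : (0 : ℝ) < 1 + r ^ 2 := by positivity
    field_simp
    ring
  have hd : ∀ t, HasDerivAt φ (φ' t) t := by
    intro t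
    rcases lt_trichotomy t K with ht | ht | ht
    · have e1 : φ =ᶠ[𝓝 t] fun _ => 0 := by
        filter_upwards [gt_mem_nhds ht] with y hy
        simp only [hφ, hs]
        rw [max_eq_right (by linarith)]
        simp
      have e2 : φ' t = 0 := by
        simp only [hφ', hs]
        rw [max_eq_right (by linarith)]
        simp
      rw [e2]
      exact (hasDerivAt_const t (0 : ℝ)).congr_of_eventuallyEq e1
    · have e2 : φ' t = 0 := by
        simp only [hφ', hs]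
        rw [max_eq_right (by linarith)]
        simp
      rw [e2]
      -- |φ(y)| ≤ small
      have hb := hbase 0
      simp only [ne_eq, OfNat.ofNat_ne_zero, not_false_eq_true, zero_pow, add_zero, zero_div] at hb
      rw [hasDerivAt_iff_isLittleO] at hb ⊢
      have h3 : Tendsto (fun y => s y) (𝓝 t) (𝓝 0) := by
        have := hsc.tendsto t
        have e3 : s t = 0 := by simp only [hs]; rw [max_eq_right (by linarith)]
        rwa [e3] at this
      have h4 := hb.comp_tendsto h3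
      simp only [Function.comp_def, sub_zero, smul_zero, Real.arctan_zero] at h4 ⊢
      have e4 : φ t = 0 := by
        simp only [hφ, hs]
        rw [max_eq_right (by linarith)]
        simp
      rw [e4]
      simp only [sub_zero]
      refine h4.trans_isBigO ?_
      refine Asymptotics.IsBigO.of_bound 1 ?_
      filter_upwards with y
      rw [one_mul, Real.norm_eq_abs, Real.norm_eq_abs]
      simp only [hs]
      rw [abs_of_nonneg (le_max_right _ _)]
      subst ht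
      exact max_le (le_abs_self _) (abs_nonneg _)
    · have e1 : φ =ᶠ[𝓝 t] fun y => (y - K) - Real.arctan (y - K) := by
        filter_upwards [lt_mem_nhds ht] with y hy
        simp only [hφ, hs]
        rw [max_eq_left (by linarith)]
      have e2 : φ' t = (t - K) ^ 2 / (1 + (t - K) ^ 2) := by
        simp only [hφ', hs]
        rw [max_eq_left (by linarith)]
      rw [e2]
      have h5 := (hbase (t - K)).comp_sub_const t K
      exact h5.congr_of_eventuallyEq e1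
  have hφ'0 : ∀ t, 0 ≤ φ' t := fun t => by simp only [hφ']; positivity
  have hφ'1 : ∀ t, |φ' t| ≤ 1 := by
    intro t
    rw [abs_of_nonneg (hφ'0 t)]
    simp only [hφ']
    rw [div_le_one (by positivity)]
    linarith
  have hφ0 : φ 0 = 0 := by
    simp only [hφ, hs]
    rw [max_eq_right (by linarith)]
    simp
  have hφpos : ∀ t, K < t → 0 < φ t := by
    intro t ht
    have h1 : 0 < t - K := by linarith
    simp only [hφ, hs]
    rw [max_eq_left h1.le]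
    have h2 := Real.lt_tan (Real.arctan_pos.2 h1) (Real.arctan_lt_pi_div_two _)
    rw [Real.tan_arctan] at h2
    linarith
  have hφzero : ∀ t, t ≤ K → φ t = 0 := by
    intro t ht
    simp only [hφ, hs]
    rw [max_eq_right (by linarith)]
    simp
  obtain ⟨hv, hΓ⟩ := hC.chain u huW φ φ' hφc hφ'c hd hφ0 ⟨1, hφ'1⟩
  set v := AEEqFun.comp φ hφc u with hvdef
  have hv2 := hC.memLp v hv
  have hu2 := hC.memLp u huW
  have a1 := (hC.J_spec hl hf).2 v hv
  rw [← hu] at a1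
  have a2 : C.Γ u v = AEEqFun.comp φ' hφ'c u * C.Γ u u := by
    rw [hC.symm u huW v hv, hΓ u huW]
  have a3 : 0 ≤ I (C.Γ u v) := by
    rw [a2]
    refine I_nonneg ?_
    refine mul_nonneg ?_ (hC.nonneg u huW)
    rw [nonneg_iff_ae]
    filter_upwards [AEEqFun.coeFn_comp φ' hφ'c u] with x hx
    rw [hx]; exact hφ'0 _
  have a4 : I ((u - f) * v) ≤ 0 := by
    rw [sub_mul, I_sub (mem_mul_22 hu2 hv2) (mem_mul_22 hf hv2)]
    have : 0 ≤ lam * I (C.Γ u v) := by positivity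
    linarith
  have a5 : 0 ≤ (u - f) * v := by
    rw [nonneg_iff_ae]
    filter_upwards [mul_ae (u - f) v, sub_ae u f, AEEqFun.coeFn_comp φ hφc u, le_iff_ae.1 h0,
      smul_ae (1 : M →ₘ[m] ℝ) K, one_ae (M := M) (m := m)] with x b1 b2 b3 b4 b5 b6
    rw [b5, b6, mul_one] at b4
    rw [b1, b2, b3]
    rcases le_or_gt (u x) K with hle | hgt
    · simp [hφzero _ hle]
    · exact mul_nonneg (by linarith) (hφpos _ hgt).le
  have a6 := I_eq_zero_of_nonneg (mem_mul_22 (mem_sub hu2 hf) hv2) a5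
    (le_antisymm a4 (I_nonneg a5))
  rw [le_iff_ae]
  filter_upwards [eq_iff_ae.1 a6, mul_ae (u - f) v, sub_ae u f, AEEqFun.coeFn_comp φ hφc u,
    le_iff_ae.1 h0, smul_ae (1 : M →ₘ[m] ℝ) K, one_ae (M := M) (m := m),
    zero_ae (M := M) (m := m)] with x b0 b1 b2 b3 b4 b5 b6 b7
  rw [b5, b6, mul_one] at b4
  rw [b5, b6, mul_one]
  by_contra hcon
  push Not at hcon
  rw [b1, b2, b3, b7] at b0
  have c1 := hφpos _ hcon
  have c2 : 0 < (u x - f x) * φ (u x) := mul_pos (by linarith) c1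
  simp only [Function.comp_apply] at b0
  linarith

theorem J_nonneg (hl : 0 < lam) (hf : MemLp f 2 m) (h0 : 0 ≤ f) : 0 ≤ C.J lam f := by
  have h1 := hC.J_le hl (mem_neg hf) (K := 0) le_rfl (by rw [zero_smul]; exact neg_nonpos.2 h0)
  rw [hC.J_neg hl hf, zero_smul] at h1
  exact neg_nonpos.1 h1

theorem J_bdd (hl : 0 < lam) (hf : MemLp f 2 m) {K : ℝ} (h0 : ∀ᵐ x ∂m, |f x| ≤ K) :
    ∀ᵐ x ∂m, |C.J lam f x| ≤ K := by
  rcases lt_or_ge K 0 with hK | hK
  · filter_upwards [h0] with x hx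
    linarith [abs_nonneg (f x)]
  have h1 := hC.J_le hl hf hK (by
    rw [le_iff_ae]
    filter_upwards [h0, smul_ae (1 : M →ₘ[m] ℝ) K, one_ae (M := M) (m := m)] with x a1 a2 a3
    rw [a2, a3, mul_one]
    exact (le_abs_self _).trans a1)
  have h2 := hC.J_le hl (mem_neg hf) hK (by
    rw [le_iff_ae]
    filter_upwards [h0, smul_ae (1 : M →ₘ[m] ℝ) K, one_ae (M := M) (m := m), neg_ae f]
      with x a1 a2 a3 a4
    rw [a2, a3, mul_one, a4]
    exact (neg_le_abs _).trans a1)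
  rw [hC.J_neg hl hf] at h2
  rw [le_iff_ae] at h1 h2
  filter_upwards [h1, h2, smul_ae (1 : M →ₘ[m] ℝ) K, one_ae (M := M) (m := m),
    neg_ae (C.J lam f)] with x a1 a2 a3 a4 a5
  rw [a3, a4, mul_one] at a1 a2
  rw [a5] at a2
  exact abs_le.2 ⟨by linarith, a1⟩

theorem J_symm (hl : 0 < lam) (hf : MemLp f 2 m) (hg : MemLp g 2 m) :
    I (C.J lam f * g) = I (f * C.J lam g) := by
  have a1 := (hC.J_spec hl hf).2 _ (hC.J_mem hl hg)
  have a2 := (hC.J_spec hl hg).2 _ (hC.J_mem hl hf)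
  rw [hC.symm _ (hC.J_mem hl hg) _ (hC.J_mem hl hf), mul_comm (C.J lam g)] at a2
  rw [mul_comm (C.J lam f) g]
  linarith

/-- `L¹` contraction -/
theorem J_L1 (hl : 0 < lam) (hf : MemLp f 2 m) (hf1 : MemLp f 1 m) (h0 : 0 ≤ f) :
    MemLp (C.J lam f) 1 m ∧ I (C.J lam f) ≤ I f := by
  set u := C.J lam f with hu
  have hu0 : 0 ≤ u := hC.J_nonneg hl hf h0
  have hu2 : MemLp u 2 m := hC.J_mem2 hl hf
  have hum : StronglyMeasurable (u : M → ℝ) := AEEqFun.stronglyMeasurable u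
  -- superlevel sets
  have hSm : ∀ k : ℕ, MeasurableSet {x | ((k : ℝ) + 1)⁻¹ < u x} := fun k =>
    measurableSet_lt measurable_const hum.measurable
  have hSfin : ∀ k : ℕ, m {x | ((k : ℝ) + 1)⁻¹ < u x} < ∞ := by
    intro k
    have h1 := mul_meas_ge_le_pow_eLpNorm' m (p := 2) two_ne_zero (by simp) hu2.1
      (ENNReal.ofReal ((k : ℝ) + 1)⁻¹)
    have h2 : m {x | ((k : ℝ) + 1)⁻¹ < u x} ≤ m {x | ENNReal.ofReal ((k : ℝ) + 1)⁻¹ ≤ ‖u x‖ₑ} := by
      refine measure_mono fun x hx => ?_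
      simp only [Set.mem_setOf_eq] at hx ⊢
      rw [← ofReal_norm_eq_enorm, Real.norm_eq_abs]
      exact ENNReal.ofReal_le_ofReal (hx.le.trans (le_abs_self _))
    refine h2.trans_lt ?_
    by_contra hcon
    push Not at hcon
    rw [top_le_iff] at hcon
    rw [hcon] at h1
    have h3 : eLpNorm (⇑u) 2 m ^ (2 : ℝ≥0∞).toReal < ∞ :=
      ENNReal.rpow_lt_top_of_nonneg (by simp) hu2.eLpNorm_lt_top.ne
    rw [ENNReal.mul_top] at h1
    · exact absurd (top_le_iff.1 h1) h3.ne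
    · have h4 : (0 : ℝ) < ((k : ℝ) + 1)⁻¹ := by positivity
      have h5 : ENNReal.ofReal ((k : ℝ) + 1)⁻¹ ≠ 0 := by
        rw [ne_eq, ENNReal.ofReal_eq_zero, not_le]; exact h4
      simp [h5]
  -- test with indicators
  have key : ∀ k : ℕ, ∫ x in {x | ((k : ℝ) + 1)⁻¹ < u x}, u x ∂m ≤ I f := by
    intro k
    have hind : MemLp (Set.indicator {x | ((k : ℝ) + 1)⁻¹ < u x} (fun _ => (1 : ℝ))) 2 m :=
      memLp_indicator_const 2 (hSm k) 1 (Or.inr (hSfin k).ne)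
    set g : M →ₘ[m] ℝ := AEEqFun.mk _ hind.1 with hg
    have hgae := AEEqFun.coeFn_mk _ hind.1
    have hg2 : MemLp g 2 m := (memLp_congr_ae hgae).2 hind
    have hg1 : g ≤ (1 : ℝ) • (1 : M →ₘ[m] ℝ) := by
      rw [le_iff_ae]
      filter_upwards [hgae, smul_ae (1 : M →ₘ[m] ℝ) (1 : ℝ), one_ae (M := M) (m := m)]
        with x a1 a2 a3
      rw [a2, a3, hg, a1, mul_one]
      exact Set.indicator_le_self' (fun _ _ => zero_le_one) x |>.trans le_rfl
    have h1 := hC.J_symm hl hf hg2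
    have h2 := hC.J_le hl hg2 zero_le_one hg1
    have h3 : I (f * C.J lam g) ≤ I f := by
      refine I_mono (mem_mul_22 hf (hC.J_mem2 hl hg2)) hf1 ?_
      rw [le_iff_ae]
      filter_upwards [mul_ae f (C.J lam g), le_iff_ae.1 h2, nonneg_iff_ae.1 h0,
        smul_ae (1 : M →ₘ[m] ℝ) (1 : ℝ), one_ae (M := M) (m := m)] with x a1 a2 a3 a4 a5
      rw [a1]
      rw [a4, a5, mul_one] at a2
      nlinarith
    rw [← h1] at h3
    refine le_trans (le_of_eq ?_) h3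
    unfold I
    rw [← integral_indicator (hSm k)]
    refine integral_congr_ae ?_
    filter_upwards [mul_ae u g, hgae] with x a1 a2
    rw [← hu, a1, hg, a2]
    by_cases hx : x ∈ {x | ((k : ℝ) + 1)⁻¹ < u x}
    · rw [Set.indicator_of_mem hx, Set.indicator_of_mem hx, mul_one]
    · rw [Set.indicator_of_notMem hx, Set.indicator_of_notMem hx, mul_zero]
  -- monotone convergence
  have hlint : ∫⁻ x, ENNReal.ofReal (u x) ∂m ≤ ENNReal.ofReal (I f) := by
    have hmono : Monotone fun (k : ℕ) (x : M) =>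
        Set.indicator {x | ((k : ℝ) + 1)⁻¹ < u x} (fun x => ENNReal.ofReal (u x)) x := by
      intro j k hjk x
      refine Set.indicator_le_indicator_of_subset (fun y hy => ?_) (fun _ => zero_le) x
      simp only [Set.mem_setOf_eq] at hy ⊢
      refine lt_of_le_of_lt ?_ hy
      have : (j : ℝ) ≤ k := by exact_mod_cast hjk
      gcongr
    have hmeas : ∀ k : ℕ, Measurable fun (x : M) =>
        Set.indicator {x | ((k : ℝ) + 1)⁻¹ < u x} (fun x => ENNReal.ofReal (u x)) x := fun k =>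
      (hum.measurable.ennreal_ofReal).indicator (hSm k)
    have hsup : ∀ᵐ x ∂m, ENNReal.ofReal (u x) ≤ ⨆ k : ℕ,
        Set.indicator {x | ((k : ℝ) + 1)⁻¹ < u x} (fun x => ENNReal.ofReal (u x)) x := by
      filter_upwards [nonneg_iff_ae.1 hu0] with x hx
      rcases hx.eq_or_lt with h | h
      · rw [← h]; simp
      · obtain ⟨k, hk⟩ := exists_nat_one_div_lt h
        rw [one_div] at hk
        refine le_iSup_of_le k ?_
        rw [Set.indicator_of_mem (show x ∈ {x | ((k : ℝ) + 1)⁻¹ < u x} from hk)]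
    calc ∫⁻ x, ENNReal.ofReal (u x) ∂m ≤ ∫⁻ x, ⨆ k : ℕ,
        Set.indicator {x | ((k : ℝ) + 1)⁻¹ < u x} (fun x => ENNReal.ofReal (u x)) x ∂m :=
          lintegral_mono_ae hsup
      _ = ⨆ k : ℕ, ∫⁻ x,
        Set.indicator {x | ((k : ℝ) + 1)⁻¹ < u x} (fun x => ENNReal.ofReal (u x)) x ∂m :=
          lintegral_iSup hmeas hmono
      _ ≤ ENNReal.ofReal (I f) := by
          refine iSup_le fun k => ?_
          rw [lintegral_indicator (hSm k), ← ofReal_integral_eq_lintegral_ofReal]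
          · exact ENNReal.ofReal_le_ofReal (key k)
          · haveI : IsFiniteMeasure (m.restrict {x | ((k : ℝ) + 1)⁻¹ < u x}) :=
              ⟨by rw [Measure.restrict_apply_univ]; exact hSfin k⟩
            exact (hu2.restrict _).integrable (by norm_num)
          · exact ae_restrict_of_ae (nonneg_iff_ae.1 hu0)
  have hint : Integrable u m := by
    refine ⟨u.aestronglyMeasurable, ?_⟩
    rw [hasFiniteIntegral_iff_ofReal (nonneg_iff_ae.1 hu0)]
    exact hlint.trans_lt ENNReal.ofReal_lt_top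
  refine ⟨memLp_one_iff_integrable.2 hint, ?_⟩
  unfold I
  rw [integral_eq_lintegral_of_nonneg_ae (nonneg_iff_ae.1 hu0) hint.1]
  exact ENNReal.toReal_le_of_le_ofReal (I_nonneg h0) hlint

/-- basic estimates for `f ∈ W` -/
theorem J_est (hl : 0 < lam) (hf : f ∈ C.W) :
    I (C.Γ (C.J lam f) (C.J lam f)) ≤ I (C.Γ (C.J lam f) f) ∧
    I (C.Γ (C.J lam f) (C.J lam f)) ≤ I (C.Γ f f) ∧
    I ((C.J lam f - f) ^ 2) ≤ lam * I (C.Γ f f) := by
  have hf2 := hC.memLp f hf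
  set u := C.J lam f with hu
  have huW : u ∈ C.W := hC.J_mem hl hf2
  have hu2 := hC.memLp u huW
  have huf := hC.sub_mem huW hf
  have huf2 := hC.memLp _ huf
  have a1 := (hC.J_spec hl hf2).2 (u - f) huf
  rw [← hu] at a1
  have a2 : I ((u - f) ^ 2) = I (u * (u - f)) - I (f * (u - f)) := by
    rw [sq, ← I_sub (mem_mul_22 hu2 huf2) (mem_mul_22 hf2 huf2), ← sub_mul]
  have a3 : I (C.Γ u (u - f)) = I (C.Γ u u) - I (C.Γ u f) := by
    rw [hC.Γ_sub_right huW huW hf, I_sub (hC.Γ_mem1 huW huW) (hC.Γ_mem1 huW hf)]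
  have a4 := I_sq_nonneg (u - f)
  have a5 : I ((u - f) ^ 2) = lam * (I (C.Γ u f) - I (C.Γ u u)) := by
    rw [a2]; rw [a3] at a1; linarith
  have a6 : I (C.Γ u u) ≤ I (C.Γ u f) := by
    by_contra hcon
    push Not at hcon
    have : lam * (I (C.Γ u f) - I (C.Γ u u)) < 0 := mul_neg_of_pos_of_neg hl (by linarith)
    linarith
  have a7 := hC.E_cs huW hf
  have a8 := I_nonneg (hC.nonneg _ huW)
  have a9 := I_nonneg (hC.nonneg _ hf)
  have a10 : I (C.Γ u u) ≤ I (C.Γ f f) := by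
    by_contra hcon
    push Not at hcon
    nlinarith
  refine ⟨a6, a10, ?_⟩
  rw [a5]
  refine mul_le_mul_of_nonneg_left ?_ hl.le
  have a11 : I (C.Γ u f) ≤ I (C.Γ f f) := by
    by_contra hcon
    push Not at hcon
    nlinarith
  linarith

/-- `J_lam f → f` in `L²` -/
theorem J_tendsto_L2 (hf : MemLp f 2 m) :
    Tendsto (fun n : ℕ => I ((C.J ((n : ℝ) + 1)⁻¹ f - f) ^ 2)) atTop (𝓝 0) := by
  rw [Metric.tendsto_atTop]
  intro ε hε
  obtain ⟨g, hg, hfg⟩ := hC.dense_L2 f hf (ε / 12) (by positivity)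
  have hg2 := hC.memLp g hg
  have h1 : Tendsto (fun n : ℕ => ((n : ℝ) + 1)⁻¹ * I (C.Γ g g)) atTop (𝓝 0) := by
    have := tendsto_inv_succ.mul_const (I (C.Γ g g))
    simpa using this
  obtain ⟨N, hN⟩ := (Metric.tendsto_atTop.1 h1) (ε / 12) (by positivity)
  refine ⟨N, fun n hn => ?_⟩
  have hl : (0 : ℝ) < ((n : ℝ) + 1)⁻¹ := by positivity
  have hN' := hN n hn
  rw [Real.dist_eq, sub_zero, abs_of_nonneg (mul_nonneg hl.le (I_nonneg (hC.nonneg g hg)))] at hN'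
  rw [Real.dist_eq, sub_zero, abs_of_nonneg (I_sq_nonneg _)]
  have hfg2 := mem_sub hf hg2
  have k1 := hC.J_sq_le hl hfg2
  have k2 := (hC.J_est hl hg).2.2
  have hJ := hC.J_sub hl hf hg2
  set u := C.J ((n : ℝ) + 1)⁻¹ f
  set v := C.J ((n : ℝ) + 1)⁻¹ g
  have hu2 : MemLp u 2 m := hC.J_mem2 hl hf
  have hv2 : MemLp v 2 m := hC.J_mem2 hl hg2
  rw [hJ] at k1
  have k3 : I ((u - f) ^ 2) ≤ 3 * I ((u - v) ^ 2) + 3 * I ((v - g) ^ 2) + 3 * I ((f - g) ^ 2) := by
    rw [← I_smul, ← I_smul, ← I_smul, ← I_add (mem_smul _ (mem_sq (mem_sub hu2 hv2)))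
      (mem_smul _ (mem_sq (mem_sub hv2 hg2))), ← I_add (mem_add (mem_smul _
      (mem_sq (mem_sub hu2 hv2))) (mem_smul _ (mem_sq (mem_sub hv2 hg2))))
      (mem_smul _ (mem_sq (mem_sub hf hg2)))]
    refine I_mono (mem_sq (mem_sub hu2 hf)) (mem_add (mem_add (mem_smul _
      (mem_sq (mem_sub hu2 hv2))) (mem_smul _ (mem_sq (mem_sub hv2 hg2))))
      (mem_smul _ (mem_sq (mem_sub hf hg2)))) ?_
    rw [le_iff_ae]
    filter_upwards [sq_ae (u - f), sub_ae u f, add_ae ((3 : ℝ) • (u - v) ^ 2 +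
      (3 : ℝ) • (v - g) ^ 2) ((3 : ℝ) • (f - g) ^ 2), add_ae ((3 : ℝ) • (u - v) ^ 2)
      ((3 : ℝ) • (v - g) ^ 2), smul_ae ((u - v) ^ 2) (3 : ℝ), smul_ae ((v - g) ^ 2) (3 : ℝ),
      smul_ae ((f - g) ^ 2) (3 : ℝ), sq_ae (u - v), sq_ae (v - g), sq_ae (f - g), sub_ae u v,
      sub_ae v g, sub_ae f g] with x b1 b2 b3 b4 b5 b6 b7 b8 b9 b10 b11 b12 b13
    rw [b1, b2, b3, b4, b5, b6, b7, b8, b9, b10, b11, b12, b13]
    nlinarith [sq_nonneg ((u x - v x) - (v x - g x)), sq_nonneg ((u x - v x) + (f x - g x)),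
      sq_nonneg ((v x - g x) + (f x - g x))]
  linarith

/-- `J_lam f → f` in `W` -/
theorem J_tendsto_W (hf : f ∈ C.W) :
    Tendsto (fun n : ℕ => C.nrm2 (C.J ((n : ℝ) + 1)⁻¹ f - f)) atTop (𝓝 0) := by
  have hf2 := hC.memLp f hf
  have h1 := hC.J_tendsto_L2 hf2
  have hl : ∀ n : ℕ, (0 : ℝ) < ((n : ℝ) + 1)⁻¹ := fun n => by positivity
  have hW : ∀ n : ℕ, C.J ((n : ℝ) + 1)⁻¹ f ∈ C.W := fun n => hC.J_mem (hl n) hf2
  -- lower semicontinuity
  have h2 : ∀ ε > 0, ∀ᶠ n : ℕ in atTop, I (C.Γ f f) - ε <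
      I (C.Γ (C.J ((n : ℝ) + 1)⁻¹ f) (C.J ((n : ℝ) + 1)⁻¹ f)) := by
    intro ε hε
    by_contra hcon
    rw [not_eventually] at hcon
    obtain ⟨ns, hns, hns2⟩ := extraction_of_frequently_atTop hcon
    have h3 := hC.mem_of_bounded (u := fun k => C.J (((ns k : ℕ) : ℝ) + 1)⁻¹ f) (f := f)
      (K := I (C.Γ f f) - ε) (fun k => hW (ns k)) (fun k => not_lt.1 (hns2 k)) hf2
      (h1.comp hns.tendsto_atTop)
    linarith [h3.2]
  have h3 : Tendsto (fun n : ℕ => I (C.Γ (C.J ((n : ℝ) + 1)⁻¹ f - f)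
      (C.J ((n : ℝ) + 1)⁻¹ f - f))) atTop (𝓝 0) := by
    rw [Metric.tendsto_atTop']
    intro ε hε
    obtain ⟨N, hN⟩ := eventually_atTop.1 (h2 ε hε)
    refine ⟨N, fun n hn => ?_⟩
    have hn2 := hN n hn.le
    obtain ⟨e1, e2, e3⟩ := hC.J_est (hl n) hf
    set u := C.J ((n : ℝ) + 1)⁻¹ f
    have huW : u ∈ C.W := hW n
    have huf := hC.sub_mem huW hf
    rw [Real.dist_eq, sub_zero, abs_of_nonneg (I_nonneg (hC.nonneg _ huf))]
    have e4 : I (C.Γ (u - f) (u - f)) = I (C.Γ u u) - 2 * I (C.Γ u f) + I (C.Γ f f) := by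
      rw [hC.Γ_sub_left huW hf huf, I_sub (hC.Γ_mem1 huW huf) (hC.Γ_mem1 hf huf),
        hC.Γ_sub_right huW huW hf, hC.Γ_sub_right hf huW hf, I_sub (hC.Γ_mem1 huW huW)
        (hC.Γ_mem1 huW hf), I_sub (hC.Γ_mem1 hf huW) (hC.Γ_mem1 hf hf), hC.symm f hf u huW]
      ring
    rw [e4]
    linarith
  have h4 := h1.add h3
  rw [add_zero] at h4
  exact h4

/-- a countable set is dense in `W` -/
theorem exists_dense_seq [SigmaFinite m] [MeasurableSpace.CountablyGenerated M] :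
    ∃ u : ℕ → M →ₘ[m] ℝ, (∀ n, u n ∈ C.W) ∧
      ∀ f ∈ C.W, ∀ ε > 0, ∃ n, C.nrm2 (u n - f) < ε := by
  haveI : Fact ((1 : ℝ≥0∞) ≤ 2) := ⟨by norm_num⟩
  haveI : Fact ((2 : ℝ≥0∞) ≠ ∞) := ⟨by simp⟩
  haveI : SecondCountableTopology (Lp ℝ 2 m) := inferInstance
  set d : ℕ → Lp ℝ 2 m := TopologicalSpace.denseSeq (Lp ℝ 2 m) with hd
  have hdm : ∀ k, MemLp (d k : M →ₘ[m] ℝ) 2 m := fun k => Lp.memLp (d k)
  have hl : ∀ n : ℕ, (0 : ℝ) < ((n : ℝ) + 1)⁻¹ := fun n => by positivity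
  refine ⟨fun n => C.J (((Nat.unpair n).1 : ℝ) + 1)⁻¹ (d (Nat.unpair n).2),
    fun n => hC.J_mem (hl _) (hdm _), fun f hf ε hε => ?_⟩
  have hf2 := hC.memLp f hf
  obtain ⟨n, hn⟩ := ((hC.J_tendsto_W hf).eventually (gt_mem_nhds (show (0:ℝ) < ε / 4 by
    positivity))).exists
  -- approximate f by d k
  set δ : ℝ := ε / (4 * (n + 2)) with hδ
  have hδ0 : 0 < δ := by positivity
  obtain ⟨k, hk⟩ := Metric.denseRange_iff.1 (TopologicalSpace.denseRange_denseSeq (Lp ℝ 2 m))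
    hf2.toLp (Real.sqrt δ) (Real.sqrt_pos.2 hδ0)
  rw [← hd, dist_eq_norm] at hk
  have hk2 : I ((f - (d k : M →ₘ[m] ℝ)) ^ 2) < δ := by
    have e1 : I ((f - (d k : M →ₘ[m] ℝ)) ^ 2) = ‖hf2.toLp - d k‖ ^ 2 := by
      rw [I_sq_eq_norm (mem_sub hf2 (hdm k))]
      congr 2
      apply Lp.ext
      filter_upwards [(mem_sub hf2 (hdm k)).coeFn_toLp, Lp.coeFn_sub hf2.toLp (d k),
        hf2.coeFn_toLp, sub_ae f (d k : M →ₘ[m] ℝ)] with x a1 a2 a3 a4
      rw [a1, a2, Pi.sub_apply, a3, a4]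
    rw [e1, ← Real.sq_sqrt hδ0.le]
    have := norm_nonneg (hf2.toLp - d k)
    gcongr
  refine ⟨Nat.pair n k, ?_⟩
  simp only [Nat.unpair_pair]
  have hfd := mem_sub hf2 (hdm k)
  have c1 := hC.J_contr (hl n) hfd
  have hJ := hC.J_sub (hl n) hf2 (hdm k)
  set u := C.J ((n : ℝ) + 1)⁻¹ f
  set v := C.J ((n : ℝ) + 1)⁻¹ (d k : M →ₘ[m] ℝ)
  have huW : u ∈ C.W := hC.J_mem (hl n) hf2
  have hvW : v ∈ C.W := hC.J_mem (hl n) (hdm k)
  rw [hJ] at c1
  -- `nrm2 (v - f) ≤ 2 nrm2 (u - v) + 2 nrm2 (u - f)`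
  have huv := hC.sub_mem huW hvW
  have huf := hC.sub_mem huW hf
  have hvf := hC.sub_mem hvW hf
  have c2 : C.nrm2 (v - f) ≤ 2 * C.nrm2 (u - v) + 2 * C.nrm2 (u - f) := by
    have hsum := hC.add_mem _ huv _ huf
    have p1 : I ((v - f) ^ 2) + I ((u - v + (u - f)) ^ 2) =
        2 * I ((u - v) ^ 2) + 2 * I ((u - f) ^ 2) := by
      rw [← I_add (mem_sq (hC.memLp _ hvf)) (mem_sq (hC.memLp _ hsum)), ← I_smul, ← I_smul,
        ← I_add (mem_smul _ (mem_sq (hC.memLp _ huv))) (mem_smul _ (mem_sq (hC.memLp _ huf)))]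
      congr 1
      simp only [Algebra.smul_def]
      have e2 : algebraMap ℝ (M →ₘ[m] ℝ) 2 = 2 := map_ofNat _ 2
      rw [e2]
      ring
    have p2 : I (C.Γ (v - f) (v - f)) + I (C.Γ (u - v + (u - f)) (u - v + (u - f))) =
        2 * I (C.Γ (u - v) (u - v)) + 2 * I (C.Γ (u - f) (u - f)) := by
      have e3 : v - f = (u - f) - (u - v) := by abel
      rw [e3]
      rw [hC.Γ_sub_left huf huv (hC.sub_mem huf huv), hC.Γ_sub_right huf huf huv,
        hC.Γ_sub_right huv huf huv, hC.add_left _ huv _ huf _ hsum,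
        hC.Γ_add_right huv huv huf, hC.Γ_add_right huf huv huf, hC.symm _ huf _ huv]
      rw [I_sub (mem_sub (hC.Γ_mem1 huf huf) (hC.Γ_mem1 huv huf))
        (mem_sub (hC.Γ_mem1 huv huf) (hC.Γ_mem1 huv huv)),
        I_sub (hC.Γ_mem1 huf huf) (hC.Γ_mem1 huv huf),
        I_sub (hC.Γ_mem1 huv huf) (hC.Γ_mem1 huv huv),
        I_add (mem_add (hC.Γ_mem1 huv huv) (hC.Γ_mem1 huv huf))
        (mem_add (hC.Γ_mem1 huv huf) (hC.Γ_mem1 huf huf)),
        I_add (hC.Γ_mem1 huv huv) (hC.Γ_mem1 huv huf),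
        I_add (hC.Γ_mem1 huv huf) (hC.Γ_mem1 huf huf)]
      ring
    have p3 := I_sq_nonneg (u - v + (u - f))
    have p4 := I_nonneg (hC.nonneg _ hsum)
    unfold Calc.nrm2
    linarith
  have c3 : C.nrm2 (u - v) ≤ (n + 2) * δ := by
    unfold Calc.nrm2
    have q1 := I_sq_nonneg (u - v)
    have q2 := I_nonneg (hC.nonneg _ huv)
    have q3 : (((n : ℝ) + 1)⁻¹) * I (C.Γ (u - v) (u - v)) ≤ δ := by linarith
    have q4 : I (C.Γ (u - v) (u - v)) ≤ (n + 1) * δ := by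
      rw [inv_mul_le_iff₀ (by positivity)] at q3
      exact q3
    have q5 : I ((u - v) ^ 2) ≤ δ := by
      have : 0 ≤ (((n : ℝ) + 1)⁻¹) * I (C.Γ (u - v) (u - v)) := by positivity
      linarith
    linarith
  have c4 : ((n : ℝ) + 2) * δ = ε / 4 := by
    rw [hδ]; field_simp
  have c5 : C.nrm2 (v - f) < ε := by
    rw [c4] at c3
    linarith
  exact c5

end IsDir

end Vale.Agent.P233
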